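import Vale.Agent.P011Z.Basic.Exp

/-!
Algebraic properties of the group and of its Lie algebra.
-/

open Matrix

namespace Vale.Agent.P011Z

namespace Sys

variable {n : Type} [Fintype n] [DecidableEq n] {S : Sys n} {F : Type} [Field F]

theorem mem_lie_der {X : Matrix n n F} : X ∈ S.lie F ↔ ∀ τ ∈ S.T, der X (ev τ.2 F) = 0 := by
  refine forall₂_congr fun τ _ => ⟨fun h => MultilinearMap.ext fun x => ?_, fun h x => ?_⟩
  · rw [der_apply]
    exact h x
  · rw [← der_apply, h]
    rfl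

theorem bracket_mem {X Y : Matrix n n F} (hX : X ∈ S.lie F) (hY : Y ∈ S.lie F) :
    X * Y - Y * X ∈ S.lie F := by
  rw [mem_lie_der] at hX hY ⊢
  intro τ hτ
  rw [der_bracket, LinearMap.sub_apply, Module.End.mul_apply, Module.End.mul_apply, hX τ hτ,
    hY τ hτ, map_zero, map_zero, sub_zero]

theorem ev_single {a : ℕ} (t : (Fin a → n) → ℚ) (i : Fin a → n) :
    ev t F (fun r => Pi.single (i r) 1) = (t i : F) := by
  rw [ev_apply, Finset.sum_eq_single i]
  · simp
  · intro j _ hj
    obtain ⟨r, hr⟩ := Function.ne_iff.1 hj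
    rw [Finset.prod_eq_zero (Finset.mem_univ r) (by simp [hr]), mul_zero]
  · simp

theorem der_ev_single {a : ℕ} (t : (Fin a → n) → ℚ) (X : Matrix n n F) (i : Fin a → n) :
    der X (ev t F) (fun r => Pi.single (i r) 1) =
      ∑ r, ∑ k, (t (Function.update i r k) : F) * X k (i r) := by
  rw [der_apply]
  refine Finset.sum_congr rfl fun r _ => ?_
  have h1 : X *ᵥ Pi.single (i r) 1 = ∑ k, X k (i r) • (Pi.single k 1 : n → F) := by
    ext k
    simp [Finset.sum_apply, Pi.single_apply]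
  rw [h1, MultilinearMap.map_update_sum]
  refine Finset.sum_congr rfl fun k _ => ?_
  rw [MultilinearMap.map_update_smul, ← ev_single, smul_eq_mul, mul_comm]
  refine congrArg (fun y => ev t F y * _) (funext fun q => ?_)
  by_cases hq : q = r
  · subst hq
    simp
  · simp [hq]

/-- The coordinate form of the infinitesimal invariance. -/
theorem mem_lie_iff {X : Matrix n n F} : X ∈ S.lie F ↔ ∀ τ ∈ S.T, ∀ i : Fin τ.1 → n,
    ∑ r, ∑ k, (τ.2 (Function.update i r k) : F) * X k (i r) = 0 := by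
  rw [mem_lie_der]
  refine forall₂_congr fun τ _ => ⟨fun h i => ?_, fun h => ?_⟩
  · rw [← der_ev_single, h]
    rfl
  · refine Module.Basis.ext_multilinear (fun _ => Pi.basisFun F n) fun i => ?_
    simp only [Pi.basisFun_apply]
    rw [der_ev_single, h]
    rfl

variable [CharZero F]

theorem conj_mem (g : S.mon F) {X : Matrix n n F} (hX : X ∈ S.lie F) :
    (g : Matrix n n F) * X * ((g⁻¹ : S.mon F) : Matrix n n F) ∈ S.lie F := by
  intro τ hτ x
  rw [← hX τ hτ fun r => ((g⁻¹ : S.mon F) : Matrix n n F) *ᵥ x r]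
  refine Finset.sum_congr rfl fun r _ => ?_
  rw [← (g⁻¹).2 τ hτ]
  refine congrArg _ (funext fun q => ?_)
  by_cases hq : q = r
  · subst hq
    simp only [Function.update_self, mulVec_mulVec, ← Matrix.mul_assoc, coe_inv_mul,
      Matrix.one_mul]
  · simp only [Function.update_of_ne hq]

theorem skew_of_mem {X : Matrix n n F} (hX : X ∈ S.lie F) :
    Xᵀ * S.BF F + S.BF F * X = 0 := by
  ext i j
  have h := mem_lie_iff.1 hX _ S.memB ![i, j]
  simp only [Fin.sum_univ_two, Function.update_self, ne_eq, one_ne_zero, not_false_eq_true,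
    Function.update_of_ne, zero_ne_one, cons_val_zero, cons_val_one] at h
  simp only [Matrix.add_apply, mul_apply, transpose_apply, BF, map_apply, Matrix.zero_apply]
  rw [← h]
  exact congrArg (· + _) (Finset.sum_congr rfl fun k _ => mul_comm _ _)

theorem map_mem_lie {F' : Type} [Field F'] [CharZero F'] (φ : F →+* F') {X : Matrix n n F}
    (hX : X ∈ S.lie F) : X.map φ ∈ S.lie F' := by
  rw [mem_lie_iff] at hX ⊢
  intro τ hτ i
  have h := congrArg φ (hX τ hτ i)
  simpa [map_sum] using h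

theorem mem_lie_of_map {F' : Type} [Field F'] [CharZero F'] (φ : F →+* F') {X : Matrix n n F}
    (hX : X.map φ ∈ S.lie F') : X ∈ S.lie F := by
  rw [mem_lie_iff] at hX ⊢
  intro τ hτ i
  refine φ.injective ?_
  simpa [map_sum] using hX τ hτ i

theorem mem_mon_of_map {F' : Type} [Field F'] [CharZero F'] (φ : F →+* F') {g : Matrix n n F}
    (hg : g.map φ ∈ S.mon F') : g ∈ S.mon F := by
  rw [mem_mon_iff] at hg ⊢
  intro τ hτ i
  refine φ.injective ?_
  simpa [map_sum, map_prod] using hg τ hτ i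

section Coord

variable {F' : Type} [Field F'] {φ : F →+* F'}

/-- Additive maps which are linear over the smaller field. -/
def IsCoord (φ : F →+* F') (l : F' →+ F) : Prop := ∀ c x, l (φ c * x) = c * l x

omit [CharZero F] [DecidableEq n] in
/-- Every matrix is a combination of its components. -/
theorem mem_span_coord (φ : F →+* F') (X : Matrix n n F') :
    X ∈ Submodule.span F' {Y | ∃ l, IsCoord φ l ∧ Y = (X.map l).map φ} := by
  classical
  let _ := φ.toAlgebra
  let b := Module.Basis.ofVectorSpace F F'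
  let s := (Finset.univ : Finset (n × n)).biUnion fun p => (b.repr (X p.1 p.2)).support
  have h : X = ∑ i ∈ s, b i • (X.map (b.coord i).toAddMonoidHom).map φ := by
    ext k l
    rw [Matrix.sum_apply]
    conv_lhs => rw [← b.linearCombination_repr (X k l), Finsupp.linearCombination_apply,
      Finsupp.sum_of_support_subset _ (s := s)
        (Finset.subset_biUnion_of_mem (fun p : n × n => (b.repr (X p.1 p.2)).support)
          (Finset.mem_univ (k, l))) (fun i a => a • b i) (fun i _ => zero_smul _ _)]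
    exact Finset.sum_congr rfl fun i _ => mul_comm _ _
  rw [h]
  refine Submodule.sum_mem _ fun i _ => Submodule.smul_mem _ _ (Submodule.subset_span
    ⟨(b.coord i).toAddMonoidHom, fun c x => (b.coord i).map_smul c x, ?_⟩)
  rw [← h]

omit [CharZero F] [DecidableEq n] in
theorem eq_zero_of_coord (φ : F →+* F') {X : Matrix n n F'}
    (h : ∀ l, IsCoord φ l → X.map l = 0) : X = 0 := by
  refine (Submodule.mem_bot F').1 (Submodule.span_le.2 ?_ (mem_span_coord φ X))
  rintro _ ⟨l, hl, rfl⟩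
  rw [h l hl]
  simp

omit [CharZero F] [DecidableEq n] in
theorem IsCoord.map_mul_right {l : F' →+ F} (hl : IsCoord φ l) (X : Matrix n n F')
    (Y : Matrix n n F) : (X * Y.map φ).map l = X.map l * Y := by
  ext i j
  simp only [map_apply, mul_apply, map_sum]
  exact Finset.sum_congr rfl fun k _ => by rw [mul_comm, hl, mul_comm]

omit [CharZero F] [DecidableEq n] in
theorem IsCoord.map_mul_left {l : F' →+ F} (hl : IsCoord φ l) (X : Matrix n n F')
    (Y : Matrix n n F) : (Y.map φ * X).map l = Y * X.map l := by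
  ext i j
  simp only [map_apply, mul_apply, map_sum]
  exact Finset.sum_congr rfl fun k _ => hl _ _

omit [CharZero F] in
theorem IsCoord.map_mem [CharZero F'] {l : F' →+ F} (hl : IsCoord φ l) {X : Matrix n n F'}
    (hX : X ∈ S.lie F') : X.map l ∈ S.lie F := by
  rw [mem_lie_iff] at hX ⊢
  intro τ hτ i
  have h := congrArg l (hX τ hτ i)
  simp only [map_sum, map_zero, ← map_ratCast φ, hl _ _] at h
  exact h

end Coord

/-- Base change of the Lie algebra. -/
theorem lie_eq_span {F' : Type} [Field F'] [CharZero F'] (φ : F →+* F') :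
    S.lie F' = Submodule.span F' ((fun X : Matrix n n F => X.map φ) '' (S.lie F)) := by
  refine le_antisymm (fun X hX => Submodule.span_mono ?_ (mem_span_coord φ X))
    (Submodule.span_le.2 ?_)
  · rintro _ ⟨l, hl, rfl⟩
    exact ⟨_, hl.map_mem hX, rfl⟩
  · rintro _ ⟨X, hX, rfl⟩
    exact map_mem_lie φ hX

theorem exp_mem {X : Matrix n n F} (hX : X ∈ S.lie F) (hn : IsNilpotent X) :
    IsNilpotent.exp X ∈ S.mon F :=
  fun τ hτ => (der_eq_zero_iff hn _).1 (mem_lie_der.1 hX τ hτ)

/-- The logarithm of a unipotent element. -/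
theorem exists_log {g : Matrix n n F} (hg : g ∈ S.mon F) (hn : IsNilpotent (g - 1)) :
    ∃ X ∈ S.lie F, IsNilpotent X ∧ IsNilpotent.exp X = g ∧ ∀ y, Commute g y → Commute X y := by
  obtain ⟨X, h1, h2, h3⟩ := exists_log_ring hn
  refine ⟨X, mem_lie_der.2 fun τ hτ => (der_eq_zero_iff h1 _).2 ?_, h1, h2, h3⟩
  rw [h2]
  exact hg τ hτ

theorem noNil_of_noUni (Λ : Subgroup (S.mon ℚ)) [Λ.FiniteIndex]
    (h : ∀ g ∈ Λ, IsNilpotent ((g : Matrix n n ℚ) - 1) → g = 1) : S.NoNil := by
  intro X hX hn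
  obtain ⟨m, hm, -, h1⟩ := Subgroup.exists_pow_mem_of_index_ne_zero
    (Subgroup.FiniteIndex.index_ne_zero (H := Λ)) ⟨_, exp_mem hX hn⟩
  have h2 : (((⟨_, exp_mem hX hn⟩ : S.mon ℚ) ^ m : S.mon ℚ) : Matrix n n ℚ) =
      IsNilpotent.exp (m • X) := by
    rw [exp_nsmul hn]
    rfl
  have h3 := h _ h1 (by rw [h2]; exact IsNilpotent.isNilpotent_exp_sub_one (hn.smul m))
  rw [h3] at h2
  have h4 := eq_zero_of_exp_eq_one (hn.smul m) h2.symm
  rw [← Nat.cast_smul_eq_nsmul ℚ, smul_eq_zero] at h4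
  exact h4.resolve_left (Nat.cast_ne_zero.2 hm.ne')

theorem trNd_map {F' : Type} [Field F'] [CharZero F'] (φ : F →+* F') (h : S.TrNd F) :
    S.TrNd F' := fun X hX H =>
  eq_zero_of_coord φ fun l hl => h _ (hl.map_mem hX) fun Y hY => by
    rw [← hl.map_mul_right, ← AddMonoidHom.map_trace, H _ (map_mem_lie φ hY), map_zero]

theorem noCen_map {F' : Type} [Field F'] [CharZero F'] (φ : F →+* F') (h : S.NoCen F) :
    S.NoCen F' := fun X hX H =>
  eq_zero_of_coord φ fun l hl => h _ (hl.map_mem hX) fun Y hY => by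
    rw [← hl.map_mul_right, H _ (map_mem_lie φ hY), hl.map_mul_left]

theorem noCen_of_prime (h : S.Prime) : S.NoCen ℚ := by
  intro X hX H
  have h1 : S.IsIdeal ℚ (Submodule.span ℚ {X}) := by
    refine ⟨(Submodule.span_singleton_le_iff_mem _ _).2 hX, fun Y hY Z hZ => ?_⟩
    obtain ⟨c, rfl⟩ := Submodule.mem_span_singleton.1 hZ
    rw [mul_smul_comm, smul_mul_assoc, H Y hY, sub_self]
    exact zero_mem _
  have h2 := h _ _ h1 h1 fun Y hY Z hZ => by
    obtain ⟨c, rfl⟩ := Submodule.mem_span_singleton.1 hY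
    obtain ⟨d, rfl⟩ := Submodule.mem_span_singleton.1 hZ
    exact (((Commute.refl X).smul_left c).smul_right d).eq
  exact Submodule.span_singleton_eq_bot.1 (h2.elim id id)

variable (S) in
/-- The orthogonal complement for the trace form. -/
def perp (I : Submodule F (Matrix n n F)) : Submodule F (Matrix n n F) where
  carrier := {Y | Y ∈ S.lie F ∧ ∀ X ∈ I, (X * Y).trace = 0}
  zero_mem' := ⟨zero_mem _, fun X _ => by simp⟩
  add_mem' := fun {Y Z} hY hZ => ⟨add_mem hY.1 hZ.1, fun X hX => by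
    rw [mul_add, trace_add, hY.2 X hX, hZ.2 X hX, add_zero]⟩
  smul_mem' := fun c Y hY => ⟨Submodule.smul_mem _ c hY.1, fun X hX => by
    rw [mul_smul_comm, trace_smul, hY.2 X hX, smul_zero]⟩

omit [CharZero F] in
theorem mem_perp {I : Submodule F (Matrix n n F)} {Y : Matrix n n F} :
    Y ∈ S.perp I ↔ Y ∈ S.lie F ∧ ∀ X ∈ I, (X * Y).trace = 0 := Iff.rfl

omit [CharZero F] in
theorem perp_perp (h : S.TrNd F) {I : Submodule F (Matrix n n F)} (hI : I ≤ S.lie F) :
    S.perp (S.perp I) = I := by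
  let B : LinearMap.BilinForm F (S.lie F) :=
    LinearMap.mk₂ F (fun X Y => ((X : Matrix n n F) * (Y : Matrix n n F)).trace)
      (fun _ _ _ => by simp [add_mul]) (fun _ _ _ => by simp)
      (fun _ _ _ => by simp [mul_add]) (fun _ _ _ => by simp)
  have hB : ∀ X Y : S.lie F, B X Y = ((X : Matrix n n F) * (Y : Matrix n n F)).trace :=
    fun _ _ => rfl
  have h1 : B.IsRefl := fun X Y H => by rwa [hB, trace_mul_comm]
  have h2 : B.Nondegenerate := ⟨fun X H => Subtype.ext (h X X.2 fun Y hY => H ⟨Y, hY⟩),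
    fun X H => Subtype.ext (h X X.2 fun Y hY => h1 _ _ (H ⟨Y, hY⟩))⟩
  have h3 : ∀ J : Submodule F (Matrix n n F), J ≤ S.lie F →
      (S.perp J).comap (S.lie F).subtype = B.orthogonal (J.comap (S.lie F).subtype) := by
    intro J hJ
    ext Y
    exact ⟨fun H X hX => H.2 X hX, fun H => ⟨Y.2, fun X hX => H ⟨X, hJ hX⟩ hX⟩⟩
  have h4 : ∀ J : Submodule F (Matrix n n F), S.perp J ≤ S.lie F := fun J Y hY => hY.1
  have h5 := LinearMap.BilinForm.orthogonal_orthogonal h2 h1 (I.comap (S.lie F).subtype)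
  rw [← h3 I hI, ← h3 _ (h4 I)] at h5
  ext Y
  exact ⟨fun H => (h5.le (show (⟨Y, H.1⟩ : S.lie F) ∈ _ from H) :),
    fun H => (h5.ge (show (⟨Y, hI H⟩ : S.lie F) ∈ _ from H) :)⟩

omit [CharZero F] in
theorem eq_lie_of_perp (h : S.TrNd F) {I : Submodule F (Matrix n n F)} (hI : I ≤ S.lie F)
    (h0 : S.perp I = ⊥) : I = S.lie F := by
  refine le_antisymm hI fun Y hY => ?_
  rw [← perp_perp h hI, h0]
  exact ⟨hY, fun X hX => by rw [(Submodule.mem_bot F).1 hX, zero_mul, trace_zero]⟩

omit [CharZero F] in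
theorem perp_ideal {I : Submodule F (Matrix n n F)} (hI : S.IsIdeal F I) :
    S.IsIdeal F (S.perp I) := by
  refine ⟨fun Y hY => hY.1, fun X hX Y hY => ⟨bracket_mem hX hY.1, fun Z hZ => ?_⟩⟩
  have h1 := hY.2 _ (hI.2 X hX Z hZ)
  rw [sub_mul, trace_sub, Matrix.mul_assoc X, trace_mul_comm X] at h1
  rw [mul_sub, trace_sub, ← Matrix.mul_assoc, ← Matrix.mul_assoc, ← neg_sub, h1, neg_zero]

omit [CharZero F] in
theorem perp_comm (h : S.TrNd F) {I : Submodule F (Matrix n n F)} (hI : S.IsIdeal F I)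
    {X Y : Matrix n n F} (hX : X ∈ I) (hY : Y ∈ S.perp I) : X * Y = Y * X := by
  refine sub_eq_zero.1 (h _ (bracket_mem (hI.1 hX) hY.1) fun Z hZ => ?_)
  have h1 := hY.2 _ (hI.2 Z hZ X hX)
  rw [sub_mul, trace_sub] at h1
  rw [sub_mul, trace_sub, trace_mul_comm (X * Y), ← Matrix.mul_assoc, Matrix.mul_assoc Y,
    trace_mul_comm Y, h1]

theorem ideal_eq_lie (hP : S.Prime) (h : S.TrNd ℚ) {I : Submodule ℚ (Matrix n n ℚ)}
    (hI : S.IsIdeal ℚ I) (h0 : I ≠ ⊥) : I = S.lie ℚ :=
  eq_lie_of_perp h hI.1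
    ((hP I _ hI (perp_ideal hI) fun _ hX _ hY => perp_comm h hI hX hY).resolve_left h0)

/-- A rational point which centralises a nonzero ideal over `F` centralises the Lie algebra. -/
theorem cent_of_ideal (hP : S.Prime) (h : S.TrNd ℚ) {J : Submodule F (Matrix n n F)}
    (hJ : S.IsIdeal F J) (h0 : J ≠ ⊥) (γ : S.mon ℚ)
    (hγ : ∀ Y ∈ J, (S.up F γ : Matrix n n F) * Y = Y * (S.up F γ : Matrix n n F)) :
    S.Cent ℚ γ := by
  let I := Submodule.span ℚ {Z | ∃ Y ∈ J, ∃ l, IsCoord (Rat.castHom F) l ∧ Z = Y.map l}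
  have h1 : S.IsIdeal ℚ I := by
    refine ⟨Submodule.span_le.2 ?_, fun X hX Z hZ => ?_⟩
    · rintro _ ⟨Y, hY, l, hl, rfl⟩
      exact hl.map_mem (hJ.1 hY)
    · induction hZ using Submodule.span_induction with
      | mem Z hZ =>
        obtain ⟨Y, hY, l, hl, rfl⟩ := hZ
        refine Submodule.subset_span ⟨_, hJ.2 _ (map_mem_lie (Rat.castHom F) hX) Y hY, l, hl, ?_⟩
        rw [Matrix.map_sub _ (map_sub l), hl.map_mul_left, hl.map_mul_right]
      | zero => simp
      | add Y Z _ _ h2 h3 =>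
        rw [mul_add, add_mul, add_sub_add_comm]
        exact add_mem h2 h3
      | smul c Y _ h2 =>
        rw [mul_smul_comm, smul_mul_assoc, ← smul_sub]
        exact Submodule.smul_mem _ c h2
  have h2 : I ≠ ⊥ := fun H => h0 ((Submodule.eq_bot_iff _).2 fun Y hY =>
    eq_zero_of_coord (Rat.castHom F) fun l hl =>
      (Submodule.eq_bot_iff _).1 H _ (Submodule.subset_span ⟨Y, hY, l, hl, rfl⟩))
  intro X hX
  rw [← ideal_eq_lie hP h h1 h2] at hX
  induction hX using Submodule.span_induction with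
  | mem Z hZ =>
    obtain ⟨Y, hY, l, hl, rfl⟩ := hZ
    rw [← hl.map_mul_left, ← hl.map_mul_right]
    exact congrArg (fun Z : Matrix n n F => Z.map l) (hγ Y hY)
  | zero => simp
  | add Y Z _ _ h3 h4 => rw [mul_add, add_mul, h3, h4]
  | smul c Y _ h3 => rw [mul_smul_comm, smul_mul_assoc, h3]

theorem cent_up {γ : S.mon ℚ} (hγ : S.Cent ℚ γ) : S.Cent F (S.up F γ) := by
  intro X hX
  rw [lie_eq_span (Rat.castHom F)] at hX
  induction hX using Submodule.span_induction with
  | mem Z hZ =>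
    obtain ⟨Y, hY, rfl⟩ := hZ
    exact (Matrix.map_mul (f := Rat.castHom F)).symm.trans
      ((congrArg (fun Z : Matrix n n ℚ => Z.map (Rat.castHom F)) (hγ Y hY)).trans Matrix.map_mul)
  | zero => simp
  | add Y Z _ _ h3 h4 => rw [mul_add, add_mul, h3, h4]
  | smul c Y _ h3 => rw [mul_smul_comm, smul_mul_assoc, h3]

end Sys

end Vale.Agent.P011Z
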