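import Vale.Agent.P011Z.Basic
import Vale.Agent.P011Z.Open.Eqn
import Vale.Agent.P011Z.Open.Prod

/-!
The group near the identity: tangent vectors and open maps.
-/

open Matrix Topology Filter

namespace Vale.Agent.P011Z

namespace Sys

open Opn

variable {n : Type} [Fintype n] [DecidableEq n] {S : Sys n} {F : Type}
  [NontriviallyNormedField F] [CharZero F] [CompleteSpace F]

omit [CharZero F] [CompleteSpace F] in
theorem exists_lin_le : ∃ C : ℝ, 0 < C ∧ ∀ y : n → n → F, 1 + Matrix.of y ∈ S.mon F → ‖y‖ ≤ 1 →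
    ‖lin S F y‖ ≤ C * ‖y‖ ^ 2 := by
  obtain ⟨C, hC, h⟩ := exists_second S F
  refine ⟨C, hC, fun y hy h1 => ?_⟩
  have h2 : eqn S F (one F + y) = eqn S F (one F) := mem_mon_iff_eqn.1 hy
  have h3 := h y h1
  rwa [h2, sub_self, zero_sub, norm_neg] at h3

set_option linter.unusedSectionVars false in
/-- Elements near one are close to `1 + lie` to the second order (norm of the largest entry). -/
theorem exists_tangent : ∃ C : ℝ, 0 < C ∧ ∀ y : n → n → F, 1 + Matrix.of y ∈ S.mon F → ‖y‖ ≤ 1 →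
    ∃ X : n → n → F, Matrix.of X ∈ S.lie F ∧ ‖y - X‖ ≤ C * ‖y‖ ^ 2 := by
  obtain ⟨C, hC, h⟩ := exists_lin_le (S := S) (F := F)
  obtain ⟨P, D, hD, hP, hPD⟩ := exists_proj F (lin S F)
  refine ⟨D * C, mul_pos hD hC, fun y hy h1 => ⟨P y, mem_lie_iff_lin.2 (hP y), ?_⟩⟩
  rw [mul_assoc]
  exact (hPD y).trans (mul_le_mul_of_nonneg_left (h y hy h1) hD.le)

set_option linter.unusedSectionVars false in
theorem mem_lie_of_tendsto {ι : Type} {l : Filter ι} [l.NeBot] {y : ι → n → n → F} {c : ι → F}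
    {X : n → n → F} (hy : ∀ᶠ i in l, 1 + Matrix.of (y i) ∈ S.mon F) (h0 : Tendsto y l (𝓝 0))
    (hX : Tendsto (fun i => c i • y i) l (𝓝 X)) : Matrix.of X ∈ S.lie F := by
  obtain ⟨C, hC, h⟩ := exists_lin_le (S := S) (F := F)
  have h1 : Tendsto (fun i => lin S F (c i • y i)) l (𝓝 (lin S F X)) :=
    ((lin S F).continuous.tendsto X).comp hX
  have h2 : Tendsto (fun i => C * (‖c i • y i‖ * ‖y i‖)) l (𝓝 (C * (‖X‖ * ‖(0 : n → n → F)‖))) :=
    (hX.norm.mul h0.norm).const_mul C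
  rw [norm_zero, mul_zero, mul_zero] at h2
  have h3 : ∀ᶠ i in l, ‖y i‖ ≤ 1 := by
    have h4 := h0.norm
    rw [norm_zero] at h4
    exact h4.eventually (ge_mem_nhds zero_lt_one)
  have h4 : Tendsto (fun i => lin S F (c i • y i)) l (𝓝 0) := by
    refine squeeze_zero_norm' ?_ h2
    filter_upwards [hy, h3] with i hi hi'
    rw [map_smul, norm_smul, norm_smul]
    have h5 := mul_le_mul_of_nonneg_left (h _ hi hi') (norm_nonneg (c i))
    nlinarith
  exact mem_lie_iff_lin.2 (tendsto_nhds_unique h1 h4)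

theorem mem_lie_of_hasDerivAt {c : F → n → n → F} {X : n → n → F} (h : HasDerivAt c X 0)
    (h0 : Matrix.of (c 0) = 1) (hm : ∃ᶠ t in 𝓝[≠] (0 : F), Matrix.of (c t) ∈ S.mon F) :
    Matrix.of X ∈ S.lie F := by
  have : (𝓝[≠] (0 : F) ⊓ 𝓟 {t | Matrix.of (c t) ∈ S.mon F}).NeBot := frequently_iff_neBot.1 hm
  refine mem_lie_of_tendsto (l := 𝓝[≠] (0 : F) ⊓ 𝓟 {t | Matrix.of (c t) ∈ S.mon F})
    (y := fun t => c (0 + t) - c 0) (c := fun t => t⁻¹) ?_ ?_ ?_
  · refine Eventually.filter_mono inf_le_right (eventually_principal.2 fun t ht => ?_)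
    have h1 : 1 + Matrix.of (c (0 + t) - c 0) = Matrix.of (c t) := by
      rw [← h0, zero_add]
      ext i j
      simp
    rw [h1]
    exact ht
  · have h1 : Tendsto (fun t => c (0 + t) - c 0) (𝓝 0) (𝓝 (c 0 - c 0)) := by
      simpa only [zero_add] using h.continuousAt.tendsto.sub_const (c 0)
    rw [sub_self] at h1
    exact h1.mono_left (inf_le_left.trans nhdsWithin_le_nhds)
  · exact (hasDerivAt_iff_tendsto_slope_zero.1 h).mono_left inf_le_left

omit [CharZero F] in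
/-- A projection onto the Lie algebra which is injective on the group near one. -/
theorem exists_proj_inj : ∃ P : (n → n → F) →L[F] (n → n → F),
    (∀ y, lin S F (P y) = 0) ∧ (∀ y, lin S F y = 0 → P y = y) ∧
    ∃ U ∈ 𝓝 (one F : n → n → F), ∀ g ∈ U, ∀ h ∈ U, Matrix.of g ∈ S.mon F →
      Matrix.of h ∈ S.mon F → P g = P h → g = h := by
  obtain ⟨P, D, hD, hP, hPD⟩ := exists_proj F (lin S F)
  refine ⟨P, hP, fun y hy => ?_, ?_⟩
  · have h1 := hPD y
    rw [hy, norm_zero, mul_zero, norm_le_zero_iff, sub_eq_zero] at h1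
    exact h1.symm
  obtain ⟨U, hU, h1⟩ := exists_approx (hasStrictFDerivAt_eqn S F) (c := (2 * D)⁻¹) (by positivity)
  refine ⟨U, hU, fun g hg h hh hg' hh' he => ?_⟩
  have h2 := h1 g hg h hh
  rw [mem_mon_iff_eqn.1 hg', mem_mon_iff_eqn.1 hh', sub_self, zero_sub, norm_neg] at h2
  have h3 := hPD (g - h)
  rw [map_sub P, he, sub_self, sub_zero] at h3
  have h4 : D * ((2 * D)⁻¹ * ‖g - h‖) = ‖g - h‖ / 2 := by field_simp
  have h5 := mul_le_mul_of_nonneg_left h2 hD.le
  have h6 := norm_nonneg (g - h)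
  exact sub_eq_zero.1 (norm_le_zero_iff.1 (by linarith))

set_option linter.unusedSectionVars false in
/-- A map into the group whose derivative is onto the Lie algebra is open at the origin. -/
theorem open_of_surj {E : Type} [NormedAddCommGroup E] [NormedSpace F E] [CompleteSpace E]
    {Φ : E → n → n → F} {Φ' : E →L[F] n → n → F} (h : HasStrictFDerivAt Φ Φ' 0)
    (h0 : Matrix.of (Φ 0) = 1) (hm : ∀ᶠ x in 𝓝 (0 : E), Matrix.of (Φ x) ∈ S.mon F)
    (hs : ∀ X ∈ S.lie F, ∃ x, Matrix.of (Φ' x) = X) {V : Set E} (hV : V ∈ 𝓝 (0 : E)) :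
    ∀ᶠ g : S.mon F in 𝓝 1, ∃ x ∈ V, (g : Matrix n n F) = Matrix.of (Φ x) := by
  obtain ⟨P, hP, hP', U, hU, hinj⟩ := exists_proj_inj (S := S) (F := F)
  let K : Submodule F (n → n → F) := (lin S F).ker
  have : CompleteSpace K := FiniteDimensional.complete F K
  let P' : (n → n → F) →L[F] K := P.codRestrict K hP
  have h0' : Φ 0 = one F := Matrix.of.injective h0
  have h1 : HasStrictFDerivAt (fun x => P' (Φ x)) (P'.comp Φ') 0 :=
    P'.hasStrictFDerivAt.comp 0 h
  have h2 : (P'.comp Φ').range = ⊤ := by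
    refine LinearMap.range_eq_top.2 fun X => ?_
    obtain ⟨x, hx⟩ := hs (Matrix.of X.1) (mem_lie_iff_lin.2 X.2)
    refine ⟨x, Subtype.ext ?_⟩
    change P (Φ' x) = X.1
    rw [Matrix.of.injective hx]
    exact hP' _ X.2
  have h3 := h1.map_nhds_eq_of_surj h2
  have h4 : ∀ᶠ x in 𝓝 (0 : E), Φ x ∈ U := h.continuousAt.tendsto.eventually (h0' ▸ hU)
  have h5 : (fun x => P' (Φ x)) '' {x | x ∈ V ∧ Φ x ∈ U ∧ Matrix.of (Φ x) ∈ S.mon F} ∈
      𝓝 (P' (Φ 0)) := by
    rw [← h3]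
    exact image_mem_map (inter_mem hV (h4.and hm))
  have h6 : Tendsto (fun g : S.mon F => (Matrix.of.symm (g : Matrix n n F) : n → n → F))
      (𝓝 1) (𝓝 (one F)) := continuous_subtype_val.tendsto (1 : S.mon F)
  rw [h0'] at h5
  filter_upwards [h6.eventually hU, ((P'.continuous.tendsto _).comp h6).eventually h5]
    with g hg hg'
  obtain ⟨x, ⟨hxV, hxU, hxm⟩, hx⟩ := hg'
  refine ⟨x, hxV, ?_⟩
  have h7 := hinj _ hg _ hxU g.2 hxm (congrArg Subtype.val hx).symm
  exact congrArg Matrix.of h7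

/-- Products of curves whose tangent vectors span the Lie algebra. -/
theorem open_of_curves {d : ℕ} {c : Fin d → F → n → n → F} {X : Fin d → n → n → F}
    (h : ∀ i, HasStrictDerivAt (c i) (X i) 0) (h0 : ∀ i, Matrix.of (c i 0) = 1)
    (hm : ∀ i, ∀ᶠ t in 𝓝 (0 : F), Matrix.of (c i t) ∈ S.mon F)
    (hs : S.lie F ≤ Submodule.span F (Set.range fun i => Matrix.of (X i)))
    {V : Set F} (hV : V ∈ 𝓝 (0 : F)) :
    ∀ᶠ g : S.mon F in 𝓝 1, ∃ t : Fin d → F, (∀ i, t i ∈ V) ∧
      (g : Matrix n n F) = (List.ofFn fun i => Matrix.of (c i (t i))).prod := by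
  have h1 : ∀ i, HasStrictFDerivAt (fun t : Fin d → F => c i (t i))
      ((ContinuousLinearMap.toSpanSingleton F (X i)).comp
        (ContinuousLinearMap.proj i : (Fin d → F) →L[F] F)) 0 := fun i =>
    HasStrictFDerivAt.comp (0 : Fin d → F) (g := c i) (h i).hasStrictFDerivAt
      (ContinuousLinearMap.proj i : (Fin d → F) →L[F] F).hasStrictFDerivAt
  have h2 := strict_prod h1 h0
  have h3 : ∀ i, Tendsto (fun t : Fin d → F => t i) (𝓝 0) (𝓝 0) := fun i =>
    (continuous_apply i).tendsto (0 : Fin d → F)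
  have h4 : {t : Fin d → F | ∀ i, t i ∈ V} ∈ 𝓝 (0 : Fin d → F) :=
    eventually_all.2 fun i => (h3 i).eventually hV
  refine open_of_surj (S := S) h2 (by simp [h0]) ?_ ?_ h4
  · filter_upwards [eventually_all.2 fun i => (h3 i).eventually (hm i)] with t ht
    refine list_prod_mem fun g hg => ?_
    obtain ⟨i, rfl⟩ := List.mem_ofFn.1 hg
    exact ht i
  · intro Y hY
    obtain ⟨t, rfl⟩ := (Submodule.mem_span_range_iff_exists_fun F).1 (hs hY)
    refine ⟨t, ?_⟩
    ext i j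
    simp [Matrix.sum_apply]

/-- A closed subgroup which contains curves (over a dense set of parameters) whose tangent vectors
span the Lie algebra is a neighbourhood of one. -/
theorem nhds_of_curves (H : Subgroup (S.mon F)) (hH : IsClosed (H : Set (S.mon F)))
    (hs : S.lie F ≤ Submodule.span F {X | ∃ c : F → n → n → F, ∃ X' : n → n → F,
      X = Matrix.of X' ∧ HasStrictDerivAt c X' 0 ∧ Matrix.of (c 0) = 1 ∧
      ∀ᶠ t in 𝓝 (0 : F), t ∈ closure {u | ∃ g ∈ H, (g : Matrix n n F) = Matrix.of (c u)}}) :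
    (H : Set (S.mon F)) ∈ 𝓝 (1 : S.mon F) := by
  obtain ⟨s, hs1, hs2⟩ := (Submodule.fg_span_iff_fg_span_finset_subset _).1
    (IsNoetherian.noetherian (Submodule.span F {X : Matrix n n F |
      ∃ c : F → n → n → F, ∃ X' : n → n → F,
      X = Matrix.of X' ∧ HasStrictDerivAt c X' 0 ∧ Matrix.of (c 0) = 1 ∧
      ∀ᶠ t in 𝓝 (0 : F), t ∈ closure {u | ∃ g ∈ H, (g : Matrix n n F) = Matrix.of (c u)}}))
  choose c X hX hc hc0 hcl using fun i : Fin s.card => hs1 (s.equivFin.symm i).2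
  let H' : Submonoid (Matrix n n F) := H.toSubmonoid.map (S.mon F).subtype
  have hH' : IsClosed (H' : Set (Matrix n n F)) :=
    isClosed_mon.isClosedEmbedding_subtypeVal.isClosedMap _ hH
  have h1 : ∀ i, ∀ᶠ t in 𝓝 (0 : F), Matrix.of (c i t) ∈ H' := by
    intro i
    obtain ⟨K, W, hW, hK⟩ := (hc i).hasStrictFDerivAt.exists_lipschitzOnWith
    filter_upwards [hcl i, eventually_eventually_nhds.2 hW] with t ht ht'
    have h2 : ContinuousAt (fun u => Matrix.of (c i u)) t := hK.continuousOn.continuousAt ht'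
    have h3 := mem_closure_image h2 ht
    refine closure_minimal ?_ hH' h3
    rintro _ ⟨u, ⟨g, hg, hu⟩, rfl⟩
    exact ⟨g, hg, hu⟩
  have h2 : S.lie F ≤ Submodule.span F (Set.range fun i => Matrix.of (X i)) := by
    refine hs.trans (hs2.le.trans (Submodule.span_mono fun Y hY => ?_))
    refine ⟨s.equivFin ⟨Y, hY⟩, ?_⟩
    beta_reduce
    rw [← hX, Equiv.symm_apply_apply]
  have h3 := open_of_curves (S := S) hc hc0
    (fun i => (h1 i).mono fun t ht => by
      obtain ⟨g, -, hg⟩ := ht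
      rw [← hg]
      exact g.2) h2 (eventually_all.2 h1)
  filter_upwards [h3] with g hg
  obtain ⟨t, ht, hg⟩ := hg
  have h4 : (g : Matrix n n F) ∈ H' := by
    rw [hg]
    refine list_prod_mem fun y hy => ?_
    obtain ⟨i, rfl⟩ := List.mem_ofFn.1 hy
    exact ht i i
  obtain ⟨g', hg', he⟩ := h4
  rwa [← Subtype.ext he]

end Sys

end Vale.Agent.P011Z
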