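import Vale.Agent.P011Z.Grad
import Vale.Agent.P011Z.Open
import Vale.Agent.P011Z.Cell.Alg

/-!
The big cell.
-/

open Matrix Topology Filter

namespace Vale.Agent.P011Z

namespace CL

variable {n : Type} [Fintype n] [DecidableEq n] {S : Sys n} {I : Type} [Fintype I]

section alg

variable {F : Type} [Field F] [CharZero F] {e : I → Matrix n n F} {k : I → ℤ} {w : F}
  {s : S.mon F}

theorem inv_eq (he : IsDec e) (hw : w ≠ 0) (hs : (s : Matrix n n F) = ∑ i, w ^ k i • e i) :
    ((s⁻¹ : S.mon F) : Matrix n n F) = ∑ i, w ^ (-k) i • e i := by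
  have h1 : (s : Matrix n n F) * ∑ i, w ^ (-k) i • e i = 1 := by
    rw [Finset.mul_sum, ← he.sum]
    refine Finset.sum_congr rfl fun j _ => ?_
    rw [mul_smul_comm, hs, he.sum_mul, smul_smul, Pi.neg_apply, ← zpow_add₀ hw, neg_add_cancel,
      zpow_zero, one_smul]
  rw [← mul_one ((s⁻¹ : S.mon F) : Matrix n n F), ← h1, ← mul_assoc, Sys.coe_inv_mul, one_mul]

theorem conj_blk (he : IsDec e) (hw : w ≠ 0) (hs : (s : Matrix n n F) = ∑ i, w ^ k i • e i)
    (X : Matrix n n F) (i j : I) :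
    e i * ((s : Matrix n n F) * X * ((s⁻¹ : S.mon F) : Matrix n n F)) * e j =
      w ^ (k i - k j) • (e i * X * e j) := by
  rw [inv_eq he hw hs, hs, mul_assoc, mul_assoc, he.sum_mul, ← mul_assoc, ← mul_assoc, mul_sum he,
    mul_smul_comm, smul_mul_assoc, smul_mul_assoc, smul_smul, Pi.neg_apply, ← zpow_add₀ hw,
    neg_add_eq_sub]

theorem conj_pow_blk (he : IsDec e) (hw : w ≠ 0) (hs : (s : Matrix n n F) = ∑ i, w ^ k i • e i)
    (X : Matrix n n F) (i j : I) (m : ℕ) :
    e i * (((s ^ m : S.mon F) : Matrix n n F) * X * (((s ^ m)⁻¹ : S.mon F) : Matrix n n F)) * e j =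
      (w ^ (k i - k j)) ^ m • (e i * X * e j) := by
  induction m with
  | zero => simp
  | succ m ih =>
    have e1 : ((s ^ (m + 1) : S.mon F) : Matrix n n F) * X *
        (((s ^ (m + 1))⁻¹ : S.mon F) : Matrix n n F) = (s : Matrix n n F) *
          (((s ^ m : S.mon F) : Matrix n n F) * X * (((s ^ m)⁻¹ : S.mon F) : Matrix n n F)) *
          ((s⁻¹ : S.mon F) : Matrix n n F) := by
      rw [pow_succ', _root_.mul_inv_rev, Submonoid.coe_mul, Submonoid.coe_mul]
      simp only [mul_assoc]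
    rw [e1, conj_blk he hw hs, ih, smul_smul, ← pow_succ']

omit [CharZero F] in
theorem aeval_mulVec {M : Matrix n n F} {y : n → F} {μ : F} (h : M *ᵥ y = μ • y)
    (P : Polynomial F) : Polynomial.aeval M P *ᵥ y = P.eval μ • y := by
  induction P using Polynomial.induction_on with
  | C a => simp [Algebra.algebraMap_eq_smul_one, smul_mulVec]
  | add p q hp hq => rw [map_add, add_mulVec, hp, hq, Polynomial.eval_add, add_smul]
  | monomial m a ih =>
    rw [pow_succ, ← mul_assoc, map_mul, Polynomial.aeval_X, ← mulVec_mulVec, h, mulVec_smul, ih,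
      Polynomial.eval_mul_X, smul_smul, mul_comm]

end alg

section top

variable {F : Type} [NontriviallyNormedField F] [CharZero F] {e : I → Matrix n n F} {k : I → ℤ}
  {w : F} {s : S.mon F}

theorem tendsto_iff (he : IsDec e) (hw : w ≠ 0) (hw1 : ‖w‖ < 1)
    (hs : (s : Matrix n n F) = ∑ i, w ^ k i • e i) (u : S.mon F) :
    Tendsto (fun m : ℕ => s ^ m * u * (s ^ m)⁻¹) atTop (𝓝 1) ↔ u ∈ S.Up e k := by
  have h0 : 0 < ‖w‖ := norm_pos_iff.2 hw
  have e1 : ∀ m : ℕ, ((s ^ m * u * (s ^ m)⁻¹ : S.mon F) : Matrix n n F) - 1 =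
      ((s ^ m : S.mon F) : Matrix n n F) * ((u : Matrix n n F) - 1) *
        (((s ^ m)⁻¹ : S.mon F) : Matrix n n F) := by
    intro m
    rw [mul_sub, mul_one, sub_mul, Sys.coe_mul_inv]
    rfl
  rw [tendsto_subtype_rng, OneMemClass.coe_one, ← tendsto_sub_nhds_zero_iff]
  simp only [e1]
  refine ⟨fun h i j hij => ?_, fun h => ?_⟩
  · have h1 := (h.const_mul (e i)).mul_const (e j)
    simp only [conj_pow_blk he hw hs, mul_zero, zero_mul] at h1
    ext a b
    have h2 := (((continuous_id.matrix_elem a b).tendsto _).comp h1).norm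
    refine norm_le_zero_iff.1 ((ge_of_tendsto' h2 fun m => ?_).trans_eq norm_zero)
    change _ ≤ ‖(w ^ (k i - k j)) ^ m * _‖
    rw [norm_mul, norm_pow, norm_zpow]
    exact le_mul_of_one_le_left (norm_nonneg _)
      (one_le_pow₀ (one_le_zpow_of_nonpos₀ h0 hw1.le (by omega)))
  · have h1 : Tendsto (fun m : ℕ => ∑ i, ∑ j, (w ^ (k i - k j)) ^ m •
        (e i * ((u : Matrix n n F) - 1) * e j)) atTop (𝓝 (∑ _i : I, ∑ _j : I, 0)) := by
      refine tendsto_finsetSum _ fun i _ => tendsto_finsetSum _ fun j _ => ?_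
      rcases le_or_gt (k i) (k j) with hij | hij
      · simp only [h i j hij, smul_zero]
        exact tendsto_const_nhds
      · have h2 : ‖w ^ (k i - k j)‖ < 1 := by
          rw [norm_zpow]
          exact zpow_lt_one₀ h0 hw1 (by omega)
        simpa only [zero_smul] using
          (tendsto_pow_atTop_nhds_zero_of_norm_lt_one h2).smul_const
            (e i * ((u : Matrix n n F) - 1) * e j)
    simp only [Finset.sum_const_zero, ← conj_pow_blk he hw hs, expand he] at h1
    exact h1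

omit [CharZero F] in
theorem zpow_inj (hw : w ≠ 0) (hw1 : ‖w‖ < 1) : Function.Injective fun a : ℤ => w ^ a := by
  intro a b h
  refine zpow_right_injective₀ (norm_pos_iff.2 hw) hw1.ne ?_
  simpa only [norm_zpow] using congrArg norm h

theorem strict_exp {E : Type} [NormedAddCommGroup E] [NormedSpace F E] {X : Matrix n n F}
    (hX : IsNilpotent X) (L : Matrix n n F →ₗ[F] E) :
    HasStrictDerivAt (fun t : F => L (IsNilpotent.exp (t • X))) (L X) 0 := by
  obtain ⟨m, hm⟩ := hX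
  have e1 : (fun t : F => L (IsNilpotent.exp (t • X))) =
      fun t => ∑ i ∈ Finset.range (m + 2), t ^ i • L (((i.factorial : ℚ))⁻¹ • X ^ i) := by
    funext t
    have h1 : (t • X) ^ (m + 2) = 0 := by rw [smul_pow, pow_add X, hm, zero_mul, smul_zero]
    rw [IsNilpotent.exp_eq_sum h1, map_sum]
    refine Finset.sum_congr rfl fun i _ => ?_
    rw [smul_pow, smul_comm, map_smul]
  have h2 := HasStrictDerivAt.fun_sum (u := Finset.range (m + 2)) fun i _ =>
    (hasStrictDerivAt_pow i (0 : F)).smul_const (L (((i.factorial : ℚ))⁻¹ • X ^ i))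
  rw [Finset.sum_eq_single 1 (fun i _ hi => ?_) (by simp)] at h2
  · rw [e1]
    simpa using h2
  · rcases i with _ | _ | i
    · simp
    · exact (hi rfl).elim
    · simp

theorem trace_bracket {A B Y : Matrix n n F} (hA : IsNilpotent A)
    (h : ∀ t : F, (IsNilpotent.exp (t • A) * (B * IsNilpotent.exp (t • -A) * Y)).trace = 0) :
    ((B * A - A * B) * Y).trace = 0 := by
  have h1 := HasDerivAt.fun_sum (u := Finset.univ) fun a _ =>
    HasDerivAt.fun_sum (u := Finset.univ) fun b _ =>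
      (strict_exp hA (entryLinearMap F F a b)).hasDerivAt.fun_mul
        (strict_exp hA.neg (entryLinearMap F F b a ∘ₗ LinearMap.mulRight F Y ∘ₗ
          LinearMap.mulLeft F B)).hasDerivAt
  have h2 : ∀ M N : Matrix n n F, ∑ a, ∑ b, M a b * N b a = (M * N).trace := fun M N => rfl
  simp only [entryLinearMap_apply, LinearMap.comp_apply, LinearMap.mulRight_apply,
    LinearMap.mulLeft_apply, Finset.sum_add_distrib, h2, h, zero_smul, IsNilpotent.exp_zero,
    one_mul, mul_one] at h1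
  have h3 := h1.unique (hasDerivAt_const _ _)
  rw [mul_neg, neg_mul, trace_neg, ← mul_assoc] at h3
  rw [sub_mul, trace_sub]
  linear_combination -h3

theorem comm_of_perp (h : S.Gr e k) (hT : S.TrNd F) {Y : Matrix n n F} (hY : Y ∈ S.lie F)
    (h1 : ∀ X ∈ S.lie F, X ∈ fil e k 1 → (X * Y).trace = 0)
    (h2 : ∀ u ∈ S.Up e k, ∀ X ∈ S.lie F, X ∈ fil e (-k) 1 →
      ((u : Matrix n n F) * X * ((u⁻¹ : S.mon F) : Matrix n n F) * Y).trace = 0)
    {A : Matrix n n F} (hA : A ∈ S.lie F) (hA' : A ∈ fil e k 1) : Commute Y A := by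
  refine (sub_eq_zero.1 (hT _ (Sys.bracket_mem hA hY) fun W hW => ?_)).symm
  have e1 : ((A * Y - Y * A) * W).trace = ((W * A - A * W) * Y).trace := by
    rw [sub_mul, sub_mul, trace_sub, trace_sub, trace_mul_comm (A * Y), ← mul_assoc,
      mul_assoc Y, trace_mul_comm Y]
  obtain ⟨A', h3, Z, h4, B, h5, rfl, h6, h7, h8⟩ := h.exists_split hW
  have h9 : A' + Z ∈ fil e k 0 :=
    add_mem (fil_mono zero_le_one (mem_fil_one.2 h6)) (mem_fil_of_comm h.dec h7)
  have e2 : (A' + Z + B) * A - A * (A' + Z + B) =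
      ((A' + Z) * A - A * (A' + Z)) + (B * A - A * B) := by noncomm_ring
  have hn := isNilpotent_of_fil h.dec hA'
  rw [e1, e2, add_mul, trace_add, h1 _ (Sys.bracket_mem (add_mem h3 h4) hA) (sub_mem
    (mul_mem_fil h.dec h9 hA' (by simp)) (mul_mem_fil h.dec hA' h9 (by simp))), zero_add]
  refine trace_bracket hn fun t => ?_
  obtain ⟨h10, u, hu, hu'⟩ := h.exp_mem_Up (Submodule.smul_mem _ t hA)
    (mem_fil_one.1 (Submodule.smul_mem _ t hA'))
  have h11 : ((u⁻¹ : S.mon F) : Matrix n n F) = IsNilpotent.exp (t • -A) := by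
    rw [← mul_one ((u⁻¹ : S.mon F) : Matrix n n F), ← IsNilpotent.exp_mul_exp_neg_self h10, ← hu',
      ← mul_assoc, Sys.coe_inv_mul, one_mul, smul_neg]
  have h12 := h2 u hu B h5 (mem_fil_one.2 fun i j hij => h8 i j (by simpa using hij))
  rw [h11, hu'] at h12
  simpa only [mul_assoc] using h12

end top

end CL

namespace Sys

open CL

variable {n : Type} [Fintype n] [DecidableEq n] {S : Sys n} {I : Type} [Fintype I]

section top

variable {F : Type} [NontriviallyNormedField F] [CharZero F] [CompleteSpace F]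
  {e : I → Matrix n n F} {k : I → ℤ}

omit [CompleteSpace F] in
theorem Gr.plus_eq (h : S.Gr e k) {w : F} (hw : w ≠ 0) (hw1 : ‖w‖ < 1) (s : S.mon F)
    (hs : (s : Matrix n n F) = ∑ i, w ^ k i • e i) : plus s = S.Pl e k := by
  refine congrArg Subgroup.closure (Set.ext fun u => or_congr (tendsto_iff h.dec hw hw1 hs u) ?_)
  simpa only [inv_pow, inv_inv] using tendsto_iff h.dec hw hw1 (CL.inv_eq h.dec hw hs) u

omit [CompleteSpace F] in
theorem Gr.Pl_le (h : S.Gr e k) {B M : Subgroup (S.mon F)} [B.FiniteIndex]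
    (hM : (M : Set (S.mon F)) ∈ 𝓝 1) (hn : ∀ b ∈ B, ∀ x ∈ M, b * x * b⁻¹ ∈ M) :
    S.Pl e k ≤ M := by
  have key : ∀ s u : S.mon F, Tendsto (fun m : ℕ => s ^ m * u * (s ^ m)⁻¹) atTop (𝓝 1) →
      u ∈ M := by
    intro s u hu
    obtain ⟨N, hN, -, hB⟩ := Subgroup.exists_pow_mem_of_index_ne_zero
      (Subgroup.FiniteIndex.index_ne_zero (H := B)) s
    obtain ⟨m, hm⟩ := ((hu.comp (tendsto_id.const_mul_atTop' hN)).eventually hM).exists
    have h1 := hn _ (inv_mem (pow_mem hB m)) _ hm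
    rw [← pow_mul] at h1
    simpa [mul_assoc] using h1
  obtain ⟨w, hw, hw1⟩ := NormedField.exists_norm_lt_one F
  have hw0 := norm_pos_iff.1 hw
  refine (Subgroup.closure_le _).2 fun u hu => hu.elim (fun hu => ?_) fun hu => ?_
  · exact key ⟨_, pw_mem h.dec h.mem hw0⟩ u ((tendsto_iff h.dec hw0 hw1 rfl u).2 hu)
  · exact key ⟨_, pw_mem h.dec h.neg.mem hw0⟩ u ((tendsto_iff h.dec hw0 hw1 rfl u).2 hu)

omit [CompleteSpace F] in
theorem Hyp.exists_gr {w : F} (hw : w ≠ 0) (hw1 : ‖w‖ < 1) {s : S.mon F} (h : S.Hyp F w s) :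
    ∃ (m : ℕ) (e : Fin m → Matrix n n F) (k : Fin m → ℤ), S.Gr e k ∧
      (s : Matrix n n F) = ∑ i, w ^ k i • e i := by
  obtain ⟨K, hK⟩ := h.1
  let k : Fin K.card → ℤ := fun i => K.equivFin.symm i
  have hk : Function.Injective k := Subtype.val_injective.comp K.equivFin.symm.injective
  let e : Fin K.card → Matrix n n F := fun i =>
    Polynomial.aeval (s : Matrix n n F) (Lagrange.basis K (fun a => w ^ a) (k i))
  have h1 : ∀ M N : Matrix n n F, (∀ j y, (s : Matrix n n F) *ᵥ y = w ^ k j • y →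
      M *ᵥ y = N *ᵥ y) → M = N := by
    intro M N H
    refine toLin'.injective (LinearMap.ext fun v => ?_)
    obtain ⟨u, rfl, hu⟩ := hK v
    rw [map_sum, map_sum]
    refine Finset.sum_congr rfl fun a ha => H (K.equivFin ⟨a, ha⟩) _ ?_
    simpa [k] using hu a
  have h2 : ∀ i j y, (s : Matrix n n F) *ᵥ y = w ^ k j • y →
      e i *ᵥ y = if i = j then y else 0 := by
    intro i j y hy
    rw [aeval_mulVec hy]
    split_ifs with hij
    · rw [hij, Lagrange.eval_basis_self (zpow_inj hw hw1).injOn (K.equivFin.symm j).2, one_smul]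
    · rw [Lagrange.eval_basis_of_ne (hk.ne hij) (K.equivFin.symm j).2, zero_smul]
  have he : IsDec e := by
    refine ⟨h1 _ _ fun j y hy => ?_, fun i => h1 _ _ fun j y hy => ?_,
      fun i l hil => h1 _ _ fun j y hy => ?_⟩
    · simp [sum_mulVec, h2 _ j y hy]
    · rw [← mulVec_mulVec, h2 i j y hy]
      split_ifs with hij
      · rw [h2 i j y hy, if_pos hij]
      · rw [mulVec_zero]
    · rw [← mulVec_mulVec, h2 l j y hy, zero_mulVec]
      split_ifs with hlj
      · rw [h2 i j y hy, if_neg (hlj ▸ hil)]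
      · rw [mulVec_zero]
  have hs : (s : Matrix n n F) = ∑ i, w ^ k i • e i := h1 _ _ fun j y hy => by
    simp [sum_mulVec, smul_mulVec, h2 _ j y hy, hy]
  refine ⟨_, e, k, ⟨he, hk, he.sum_mem_lie _ fun c hc => ?_⟩, hs⟩
  have h3 := he.prod_eq_one (hs ▸ s.2) hc
  rw [zpow_sum' hw, ← zpow_zero w] at h3
  exact_mod_cast zpow_inj hw hw1 h3

theorem Hyp.plus_nhds (hT : S.TrNd F) {w : F} (hw : w ≠ 0) (hw1 : ‖w‖ < 1) {s : S.mon F}
    (h : S.Hyp F w s) : (plus s : Set (S.mon F)) ∈ 𝓝 1 := by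
  obtain ⟨m, e, k, hg, hs⟩ := h.exists_gr hw hw1
  rw [hg.plus_eq hw hw1 s hs]
  let A : Set (Matrix n n F) := {Y | ∃ g ∈ S.Pl e k, ∃ X ∈ S.lie F,
    (X ∈ fil e k 1 ∨ X ∈ fil e (-k) 1) ∧
      Y = (g : Matrix n n F) * X * ((g⁻¹ : S.mon F) : Matrix n n F)}
  have h1 : Submodule.span F A = S.lie F := by
    refine eq_lie_of_perp hT (Submodule.span_le.2 ?_) ((Submodule.eq_bot_iff _).2 fun Y hY => ?_)
    · rintro _ ⟨g, -, X, hX, -, rfl⟩
      exact conj_mem g hX
    have k1 : ∀ X ∈ S.lie F, (X ∈ fil e k 1 ∨ X ∈ fil e (-k) 1) → (X * Y).trace = 0 :=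
      fun X hX hX' => hY.2 X (Submodule.subset_span ⟨1, one_mem _, X, hX, hX', by simp⟩)
    have k2 : ∀ X ∈ S.lie F, X ∈ fil e k 1 → Commute Y X := fun X hX hX' =>
      comm_of_perp hg hT hY.1 (fun X h1 h2 => k1 X h1 (Or.inl h2)) (fun u hu X h1 h2 =>
        hY.2 _ (Submodule.subset_span
          ⟨u, Subgroup.subset_closure (Or.inl hu), X, h1, Or.inr h2, rfl⟩)) hX hX'
    have k3 : ∀ X ∈ S.lie F, X ∈ fil e (-k) 1 → Commute Y X := fun X hX hX' =>
      comm_of_perp hg.neg hT hY.1 (fun X h1 h2 => k1 X h1 (Or.inr h2)) (fun u hu X h1 h2 =>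
        hY.2 _ (Submodule.subset_span ⟨u, Subgroup.subset_closure (Or.inr hu), X, h1,
          Or.inl (by rwa [neg_neg] at h2), rfl⟩)) hX hX'
    refine h.2 Y hY.1 fun X hX => ?_
    have e1 : (s : Matrix n n F) * X * ((s⁻¹ : S.mon F) : Matrix n n F) - X =
        CL.cmp e (fun i j => if 0 < k i - k j then w ^ (k i - k j) - 1 else 0) X +
          CL.cmp e (fun i j => if k i - k j < 0 then w ^ (k i - k j) - 1 else 0) X := by
      refine CL.ext hg.dec fun i j => ?_
      rw [mul_sub, sub_mul, mul_add, add_mul, cmp_blk hg.dec, cmp_blk hg.dec,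
        conj_blk hg.dec hw hs]
      rcases lt_trichotomy (k i - k j) 0 with h1 | h1 | h1
      · rw [if_neg h1.not_gt, if_pos h1, zero_smul, zero_add, sub_smul, one_smul]
      · rw [if_neg h1.not_gt, if_neg h1.not_lt, h1, zpow_zero, one_smul, zero_smul, sub_self,
          add_zero]
      · rw [if_pos h1, if_neg h1.not_gt, zero_smul, add_zero, sub_smul, one_smul]
    rw [e1]
    refine Commute.add_right
      (k2 _ (cmp_mem hg.dec hg.mem hX fun a => if 0 < a then w ^ a - 1 else 0)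
        (mem_fil_one.2 fun i j hij => ?_))
      (k3 _ (cmp_mem hg.dec hg.mem hX fun a => if a < 0 then w ^ a - 1 else 0)
        (mem_fil_one.2 fun i j hij => ?_))
    · rw [cmp_blk hg.dec, if_neg (by omega), zero_smul]
    · rw [cmp_blk hg.dec, if_neg (by simp only [Pi.neg_apply] at hij; omega), zero_smul]
  have h2 : ∀ Y ∈ A, ∃ c : F → n → n → F, HasStrictDerivAt c (Matrix.of.symm Y) 0 ∧
      Matrix.of (c 0) = 1 ∧ ∀ t, ∃ p ∈ S.Pl e k, (p : Matrix n n F) = Matrix.of (c t) := by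
    rintro _ ⟨g, hg', X, hX, hX', rfl⟩
    have k1 : ∀ t : F, ∃ u ∈ S.Pl e k, (u : Matrix n n F) = IsNilpotent.exp (t • X) := by
      intro t
      rcases hX' with hX' | hX'
      · obtain ⟨-, u, hu, hu'⟩ := hg.exp_mem_Up (Submodule.smul_mem _ t hX)
          (mem_fil_one.1 (Submodule.smul_mem _ t hX'))
        exact ⟨u, Subgroup.subset_closure (Or.inl hu), hu'⟩
      · obtain ⟨-, u, hu, hu'⟩ := hg.neg.exp_mem_Up (Submodule.smul_mem _ t hX)
          (mem_fil_one.1 (Submodule.smul_mem _ t hX'))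
        exact ⟨u, Subgroup.subset_closure (Or.inr hu), hu'⟩
    refine ⟨_, strict_exp (hX'.elim (isNilpotent_of_fil hg.dec) (isNilpotent_of_fil hg.dec))
      ((Matrix.ofLinearEquiv F).symm.toLinearMap ∘ₗ
        LinearMap.mulRight F ((g⁻¹ : S.mon F) : Matrix n n F) ∘ₗ
          LinearMap.mulLeft F (g : Matrix n n F)), ?_, fun t => ?_⟩
    · change (g : Matrix n n F) * IsNilpotent.exp ((0 : F) • X) *
        ((g⁻¹ : S.mon F) : Matrix n n F) = 1
      rw [zero_smul, IsNilpotent.exp_zero, mul_one, coe_mul_inv]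
    · obtain ⟨u, hu, hu'⟩ := k1 t
      refine ⟨g * u * g⁻¹, mul_mem (mul_mem hg' hu) (inv_mem hg'), ?_⟩
      rw [Submonoid.coe_mul, Submonoid.coe_mul, hu']
      rfl
  obtain ⟨T, hT1, hT2⟩ := (Submodule.fg_span_iff_fg_span_finset_subset A).1
    (IsNoetherian.noetherian (Submodule.span F A))
  choose c hc hc0 hp using fun i : Fin T.card => h2 _ (hT1 (T.equivFin.symm i).2)
  choose p hp hp' using hp
  have h3 := open_of_curves (S := S) hc hc0
    (fun i => Eventually.of_forall fun t => hp' i t ▸ (p i t).2) (by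
      rw [← h1, hT2]
      refine Submodule.span_mono fun Y hY => ⟨T.equivFin ⟨Y, hY⟩, ?_⟩
      simp) univ_mem
  filter_upwards [h3] with g hg'
  obtain ⟨t, -, ht⟩ := hg'
  have h4 : g = (List.ofFn fun i => p i (t i)).prod := by
    refine Subtype.ext ?_
    rw [ht, SubmonoidClass.coe_list_prod, List.map_ofFn]
    simp only [← hp']
    rfl
  rw [h4]
  refine list_prod_mem fun y hy => ?_
  obtain ⟨i, rfl⟩ := List.mem_ofFn.1 hy
  exact hp i _

omit [CompleteSpace F] in
theorem Hyp.normalizer {w : F} (hw : w ≠ 0) (hw1 : ‖w‖ < 1) {s : S.mon F} (h : S.Hyp F w s) :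
    (Subgroup.normalizer (plus s : Set (S.mon F))).FiniteIndex := by
  obtain ⟨m, e, k, hg, hs⟩ := h.exists_gr hw hw1
  rw [hg.plus_eq hw hw1 s hs]
  have := hg.finiteIndex
  exact Subgroup.finiteIndex_of_le (sup_le Subgroup.le_normalizer hg.Zc_le_normalizer)

omit [CompleteSpace F] in
theorem Hyp.exists_eig {w : F} (hw : w ≠ 0) (hw1 : ‖w‖ < 1) {s : S.mon F} (h : S.Hyp F w s)
    (h0 : S.lie F ≠ ⊥) : ∃ X ∈ S.lie F, X ≠ 0 ∧ ∃ d : ℤ, d ≠ 0 ∧
      (s : Matrix n n F) * X * ((s⁻¹ : S.mon F) : Matrix n n F) = w ^ d • X := by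
  obtain ⟨m, e, k, hg, hs⟩ := h.exists_gr hw hw1
  obtain ⟨X, hX, i, j, hij, h1⟩ : ∃ X ∈ S.lie F, ∃ i j, k i - k j ≠ 0 ∧ e i * X * e j ≠ 0 := by
    by_contra H
    push Not at H
    refine h0 ((Submodule.eq_bot_iff _).2 fun Y hY => h.2 Y hY fun X hX => ?_)
    have e1 : (s : Matrix n n F) * X * ((s⁻¹ : S.mon F) : Matrix n n F) = X := by
      refine CL.ext hg.dec fun i j => ?_
      rw [conj_blk hg.dec hw hs]
      by_cases hij : k i - k j = 0
      · rw [hij, zpow_zero, one_smul]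
      · rw [H X hX i j hij, smul_zero]
    rw [e1, sub_self]
    exact Commute.zero_right Y
  refine ⟨_, cmp_mem hg.dec hg.mem hX fun a => if a = k i - k j then 1 else 0, fun h2 => h1 ?_,
    k i - k j, hij, CL.ext hg.dec fun a b => ?_⟩
  · have h3 := congrArg (fun M => e i * M * e j) h2
    simpa only [cmp_blk hg.dec, if_true, one_smul, mul_zero, zero_mul] using h3
  · rw [conj_blk hg.dec hw hs, mul_smul_comm, smul_mul_assoc, cmp_blk hg.dec]
    split_ifs with h2
    · rw [h2]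
    · rw [zero_smul, smul_zero, smul_zero]

end top

end Sys

end Vale.Agent.P011Z
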