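import Vale.Agent.P011.H900.SpecX

/-!
The conclusion of the Margulis-Platonov conjecture.
-/

namespace Vale.Agent.P011Z

open Vale.Agent.P011.H900

/-- Every noncentral normal subgroup is the preimage of an open normal subgroup. -/
def MP {G H : Type} [Group G] [Group H] [TopologicalSpace H] (δ : G →* H) : Prop :=
  ∀ N : Subgroup G, N.Normal → ¬ N ≤ Subgroup.center G →
    ∃ W : Subgroup H, W.Normal ∧ IsOpen (W : Set H) ∧ N = W.comap δ

/-- The group of the bijections with the property `P` has no unipotent element except one. -/
def Ani {V : Type} [AddGroup V] (P : (V → V) → Prop) : Prop :=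
  ∀ f : grp P, (∃ m : ℕ, ∀ x, (fun y => f.1 y - y)^[m] x = 0) → f = 1

/-- Every noncentral normal subgroup of the group of the bijections with the property `P` is the
whole group. -/
def Simp {V : Type} (P : (V → V) → Prop) : Prop :=
  ∀ N : Subgroup (grp P), N.Normal → ¬ N ≤ Subgroup.center (grp P) → N = ⊤

end Vale.Agent.P011Z
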