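import Vale.Agent.P011Z.Defs
import Vale.Agent.P011.H900.SpecX

/-!
The group `SL₃` acts on the split octonions.
-/

open Matrix

namespace Vale.Agent.P011Z

open Vale.Agent.P011.H900

/-- The properties of the action. -/
structure G2Act {Ω : Type} [Field Ω] {a b : Ω} (c : Ω)
    (φ : SpecialLinearGroup (Fin 3) Ω →* Module.End Ω (Oc a b)) : Prop where
  om : ∀ g x y, φ g (om c x y) = om c (φ g x) (φ g y)
  oc : ∀ g x, φ g (oc x) = oc (φ g x)
  re : ∀ g x, re (φ g x) = re x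
  fix : ∀ g (u v : Ω), φ g (⟨u, v, 0, 0⟩, 0) = (⟨u, v, 0, 0⟩, 0)
  el : ∀ i j hij, ∃ E : Module.End Ω (Oc a b), ∀ t, φ (el3 i j hij t) = 1 + t • E
  dg : ∃ P Q R : Module.End Ω (Oc a b), P + Q + R = 1 ∧ P ≠ 0 ∧ ∀ (w : Ω) (hw : w ≠ 0) x,
    φ (dg3 w hw) (P x) = w • P x ∧ φ (dg3 w hw) (Q x) = Q x ∧ φ (dg3 w hw) (R x) = w⁻¹ • R x

namespace G2

variable {Ω : Type} [Field Ω]

/-- Vector matrices. -/
abbrev Zn (Ω : Type) : Type := Ω × (Fin 3 → Ω) × (Fin 3 → Ω) × Ω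

/-- The product of vector matrices. -/
def zm (x y : Zn Ω) : Zn Ω :=
  (x.1 * y.1 + x.2.1 ⬝ᵥ y.2.2.1, x.1 • y.2.1 + y.2.2.2 • x.2.1 - crossProduct x.2.2.1 y.2.2.1,
    y.1 • x.2.2.1 + x.2.2.2 • y.2.2.1 + crossProduct x.2.1 y.2.1,
    x.2.2.2 * y.2.2.2 + x.2.2.1 ⬝ᵥ y.2.1)

/-- The conjugate vector matrix. -/
def zc (x : Zn Ω) : Zn Ω := (x.2.2.2, -x.2.1, -x.2.2.1, x.1)

/-- The map which is `A` on the first vector, `B` on the second and `s` on the diagonal. -/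
def blk (s : Ω) (A B : Matrix (Fin 3) (Fin 3) Ω) : Module.End Ω (Zn Ω) where
  toFun x := (s * x.1, A *ᵥ x.2.1, B *ᵥ x.2.2.1, s * x.2.2.2)
  map_add' x y := by simp [mulVec_add, mul_add]
  map_smul' t x := by simp [mulVec_smul, mul_left_comm]

theorem blk_apply (s : Ω) (A B : Matrix (Fin 3) (Fin 3) Ω) (x : Zn Ω) :
    blk s A B x = (s * x.1, A *ᵥ x.2.1, B *ᵥ x.2.2.1, s * x.2.2.2) := rfl

theorem blk_one : blk (1 : Ω) 1 1 = 1 := by
  refine LinearMap.ext fun x => ?_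
  simp [blk_apply]

theorem blk_mul (s s' : Ω) (A B A' B' : Matrix (Fin 3) (Fin 3) Ω) :
    blk (s * s') (A * A') (B * B') = blk s A B * blk s' A' B' := by
  refine LinearMap.ext fun x => ?_
  simp [blk_apply, mul_assoc]

theorem blk_add (s s' : Ω) (A B A' B' : Matrix (Fin 3) (Fin 3) Ω) :
    blk (s + s') (A + A') (B + B') = blk s A B + blk s' A' B' := by
  refine LinearMap.ext fun x => ?_
  simp [blk_apply, add_mul, add_mulVec]

theorem blk_smul (t s : Ω) (A B : Matrix (Fin 3) (Fin 3) Ω) :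
    blk (t * s) (t • A) (t • B) = t • blk s A B := by
  refine LinearMap.ext fun x => ?_
  simp [blk_apply, mul_assoc, smul_mulVec]

theorem val_mul (g h : SpecialLinearGroup (Fin 3) Ω) : (g * h).1 = g.1 * h.1 := rfl

theorem val_inv (g : SpecialLinearGroup (Fin 3) Ω) : (g⁻¹).1 = adjugate g.1 := rfl

theorem val_one : (1 : SpecialLinearGroup (Fin 3) Ω).1 = 1 := rfl

/-- The action on vector matrices. -/
def rho : SpecialLinearGroup (Fin 3) Ω →* Module.End Ω (Zn Ω) where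
  toFun g := blk 1 g.1 (g⁻¹).1ᵀ
  map_one' := by simp [blk_one]
  map_mul' g h := by
    rw [← blk_mul, _root_.mul_inv_rev, val_mul, val_mul, transpose_mul, mul_one]

theorem rho_apply (g : SpecialLinearGroup (Fin 3) Ω) (x : Zn Ω) :
    rho g x = (x.1, g.1 *ᵥ x.2.1, (g⁻¹).1ᵀ *ᵥ x.2.2.1, x.2.2.2) := by
  change blk 1 g.1 (g⁻¹).1ᵀ x = _
  simp only [blk_apply, one_mul]

theorem cross_mulVec (M : Matrix (Fin 3) (Fin 3) Ω) (u v : Fin 3 → Ω) :
    crossProduct (M *ᵥ u) (M *ᵥ v) = (adjugate M)ᵀ *ᵥ crossProduct u v := by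
  ext i
  fin_cases i <;>
    simp [cross_apply, adjugate_fin_three, mulVec, dotProduct, Fin.sum_univ_three] <;> ring

theorem cross_sl (g : SpecialLinearGroup (Fin 3) Ω) (u v : Fin 3 → Ω) :
    crossProduct (g.1 *ᵥ u) (g.1 *ᵥ v) = (g⁻¹).1ᵀ *ᵥ crossProduct u v := by
  rw [cross_mulVec, val_inv]

theorem cross_sl' (g : SpecialLinearGroup (Fin 3) Ω) (u v : Fin 3 → Ω) :
    crossProduct ((g⁻¹).1ᵀ *ᵥ u) ((g⁻¹).1ᵀ *ᵥ v) = g.1 *ᵥ crossProduct u v := by
  rw [cross_mulVec, ← adjugate_transpose, transpose_transpose, ← val_inv, inv_inv]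

theorem dot_sl (g : SpecialLinearGroup (Fin 3) Ω) (u v : Fin 3 → Ω) :
    (g.1 *ᵥ u) ⬝ᵥ ((g⁻¹).1ᵀ *ᵥ v) = u ⬝ᵥ v := by
  rw [dotProduct_comm, mulVec_transpose, ← dotProduct_mulVec, mulVec_mulVec,
    ← val_mul, inv_mul_cancel, val_one, one_mulVec, dotProduct_comm]

theorem rho_zm (g : SpecialLinearGroup (Fin 3) Ω) (x y : Zn Ω) :
    rho g (zm x y) = zm (rho g x) (rho g y) := by
  simp only [rho_apply, zm, mulVec_add, mulVec_sub, mulVec_smul, cross_sl, cross_sl', dot_sl,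
    dotProduct_comm _ (g.1 *ᵥ _), dotProduct_comm x.2.2.1 y.2.1]

theorem rho_zc (g : SpecialLinearGroup (Fin 3) Ω) (x : Zn Ω) : rho g (zc x) = zc (rho g x) := by
  simp only [rho_apply, zc, mulVec_neg]

/-- The coordinates of an octonion as a vector matrix. -/
noncomputable def chi [CharZero Ω] {d b : Ω} (c : Ω) (hd : d ≠ 0) (hb : b ≠ 0) (hc : c ≠ 0) :
    Oc (d * d) b ≃ₗ[Ω] Zn Ω where
  toFun x := (x.1.re + d * x.1.imI,
    ![x.1.imJ + d * x.1.imK, x.2.re + d * x.2.imI, -(b * c) * (x.2.imJ - d * x.2.imK)],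
    ![b * (x.1.imJ - d * x.1.imK), c * (x.2.re - d * x.2.imI), x.2.imJ + d * x.2.imK],
    x.1.re - d * x.1.imI)
  invFun z := (⟨(z.1 + z.2.2.2) / 2, (z.1 - z.2.2.2) / (2 * d),
      (z.2.1 0 + z.2.2.1 0 / b) / 2, (z.2.1 0 - z.2.2.1 0 / b) / (2 * d)⟩,
    ⟨(z.2.1 1 + z.2.2.1 1 / c) / 2, (z.2.1 1 - z.2.2.1 1 / c) / (2 * d),
      (z.2.2.1 2 - z.2.1 2 / (b * c)) / 2, (z.2.2.1 2 + z.2.1 2 / (b * c)) / (2 * d)⟩)
  map_add' x y := by
    refine Prod.ext ?_ (Prod.ext ?_ (Prod.ext ?_ ?_))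
    · simp; ring
    · ext i; fin_cases i <;> simp <;> ring
    · ext i; fin_cases i <;> simp <;> ring
    · simp; ring
  map_smul' t x := by
    refine Prod.ext ?_ (Prod.ext ?_ (Prod.ext ?_ ?_))
    · simp; ring
    · ext i; fin_cases i <;> simp <;> ring
    · ext i; fin_cases i <;> simp <;> ring
    · simp; ring
  left_inv x := by
    refine Prod.ext ?_ ?_ <;> ext <;> simp <;> field_simp <;> ring
  right_inv z := by
    refine Prod.ext ?_ (Prod.ext ?_ (Prod.ext ?_ ?_))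
    · simp; field_simp; ring
    · ext i; fin_cases i <;> simp <;> field_simp <;> ring
    · ext i; fin_cases i <;> simp <;> field_simp <;> ring
    · simp; field_simp; ring

variable [CharZero Ω] {d b c : Ω} (hd : d ≠ 0) (hb : b ≠ 0) (hc : c ≠ 0)

theorem chi_apply (x : Oc (d * d) b) : chi c hd hb hc x = (x.1.re + d * x.1.imI,
    ![x.1.imJ + d * x.1.imK, x.2.re + d * x.2.imI, -(b * c) * (x.2.imJ - d * x.2.imK)],
    ![b * (x.1.imJ - d * x.1.imK), c * (x.2.re - d * x.2.imI), x.2.imJ + d * x.2.imK],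
    x.1.re - d * x.1.imI) := rfl

theorem chi_om (x y : Oc (d * d) b) :
    chi c hd hb hc (om c x y) = zm (chi c hd hb hc x) (chi c hd hb hc y) := by
  simp only [chi_apply, zm, om]
  refine Prod.ext ?_ (Prod.ext ?_ (Prod.ext ?_ ?_))
  · simp [dotProduct, Fin.sum_univ_three]; ring
  · ext i; fin_cases i <;> simp [cross_apply] <;> ring
  · ext i; fin_cases i <;> simp [cross_apply] <;> ring
  · simp [dotProduct, Fin.sum_univ_three]; ring

theorem chi_oc (x : Oc (d * d) b) : chi c hd hb hc (oc x) = zc (chi c hd hb hc x) := by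
  simp only [chi_apply, zc, oc]
  refine Prod.ext ?_ (Prod.ext ?_ (Prod.ext ?_ ?_))
  · simp; ring
  · ext i; fin_cases i <;> simp <;> ring
  · ext i; fin_cases i <;> simp <;> ring
  · simp

theorem chi_re (x : Oc (d * d) b) :
    re x = ((chi c hd hb hc x).1 + (chi c hd hb hc x).2.2.2) / 2 := by
  simp only [chi_apply, re]
  ring

/-- Transport of endomorphisms. -/
noncomputable def tr : Module.End Ω (Zn Ω) ≃ₐ[Ω] Module.End Ω (Oc (d * d) b) :=
  (chi c hd hb hc).symm.conjAlgEquiv Ω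

theorem chi_tr (f : Module.End Ω (Zn Ω)) (x : Oc (d * d) b) :
    chi c hd hb hc (tr hd hb hc f x) = f (chi c hd hb hc x) := by
  simp [tr, LinearEquiv.conjAlgEquiv_apply]

omit [CharZero Ω] in
theorem el_inv (i j : Fin 3) (hij : i ≠ j) (t : Ω) :
    (el3 i j hij t)⁻¹ = el3 i j hij (-t) := by
  refine inv_eq_of_mul_eq_one_right (Subtype.ext ?_)
  rw [val_mul, val_one]
  simp [el3, transvection_mul_transvection_same i j hij]

omit [CharZero Ω] in
theorem dg_inv (w : Ω) (hw : w ≠ 0) : ((dg3 w hw)⁻¹).1 = diagonal ![w⁻¹, 1, w] := by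
  have h : (dg3 w hw)⁻¹ = dg3 w⁻¹ (inv_ne_zero hw) := by
    refine inv_eq_of_mul_eq_one_right (Subtype.ext ?_)
    rw [val_mul, val_one]
    ext i j
    fin_cases i <;> fin_cases j <;> simp [dg3, hw]
  rw [h]
  simp [dg3]

end G2

open G2 in
theorem exists_g2Act {Ω : Type} [Field Ω] [CharZero Ω] {a b c : Ω} (ha : a ≠ 0) (hb : b ≠ 0)
    (hc : c ≠ 0) (hs : IsSquare a) :
    ∃ φ : SpecialLinearGroup (Fin 3) Ω →* Module.End Ω (Oc a b), G2Act c φ := by
  obtain ⟨d, rfl⟩ := hs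
  have hd : d ≠ 0 := fun h => ha (by rw [h, mul_zero])
  have hinj := (chi c hd hb hc).injective
  refine ⟨((tr (c := c) hd hb hc).toMulEquiv.toMonoidHom).comp rho, ?_⟩
  have hφ : ∀ g, ((tr (c := c) hd hb hc).toMulEquiv.toMonoidHom).comp rho g =
      tr hd hb hc (rho g) := fun g => rfl
  refine ⟨fun g x y => hinj ?_, fun g x => hinj ?_, fun g x => ?_, fun g u v => hinj ?_,
    fun i j hij => ?_, ?_⟩
  · simp only [hφ, chi_tr, chi_om, rho_zm]
  · simp only [hφ, chi_tr, chi_oc, rho_zc]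
  · rw [chi_re hd hb hc, chi_re hd hb hc x, hφ, chi_tr, rho_apply]
  · rw [hφ, chi_tr, rho_apply, chi_apply]
    have h0 : (![0, 0, 0] : Fin 3 → Ω) = 0 := by ext i; fin_cases i <;> rfl
    simp [h0]
  · refine ⟨tr hd hb hc (blk 0 (single i j 1) (-(single i j 1)ᵀ)), fun t => ?_⟩
    rw [hφ, ← map_smul, ← map_one (tr (c := c) hd hb hc), ← map_add]
    congr 1
    change blk 1 (el3 i j hij t).1 ((el3 i j hij t)⁻¹).1ᵀ = _
    rw [el_inv, ← blk_smul, ← blk_one, ← blk_add]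
    congr 1
    · simp
    · simp [el3, transvection]
    · simp [el3, transvection, transpose_add, ← single_neg]
  · refine ⟨tr hd hb hc (blk 0 (diagonal ![1, 0, 0]) (diagonal ![0, 0, 1])),
      tr hd hb hc (blk 1 (diagonal ![0, 1, 0]) (diagonal ![0, 1, 0])),
      tr hd hb hc (blk 0 (diagonal ![0, 0, 1]) (diagonal ![1, 0, 0])), ?_, ?_, fun w hw x => ?_⟩
    · rw [← map_add, ← map_add, ← blk_add, ← blk_add, ← map_one (tr (c := c) hd hb hc), ← blk_one]
      congr 2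
      · simp
      · ext i j; fin_cases i <;> fin_cases j <;> simp
      · ext i j; fin_cases i <;> fin_cases j <;> simp
    · rw [Ne, map_eq_zero_iff _ (tr (c := c) hd hb hc).injective]
      intro h
      have h1 := congrFun (congrArg (fun z => z.2.1)
        (LinearMap.congr_fun h ((0, ![1, 0, 0], 0, 0) : Zn Ω))) 0
      simp [blk_apply, mulVec_diagonal] at h1
    · refine ⟨hinj ?_, hinj ?_, hinj ?_⟩ <;>
        simp only [hφ, chi_tr, map_smul, rho_apply, dg_inv, blk_apply] <;>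
        refine Prod.ext ?_ (Prod.ext ?_ (Prod.ext ?_ ?_)) <;>
        first
          | (ext i; fin_cases i <;> simp [dg3, mulVec_diagonal])
          | simp

end Vale.Agent.P011Z
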