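import Vale.Agent.P011Z.MainF
import Vale.Agent.P011Z.G2
import Vale.Agent.P011Z.FinDefs
import Vale.Agent.P011Z.ModD4.Fin

/-!
The trialitarian groups.
-/

namespace Vale.Agent.P011Z

open Vale.Agent.P011.H900

namespace ModD4

variable {F : Type} [Field F] {a b c d q : F}

theorem hy_of_dat {l : List (F → F)} {r s : F →+* F} (hr : ⇑r ∈ l) (hs : ⇑s ∈ l)
    (h0 : ∀ f ∈ l, f 0 = 0 ∧ f 1 = 1) (hD : Dat l r s a b c d q) : Hy r s a b c d q := by
  obtain ⟨h1, h2, h3, ⟨h4, h5⟩, h6, h7, h8, h9, h10, -⟩ := hD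
  have key : ∀ x : Oc a b, (∀ f : F → F, f 0 = 0 → f 1 = 1 → ap f x = x) → x ≠ 0 →
      re (om c x (oc x)) ≠ 0 :=
    fun x hx hx0 e => hx0 (h5 x (fun f hf => hx f (h0 f hf).1 (h0 f hf).2) e)
  refine ⟨fun x => congrFun h1.2.1 x, Function.ne_iff.1 h1.2.2, fun x => congrFun h2.2.1 x, h3,
    (h4 _ hr).1, (h4 _ hr).2.1, (h4 _ hr).2.2, (h4 _ hs).1, (h4 _ hs).2.1, (h4 _ hs).2.2, ?_, ?_,
    ?_, h6, h7, h8, h9, h10⟩
  · have := key (⟨0, 1, 0, 0⟩, ⟨0, 0, 0, 0⟩) (fun f f0 f1 => by simp only [ap, f0, f1])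
      fun e => one_ne_zero (congrArg (fun z : Oc a b => z.1.imI) e)
    simpa [re, omc, occ] using this
  · have := key (⟨0, 0, 1, 0⟩, ⟨0, 0, 0, 0⟩) (fun f f0 f1 => by simp only [ap, f0, f1])
      fun e => one_ne_zero (congrArg (fun z : Oc a b => z.1.imJ) e)
    simpa [re, omc, occ] using this
  · have := key (⟨0, 0, 0, 0⟩, ⟨1, 0, 0, 0⟩) (fun f f0 f1 => by simp only [ap, f0, f1])
      fun e => one_ne_zero (congrArg (fun z : Oc a b => z.2.re) e)
    simpa [re, omc, occ] using this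

end ModD4

open ModD4

variable {F : Type} [Field F] [NumberField F] {r s i : F → F} {a b c d q : F}

theorem simp_d3 (hD : Dat [r, s] r s a b c d q)
    (ha : Ani fun f : Oc a b → Oc a b => Tri c r f ∧ Twi c r s d q f)
    (h : NoIndex fun f : Oc a b → Oc a b => Tri c r f ∧ Twi c r s d q f) :
    Simp fun f : Oc a b → Oc a b => Tri c r f ∧ Twi c r s d q f := by
  obtain ⟨r, rfl⟩ := Mod.exists_hom hD.1
  obtain ⟨s, rfl⟩ := Mod.exists_hom hD.2.1
  have H := hy_of_dat (by simp) (by simp) (by simp) hD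
  have e : (fun f : Oc a b → Oc a b => Tri c r f ∧ Twi c r s d q f)
      = fun f => Tri c r f ∧ Twi c r s d q f ∧ (False → Swp r f) := by
    funext f
    simp
  rw [e] at ha h ⊢
  exact simp_gen H (fun h => h.elim) ha h

theorem simp_d4 (hD : Dat [r, s, i] r s a b c d q) (hi : Aut 2 i) (hsi : ∀ x, s (i x) = i (s x))
    (hri : ∀ x, r (i (r x)) = i x) (hid : i d = d) (hiq : r (i q) = q)
    (ha : Ani fun f : Oc a b → Oc a b => Tri c r f ∧ Twi c r s d q f ∧ Swp i f)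
    (h : NoIndex fun f : Oc a b → Oc a b => Tri c r f ∧ Twi c r s d q f ∧ Swp i f) :
    Simp fun f : Oc a b → Oc a b => Tri c r f ∧ Twi c r s d q f ∧ Swp i f := by
  obtain ⟨r, rfl⟩ := Mod.exists_hom hD.1
  obtain ⟨s, rfl⟩ := Mod.exists_hom hD.2.1
  obtain ⟨i, rfl⟩ := Mod.exists_hom hi
  have H := hy_of_dat (by simp) (by simp) (by simp) hD
  have h1 := hD.2.2.2.1.1 i (by simp)
  have e : (fun f : Oc a b → Oc a b => Tri c r f ∧ Twi c r s d q f ∧ Swp i f)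
      = fun f => Tri c r f ∧ Twi c r s d q f ∧ (True → Swp i f) := by
    funext f
    simp
  rw [e] at ha h ⊢
  exact simp_gen H
    (fun _ => ⟨fun x => congrFun hi.2.1 x, hsi, hri, h1.1, h1.2.1, h1.2.2, hid, hiq⟩) ha h

end Vale.Agent.P011Z
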