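import Vale.Agent.P011Z.Defs

/-!
Primes which split completely.
-/

open Module

namespace Vale.Agent.P011Z

/-- The number field has the largest possible number of embeddings into `Ω`. -/
def Splits (F Ω : Type) [Field F] [NumberField F] [Field Ω] : Prop :=
  Nat.card (F →+* Ω) = finrank ℚ F

namespace Spl

open Polynomial

/-- A nonconstant integer polynomial has a value divisible by a prime not dividing `M`. -/
theorem schur (g : ℤ[X]) (hg : 0 < g.natDegree) (M : ℤ) (hM : M ≠ 0) :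
    ∃ (p : ℕ) (x : ℤ), p.Prime ∧ ¬ (p : ℤ) ∣ M ∧ (p : ℤ) ∣ g.eval x := by
  by_cases h0 : g.eval 0 = 0
  · obtain ⟨p, hp, hpp⟩ := Nat.exists_infinite_primes (M.natAbs + 1)
    refine ⟨p, 0, hpp, fun h => ?_, by simp [h0]⟩
    have := Nat.le_of_dvd (Int.natAbs_pos.2 hM) (Int.natCast_dvd.1 h)
    omega
  · have hne : ∀ c : ℤ, g - C c ≠ 0 := fun c h => by
      rw [sub_eq_zero] at h
      rw [h, natDegree_C] at hg
      exact lt_irrefl _ hg
    have hG : (g - C (g.eval 0)) * (g - C (-g.eval 0)) ≠ 0 := mul_ne_zero (hne _) (hne _)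
    have hinj : Function.Injective fun y : ℤ => g.eval 0 * M * y :=
      mul_right_injective₀ (mul_ne_zero h0 hM)
    obtain ⟨y, hy⟩ : ∃ y : ℤ, ¬ ((g - C (g.eval 0)) * (g - C (-g.eval 0))).IsRoot
        (g.eval 0 * M * y) := by
      by_contra hall
      push Not at hall
      refine hG (eq_zero_of_infinite_isRoot _ ?_)
      exact (Set.infinite_range_of_injective hinj).mono (by rintro _ ⟨y, rfl⟩; exact hall y)
    obtain ⟨h, hh⟩ := sub_dvd_eval_sub (g.eval 0 * M * y) 0 g
    have hv : g.eval (g.eval 0 * M * y) = g.eval 0 * (1 + M * y * h) := by linear_combination hh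
    have hn : (1 + M * y * h).natAbs ≠ 1 := by
      intro h1
      apply hy
      simp only [IsRoot.def, eval_mul, eval_sub, eval_C, hv]
      rcases Int.natAbs_eq_iff.1 h1 with h2 | h2 <;> rw [h2] <;> simp
    obtain ⟨p, hp, hd⟩ := Nat.exists_prime_and_dvd hn
    have hd' : (p : ℤ) ∣ 1 + M * y * h := Int.natCast_dvd.2 hd
    refine ⟨p, g.eval 0 * M * y, hp, fun hM' => ?_, hv ▸ hd'.mul_left _⟩
    have h1 : (p : ℤ) ∣ 1 := (dvd_add_left ((hM'.mul_right y).mul_right h)).1 hd'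
    exact hp.one_lt.ne' (by exact_mod_cast Int.eq_one_of_dvd_one (by positivity) h1)

theorem exists_int (f : ℚ[X]) : ∃ (b : ℤ) (g : ℤ[X]), b ≠ 0 ∧
    g.map (algebraMap ℤ ℚ) = C (b : ℚ) * f := by
  obtain ⟨b, hb, h⟩ := IsLocalization.integerNormalization_spec (nonZeroDivisors ℤ) f
  refine ⟨b, _, nonZeroDivisors.ne_zero hb, h.trans ?_⟩
  ext i
  simp

/-- A separable nonconstant rational polynomial has a root in infinitely many `p`-adic fields. -/
theorem exists_root (f : ℚ[X]) (hf : 0 < f.natDegree) (hs : f.Separable) (M : ℤ) (hM : M ≠ 0) :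
    ∃ p : Nat.Primes, ¬ ((p : ℕ) : ℤ) ∣ M ∧ ∃ z : ℚ_[(p : ℕ)], aeval z f = 0 := by
  obtain ⟨u, v, huv⟩ := hs
  obtain ⟨b, g, hb, hg⟩ := exists_int f
  obtain ⟨b₁, U, hb₁, hU⟩ := exists_int u
  obtain ⟨b₂, V, hb₂, hV⟩ := exists_int v
  have hinj : Function.Injective (algebraMap ℤ ℚ) := (algebraMap ℤ ℚ).injective_int
  have hbq : (b : ℚ) ≠ 0 := by exact_mod_cast hb
  have hdeg : 0 < g.natDegree := by
    rw [← natDegree_map_eq_of_injective hinj, hg, natDegree_C_mul hbq]
    exact hf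
  have hbez : C b₂ * U * g + C b₁ * V * derivative g = C (b * b₁ * b₂) := by
    apply map_injective _ hinj
    simp only [Polynomial.map_add, Polynomial.map_mul, map_C, ← derivative_map, hg, hU, hV,
      derivative_C_mul, C_mul]
    simp only [eq_intCast]
    linear_combination (C (b : ℚ) * C (b₁ : ℚ) * C (b₂ : ℚ)) * huv
  obtain ⟨p, x, hp, hpM, hpx⟩ := schur g hdeg (M * (b * b₁ * b₂))
    (mul_ne_zero hM (mul_ne_zero (mul_ne_zero hb hb₁) hb₂))
  have : Fact p.Prime := ⟨hp⟩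
  have hd : ¬ (p : ℤ) ∣ (derivative g).eval x := by
    intro h
    apply hpM
    have h1 := congrArg (eval x) hbez
    simp only [eval_add, eval_mul, eval_C] at h1
    rw [← h1]
    exact (dvd_add (hpx.mul_left _) (h.mul_left _)).mul_left _
  have hev : ∀ q : ℤ[X], aeval (x : ℤ_[p]) q = ((q.eval x : ℤ) : ℤ_[p]) := fun q => by
    have := aeval_algebraMap_apply_eq_algebraMap_eval (A := ℤ_[p]) x q
    simpa using this
  have h1 : ‖aeval (x : ℤ_[p]) (derivative g)‖ = 1 := by
    rw [hev]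
    exact le_antisymm (PadicInt.norm_le_one _)
      (not_lt.1 fun h => hd (PadicInt.norm_intCast_lt_one_iff.1 h))
  have h2 : ‖aeval (x : ℤ_[p]) g‖ < ‖aeval (x : ℤ_[p]) (derivative g)‖ ^ 2 := by
    rw [h1, one_pow, hev]
    exact PadicInt.norm_intCast_lt_one_iff.2 hpx
  obtain ⟨z, hz, -⟩ := hensels_lemma h2
  refine ⟨⟨p, hp⟩, fun h => hpM (h.mul_right _), (z : ℚ_[p]), ?_⟩
  have h3 : aeval (algebraMap ℤ_[p] ℚ_[p] z) g = 0 := by
    rw [aeval_algebraMap_apply, hz, map_zero]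
  rw [← aeval_map_algebraMap ℚ, hg, map_mul, aeval_C] at h3
  exact (mul_eq_zero.1 h3).resolve_left ((_root_.map_ne_zero _).2 hbq)

theorem exists_emb (N : Type) [Field N] [NumberField N] (T : Finset Nat.Primes) :
    ∃ p : Nat.Primes, p ∉ T ∧ 5 ≤ (p : ℕ) ∧ Nonempty (N →ₐ[ℚ] ℚ_[(p : ℕ)]) := by
  let pb := Field.powerBasisOfFiniteOfSeparable ℚ N
  have hM : (6 * ∏ q ∈ T, ((q : ℕ) : ℤ)) ≠ 0 :=
    mul_ne_zero (by norm_num) (Finset.prod_ne_zero_iff.2 fun q _ => by exact_mod_cast q.2.ne_zero)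
  obtain ⟨p, hp, z, hz⟩ := exists_root (minpoly ℚ pb.gen)
    (minpoly.natDegree_pos pb.isIntegral_gen) (Algebra.IsSeparable.isSeparable ℚ pb.gen) _ hM
  refine ⟨p, fun h => hp ((Finset.dvd_prod_of_mem _ h).mul_left _), ?_, ⟨pb.lift z hz⟩⟩
  by_contra h5
  have h2 := p.2.two_le
  have h6 : ¬ ((p : ℕ) : ℤ) ∣ 6 := fun h => hp (h.mul_right _)
  have h4 : (p : ℕ) ≠ 4 := fun h => absurd (h ▸ p.2) (by norm_num)
  have : (p : ℕ) = 2 ∨ (p : ℕ) = 3 := by omega
  rcases this with h | h <;> rw [h] at h6 <;> norm_num at h6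

theorem splits_of_normal {N Ω : Type} [Field N] [NumberField N] [Normal ℚ N] [Field Ω]
    [CharZero Ω] (ι : N →ₐ[ℚ] Ω) : Splits N Ω := by
  unfold Splits
  rw [Nat.card_congr (RingHom.equivRatAlgHom N Ω)]
  refine AlgHom.natCard_of_splits ℚ N Ω fun x => ?_
  have h := (Normal.splits (inferInstance : Normal ℚ N) x).map (ι : N →+* Ω)
  rwa [Polynomial.map_map, AlgHom.comp_algebraMap] at h

theorem card_fibre {F E Ω : Type} [Field F] [Field E] [Algebra F E] [Module.Finite F E] [Field Ω]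
    (τ : F →+* Ω) : Nat.card {τ' : E →+* Ω // τ'.comp (algebraMap F E) = τ} ≤ finrank F E := by
  let _ := τ.toAlgebra
  refine le_trans (Nat.card_le_card_of_injective
    (fun t : {τ' : E →+* Ω // τ'.comp (algebraMap F E) = τ} =>
      (⟨t.1, fun r => RingHom.congr_fun t.2 r⟩ : E →ₐ[F] Ω)) fun s t h => ?_)
    (card_algHom_le_finrank F E Ω)
  exact Subtype.ext (congrArg (fun f : E →ₐ[F] Ω => f.toRingHom) h)

end Spl

theorem Splits.tower {F E Ω : Type} [Field F] [NumberField F] [Field E] [NumberField E]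
    [Algebra F E] [Field Ω] [CharZero Ω] (h : Splits E Ω) :
    Splits F Ω ∧ ∀ τ : F →+* Ω, ∃ τ' : E →+* Ω, τ'.comp (algebraMap F E) = τ := by
  classical
  have : IsScalarTower ℚ F E := IsScalarTower.of_algebraMap_eq' (RingHom.ext_rat _ _)
  have : Module.Finite F E := Module.Finite.of_restrictScalars_finite ℚ F E
  have hmul : finrank ℚ F * finrank F E = finrank ℚ E := finrank_mul_finrank ℚ F E
  have hm : 0 < finrank F E := finrank_pos
  have hF : Fintype.card (F →+* Ω) ≤ finrank ℚ F := by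
    rw [← Nat.card_eq_fintype_card, Nat.card_congr (RingHom.equivRatAlgHom F Ω)]
    exact card_algHom_le_finrank ℚ F Ω
  have hsum : ∑ τ : F →+* Ω, Nat.card {τ' : E →+* Ω // τ'.comp (algebraMap F E) = τ} =
      finrank ℚ F * finrank F E := by
    rw [hmul, ← h, ← Nat.card_sigma]
    exact Nat.card_congr (Equiv.sigmaFiberEquiv fun τ' : E →+* Ω => τ'.comp (algebraMap F E))
  have hle : ∑ τ : F →+* Ω, Nat.card {τ' : E →+* Ω // τ'.comp (algebraMap F E) = τ} ≤
      ∑ _τ : F →+* Ω, finrank F E := Finset.sum_le_sum fun τ _ => Spl.card_fibre τ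
  refine ⟨?_, fun τ => ?_⟩
  · rw [hsum, Finset.sum_const, smul_eq_mul, Finset.card_univ] at hle
    unfold Splits
    rw [Nat.card_eq_fintype_card]
    exact le_antisymm hF (Nat.le_of_mul_le_mul_right hle hm)
  · by_contra hno
    have h0 : Nat.card {τ' : E →+* Ω // τ'.comp (algebraMap F E) = τ} = 0 := by
      have : IsEmpty {τ' : E →+* Ω // τ'.comp (algebraMap F E) = τ} :=
        ⟨fun t => hno ⟨t.1, t.2⟩⟩
      exact Nat.card_of_isEmpty
    have hlt : ∑ τ : F →+* Ω, Nat.card {τ' : E →+* Ω // τ'.comp (algebraMap F E) = τ} <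
        ∑ _τ : F →+* Ω, finrank F E :=
      Finset.sum_lt_sum (fun τ _ => Spl.card_fibre τ) ⟨τ, Finset.mem_univ _, h0 ▸ hm⟩
    rw [hsum, Finset.sum_const, smul_eq_mul, Finset.card_univ] at hlt
    exact absurd (Nat.mul_le_mul_right _ hF) (not_le.2 hlt)

theorem exists_split (E : Type) [Field E] [NumberField E] (T : Finset Nat.Primes) :
    ∃ p : Nat.Primes, p ∉ T ∧ 5 ≤ (p : ℕ) ∧ Splits E ℚ_[(p : ℕ)] := by
  let N := IntermediateField.normalClosure ℚ E (AlgebraicClosure E)
  have : NumberField N := NumberField.of_module_finite ℚ N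
  have : Algebra.IsAlgebraic ℚ (AlgebraicClosure E) :=
    Algebra.IsAlgebraic.trans ℚ E (AlgebraicClosure E)
  have : IsAlgClosure ℚ (AlgebraicClosure E) := ⟨inferInstance, inferInstance⟩
  have : Normal ℚ N := normalClosure.normal ℚ E (AlgebraicClosure E)
  obtain ⟨p, hp, h5, ⟨ι⟩⟩ := Spl.exists_emb N T
  exact ⟨p, hp, h5, (Splits.tower (Spl.splits_of_normal ι)).1⟩

theorem exists_split_sq {F : Type} [Field F] [NumberField F] (a : F) (T : Finset Nat.Primes) :
    ∃ p : Nat.Primes, p ∉ T ∧ 5 ≤ (p : ℕ) ∧ Splits F ℚ_[(p : ℕ)] ∧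
      ∀ τ : F →+* ℚ_[(p : ℕ)], IsSquare (τ a) := by
  let f : Polynomial F := Polynomial.X ^ 2 - Polynomial.C a
  have : NumberField f.SplittingField := NumberField.of_module_finite F _
  obtain ⟨p, hp, h5, hs⟩ := exists_split f.SplittingField T
  obtain ⟨h1, h2⟩ := Splits.tower (F := F) hs
  refine ⟨p, hp, h5, h1, fun τ => ?_⟩
  obtain ⟨τ', rfl⟩ := h2 τ
  have hdeg : (f.map (algebraMap F f.SplittingField)).degree ≠ 0 := by
    rw [Polynomial.degree_map, Polynomial.degree_X_pow_sub_C (by norm_num)]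
    norm_num
  obtain ⟨r, hr⟩ := (Polynomial.SplittingField.splits f).exists_eval_eq_zero hdeg
  have hr' : algebraMap F f.SplittingField a = r * r := by
    simp only [f, Polynomial.map_sub, Polynomial.map_pow, Polynomial.map_X, Polynomial.map_C,
      Polynomial.eval_sub, Polynomial.eval_pow, Polynomial.eval_X, Polynomial.eval_C] at hr
    linear_combination -hr
  exact ⟨τ' r, by rw [RingHom.comp_apply, hr', map_mul]⟩

/-- Independence of characters, in the form used for descent. -/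
theorem descent {F W Γ : Type} [Field F] [AddCommGroup W] [Module F W] [Fintype Γ]
    (σ : Γ → F →+* F) (hσ : Function.Injective σ) (Y : Γ → W) (P : Submodule F W)
    (h : ∀ c : F, ∑ γ, σ γ c • Y γ ∈ P) (γ : Γ) : Y γ ∈ P := by
  refine (Subspace.forall_mem_dualAnnihilator_apply_eq_zero_iff P (Y γ)).1 fun φ hφ => ?_
  have hli := (linearIndependent_monoidHom F F).comp (fun γ => (σ γ : F →* F))
    fun s t hst => hσ (RingHom.coe_monoidHom_injective hst)
  refine Fintype.linearIndependent_iff.1 hli (fun γ => φ (Y γ)) (funext fun c => ?_) γ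
  have h1 := (Submodule.mem_dualAnnihilator φ).1 hφ _ (h c)
  rw [map_sum] at h1
  rw [Finset.sum_apply, Pi.zero_apply, ← h1]
  refine Finset.sum_congr rfl fun δ _ => ?_
  simp [mul_comm]

end Vale.Agent.P011Z
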