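import Vale.Agent.P011Z.MainF
import Vale.Agent.P011Z.G2
import Vale.Agent.P011Z.FinDefs
import Vale.Agent.P011Z.Mod.Ten
import Vale.Agent.P011Z.ModE6.Sys

/-!
The outer groups of type `E₆` with nontrivial Tits class.
-/

open Matrix Module

namespace Vale.Agent.P011Z

open Vale.Agent.P011.H900

namespace E6

section rho

variable {Ω : Type} [Field Ω]

open Classical in
/-- The action of `SL₃` on the octonions, by choice. -/
noncomputable def g2 (a b c : Ω) : SpecialLinearGroup (Fin 3) Ω →* End Ω (Oc a b) :=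
  if h : ∃ φ : SpecialLinearGroup (Fin 3) Ω →* End Ω (Oc a b), G2Act c φ then h.choose else 1

theorem g2_spec [CharZero Ω] {a b c : Ω} (ha : a ≠ 0) (hb : b ≠ 0) (hc : c ≠ 0)
    (hs : IsSquare a) : G2Act c (g2 a b c) := by
  have h := exists_g2Act ha hb hc hs
  rw [g2, dif_pos h]
  exact h.choose_spec

/-- The action of `SL₃` on the Albert algebra, by matrices. -/
noncomputable def rho (a b c : Ω) : SpecialLinearGroup (Fin 3) Ω →* Matrix Ix Ix Ω :=
  (mat a b : End Ω (Al a b) →* Matrix Ix Ix Ω).comp (act (g2 a b c))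

theorem rho_apply (a b c : Ω) (g : SpecialLinearGroup (Fin 3) Ω) :
    rho a b c g = mat a b (act0 1 (g2 a b c g)) := rfl

theorem rep3 [TopologicalSpace Ω] [IsTopologicalRing Ω] {a b c : Ω} (h : G2Act c (g2 a b c)) :
    Rep3 (rho a b c) := by
  refine Mod.rep3_of (Basis.ofEquivFun (co a b)) (act (g2 a b c)) (fun i j hij => ?_) ?_
  · obtain ⟨X, hX⟩ := h.el i j hij
    refine ⟨act0 0 X, fun t => LinearMap.ext fun x => ?_⟩
    rw [act_apply, hX]
    apply aext 0 <;> simp [act0_fst, act0_snd]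
  · obtain ⟨P, Q, R, h1, -, h2⟩ := h.dg
    refine ⟨act0 0 P, act0 1 Q, act0 0 R, LinearMap.ext fun x => ?_, fun w hw x => ⟨?_, ?_, ?_⟩⟩
    · have h3 : ∀ y, P y + Q y + R y = y := fun y => LinearMap.congr_fun h1 y
      apply aext 0 <;> simp [act0_fst, act0_snd, h3]
    · apply aext 0 <;> simp [act_apply, act0_fst, act0_snd, (h2 w hw _).1]
    · apply aext 0 <;> simp [act_apply, act0_fst, act0_snd, (h2 w hw _).2.1]
    · apply aext 0 <;> simp [act_apply, act0_fst, act0_snd, (h2 w hw _).2.2]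

end rho

variable {F : Type} [Field F] [CharZero F] {R S : F →+* F} {a b c e : F} {g : Fin 3 → F}

namespace Dt

variable (D : Dt R S a b c e g) {Ω : Type} [Field Ω]

theorem pres (h : ∀ τ : F →+* Ω, G2Act (τ c) (g2 (τ a) (τ b) (τ c))) :
    D.sys.Pres fun (τ : F →+* Ω) y => rho (τ a) (τ b) (τ c) y := by
  have e0 : ∀ (τ : F →+* Ω) (σ : F →+* F), σ a = a → σ b = b → σ c = c →
      rho (τ.comp σ a) (τ.comp σ b) (τ.comp σ c) = rho (τ a) (τ b) (τ c) := by
    intro τ σ h1 h2 h3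
    rw [RingHom.comp_apply, RingHom.comp_apply, RingHom.comp_apply, h1, h2, h3]
  refine (D.forall_T _).2 ⟨fun τ y x => ?_, fun τ y x => ?_, fun τ y x => ?_⟩
  · rw [evE_t2 τ _ _ _ _ (hb_mpA rfl rfl rfl g), evE_t2 τ _ _ _ _ (hb_mpA rfl rfl rfl g)]
    simp only [Matrix.cons_val_zero, Matrix.cons_val_one, e0 τ S D.Sa D.Sb D.Sc,
      e0 τ (RingHom.id F) rfl rfl rfl, rho_apply, co_mat]
    exact hb_act (h τ |>.om y) (h τ |>.oc y) (h τ |>.re y) _ _ _
  · rw [evE_t3 τ _ _ (N_mpA rfl rfl rfl), evE_t3 τ _ _ (N_mpA rfl rfl rfl)]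
    simp only [e0 τ (RingHom.id F) rfl rfl rfl, rho_apply, co_mat]
    exact N_act (h τ |>.om y) (h τ |>.oc y) (h τ |>.re y) _ _ _
  · have e1 : ∀ u v : Al a b, ((hb (τ c) fun i => τ (g i)).comp (pl (τ e)))
        (mpA τ (τ a) (τ b) u) (mpA τ (τ a) (τ b) v) = τ (((hb c g).comp (pl e)) u v) := by
      intro u v
      rw [LinearMap.comp_apply, LinearMap.comp_apply, pl_mpA, hb_mpA rfl rfl rfl]
    rw [evE_t2 τ _ _ _ _ e1, evE_t2 τ _ _ _ _ e1]
    simp only [Matrix.cons_val_zero, Matrix.cons_val_one, e0 τ S D.Sa D.Sb D.Sc,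
      e0 τ R D.Ra D.Rb D.Rc, rho_apply, co_mat, LinearMap.comp_apply, pl_act]
    exact hb_act (h τ |>.om y) (h τ |>.oc y) (h τ |>.re y) _ _ _

theorem not_comm (τ : F →+* Ω) (h : G2Act (τ c) (g2 (τ a) (τ b) (τ c))) (w : Ω) (hw : w ≠ 0)
    (h1 : w ≠ 1) : ∃ X ∈ D.sys.lieE τ,
      rho (τ a) (τ b) (τ c) (dg3 w hw) * X ≠ X * rho (τ a) (τ b) (τ c) (dg3 w hw) := by
  obtain ⟨P, Q, R', -, h2, h3⟩ := h.dg
  obtain ⟨x, hx⟩ : ∃ x, P x ≠ 0 := by
    by_contra h0
    push Not at h0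
    exact h2 (LinearMap.ext h0)
  refine ⟨_, D.U_lieE τ 0 (P x), fun h4 => ?_⟩
  rw [rho_apply, ← map_mul, ← map_mul] at h4
  have h5 := LinearMap.congr_fun ((mat (τ a) (τ b)).injective h4) (E (0 + 2))
  have h6 : act0 1 (g2 (τ a) (τ b) (τ c) (dg3 w hw)) (E (0 + 2)) = E (0 + 2) := by
    apply aext 0 <;> simp [act0_fst, act0_snd, E_fst, E_snd]
  rw [End.mul_apply, End.mul_apply, h6, U_E2] at h5
  have h7 := congrArg (fun y : Al (τ a) (τ b) => y.2 0) h5
  simp only [act0_snd, O_snd, Pi.single_eq_same, (h3 w hw x).1] at h7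
  exact hx ((smul_eq_zero.1 (show (w - 1) • P x = 0 by rw [sub_smul, h7, one_smul, sub_self])
    ).resolve_left (sub_ne_zero.2 h1))

end Dt

theorem dt_of {t : F} (hr : Aut 3 R) (hs : Aut 2 S) (hc : ∀ x, R (S x) = S (R x))
    (hd : Dvn [R, S] [R, S] a b c) (he : Nnm R e) (hw : Wei R S e t g) : Dt R S a b c e g := by
  have R3 : ∀ x, R (R (R x)) = x := fun x => congrFun hr.2.1 x
  have S2 : ∀ x, S (S x) = x := fun x => congrFun hs.2.1 x
  obtain ⟨w1, w2, w3, w4, w5, w6⟩ := hw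
  have h1 := hd.1 R (by simp)
  have h2 := hd.1 S (by simp)
  have hz : ∀ k : Fin 8, re (om c (ov (Pi.single k 1) : Oc a b) (oc (ov (Pi.single k 1)))) ≠ 0 := by
    intro k h0
    have h3 := hd.2 (ov (Pi.single k 1)) (fun r hr => by
      simp only [List.mem_cons, List.not_mem_nil, or_false] at hr
      rcases hr with rfl | rfl <;> apply oext <;> simp [ap, ov, Pi.single_apply]) h0
    have h4 := congrArg (fun x : Oc a b => vo x k) h3
    fin_cases k <;> simp [vo, ov] at h4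
  have a0 : a ≠ 0 := fun h => hz 1 (by simp [re, om1, oc_eq, ov, h])
  have b0 : b ≠ 0 := fun h => hz 2 (by simp [re, om1, oc_eq, ov, h])
  have c0 : c ≠ 0 := fun h => hz 4 (by simp [re, om1, oc_eq, ov, h])
  have h3 : e * S e * t * R (g 2) ≠ 0 := w6 ▸ w2
  have e0 : e ≠ 0 := fun h => h3 (by simp [h])
  have t0 : t ≠ 0 := fun h => h3 (by simp [h])
  have g2 : g 2 ≠ 0 := fun h => h3 (by simp [h])
  have g1 : g 1 ≠ 0 := fun h => g2 (by rw [w5, h, map_zero, mul_zero])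
  have se : S e ≠ 0 := (map_ne_zero S).2 e0
  have r0 : R (g 0) = g 1 / t := by rw [w4, mul_div_cancel_left₀ _ t0]
  have r1 : R (g 1) = g 2 / t := by rw [w5, mul_div_cancel_left₀ _ t0]
  have r2 : R (g 2) = g 0 / (e * S e * t) := by
    rw [w6, mul_div_cancel_left₀ _ (mul_ne_zero (mul_ne_zero e0 se) t0)]
  have r3 : R (g 1 / g 2) = g 2 / g 0 * (e * S e) := by
    rw [map_div₀, r1, r2]
    field_simp
  refine ⟨a0, b0, c0, e0, fun i => ?_, R3, S2, fun h => hr.2.2 (by rw [h]; rfl),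
    fun h => hs.2.2 (by rw [h]; rfl), hc, h1.1, h1.2.1, h1.2.2, h2.1, h2.2.1, h2.2.2, he.1, w1,
    ?_, ?_⟩
  · fin_cases i
    exacts [w2, g1, g2]
  · rw [r3]
    field_simp
  · rw [r3, map_mul, map_mul, map_div₀, hc, he.1, r0, r2]
    field_simp

theorem closed (R S : F →+* F) (c e : F) (g : Fin 3 → F)
    (f : grp fun f : Al a b → Al a b => Cub c f ∧ Her c S g f ∧ Ph R e f) :
    Cub c f.1 ∧ Her c S g f.1 ∧ Ph R e f.1 := by
  refine Mod.mem_grp (P := fun f : Al a b → Al a b => Cub c f ∧ Her c S g f ∧ Ph R e f)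
    ⟨⟨fun _ _ _ => rfl, fun _ => rfl⟩, fun _ _ => rfl, fun _ => rfl⟩
    (fun f f' h h' => ⟨⟨fun t x y => ?_, fun x => ?_⟩, fun x y => ?_, fun x => ?_⟩)
    (fun f h => ⟨⟨fun t x y => ?_, fun x => ?_⟩, fun x y => ?_, fun x => ?_⟩) f
  · simp only [Function.comp_apply, h'.1.1, h.1.1]
  · simp only [Function.comp_apply, h'.1.2, h.1.2]
  · exact (h.2.1 _ _).trans (h'.2.1 _ _)
  · exact (congrArg f (h'.2.2 x)).trans (h.2.2 _)
  · rw [Equiv.symm_apply_eq, h.1.1, Equiv.apply_symm_apply, Equiv.apply_symm_apply]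
  · rw [← h.1.2, Equiv.apply_symm_apply]
  · rw [← h.2.1, Equiv.apply_symm_apply, Equiv.apply_symm_apply]
  · rw [Equiv.symm_apply_eq, h.2.2, Equiv.apply_symm_apply]

end E6

variable {F : Type} [Field F] [NumberField F] {r s : F → F} {a b c e t : F} {g : Fin 3 → F}

open E6 in
theorem simp_e3 (hr : Aut 3 r) (hs : Aut 2 s) (hc : ∀ x, r (s x) = s (r x))
    (hd : Dvn [r, s] [r, s] a b c) (he : Nnm r e) (hw : Wei r s e t g)
    (ha : Ani fun f : Al a b → Al a b => Cub c f ∧ Her c s g f ∧ Ph r e f)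
    (h : NoIndex fun f : Al a b → Al a b => Cub c f ∧ Her c s g f ∧ Ph r e f) :
    Simp fun f : Al a b → Al a b => Cub c f ∧ Her c s g f ∧ Ph r e f := by
  obtain ⟨R, rfl⟩ := Mod.exists_hom hr
  obtain ⟨S, rfl⟩ := Mod.exists_hom hs
  have D := dt_of hr hs hc hd he hw
  obtain ⟨p, -, h5, hp, hsq⟩ := exists_split_sq a ∅
  have hG : ∀ τ : F →+* ℚ_[(p : ℕ)], G2Act (τ c) (g2 (τ a) (τ b) (τ c)) := fun τ =>
    g2_spec ((map_ne_zero τ).2 D.a0) ((map_ne_zero τ).2 D.b0) ((map_ne_zero τ).2 D.c0) (hsq τ)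
  refine Mod.simp_of_sys (Basis.ofEquivFun (co a b)) D.sys (fun f => ?_) (fun X hX hm => ?_) ha h
    D.stable D.scalar p h5 hp (fun τ => D.prime τ) (fun τ => rho (τ a) (τ b) (τ c)) (D.pres hG)
    (fun τ => rep3 (hG τ)) fun τ w hw h1 => D.not_comm τ (hG τ) w hw fun h2 => ?_
  · obtain ⟨⟨h1, h2⟩, h3, h4⟩ := closed R S c e g f
    have h0 : f.1 0 = 0 := by
      have h6 := h1 1 0 0
      simpa using h6
    have hadd : ∀ x y, f.1 (x + y) = f.1 x + f.1 y := fun x y => by simpa using h1 1 x y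
    refine ⟨⟨⟨f.1, hadd⟩, fun t x => by simpa [h0] using h1 t x 0⟩, rfl,
      (D.mem_mon _).2 ⟨h3, fun x y z => ?_, fun x y => ?_⟩⟩
    · change N c (f.1 x) (f.1 y) (f.1 z) = _
      simp only [N_polar, ← hadd, h2]
    · change her c S g (ph R e (f.1 x)) (f.1 y) = _
      rw [← h4, h3]
  · obtain ⟨h1, h2, h3⟩ := (D.mem_mon X).1 hm
    refine ⟨⟨fun t x y => by rw [map_add, map_smul], fun x => ?_⟩, h1, fun x => ?_⟩
    · have h4 := h2 x x x
      rw [N_diag, N_diag] at h4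
      exact mul_left_cancel₀ (by norm_num) h4
    · refine sub_eq_zero.1 (hb_nondeg D.a0 D.b0 D.c0 D.g0 fun z => ?_)
      obtain ⟨y, hy⟩ := hX.2 (mpA S a b z)
      have h4 : mpA S a b (X y) = z := by
        rw [hy]
        apply aext 0 <;> simp only [mpA_fst, mpA_snd, D.S2, D.SS]
      rw [hb_comm, map_sub, LinearMap.sub_apply, ← h4, ← her_eq, ← her_eq, h1, h3, sub_self]
  · rw [h2, norm_one] at h1
    exact lt_irrefl _ h1

end Vale.Agent.P011Z
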