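import Vale.Agent.P011Z.TrE
import Vale.Agent.P011.E6.Tw2
import Vale.Agent.P011.E6I.HFin
import Vale.Agent.P011.E6H.Br

/-!
The groups of type `E₆` with trivial Tits class and the inner ones.
-/

open Module

namespace Vale.Agent.P011Z

open Vale.Agent.P011 Vale.Agent.P011.H900 Vale.Agent.P011.D4 Vale.Agent.P011.E6
  Vale.Agent.P011.E6H

theorem sim1 : Sim1 := by
  intro k K _ _ _ _ hK σ hσ a b c hC γ hγ
  have : FiniteDimensional k K := Module.finite_of_finrank_eq_succ hK
  have : NumberField K := NumberField.of_module_finite k K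
  rw [gp_eq]
  exact fun N => (gp_main' hK (ne_one hσ) hC hγ N).2

theorem sim2 : Sim2 := by
  intro k L _ _ _ _ hL ρ hρ lam hlam a b c hC
  have : FiniteDimensional k L := Module.finite_of_finrank_eq_succ hL
  have : NumberField L := NumberField.of_module_finite k L
  rw [gpi_eq]
  exact fun N => (Vale.Agent.P011.E6I.gpi_main hL (ne_one hρ) hlam hC N).2

end Vale.Agent.P011Z
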