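import Vale.Agent.P011Z.Defs

/-!
Discrete cocompact subgroups: a measurable retraction, unimodularity.
-/

open Topology MeasureTheory

namespace Vale.Agent.P011Z

variable {G : Type} [Group G] [TopologicalSpace G]

/-- The subgroup is cocompact. -/
def Coc (Γ : Subgroup G) : Prop :=
  ∃ C : Set G, IsCompact C ∧ ∀ g : G, ∃ γ ∈ Γ, ∃ c ∈ C, g = γ * c

variable [IsTopologicalGroup G]

theorem Coc.of_relIndex {Γ Γ' : Subgroup G} (h : Coc Γ) (h' : Γ'.relIndex Γ ≠ 0) : Coc Γ' := by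
  obtain ⟨C, hC, h⟩ := h
  have : Finite (Γ ⧸ Γ'.subgroupOf Γ) := Subgroup.index_ne_zero_iff_finite.1 h'
  refine ⟨⋃ q : Γ ⧸ Γ'.subgroupOf Γ, (fun c => ((q.out : Γ) : G)⁻¹ * c) '' C,
    isCompact_iUnion fun q => hC.image (by fun_prop), fun g => ?_⟩
  obtain ⟨γ, hγ, c, hc, rfl⟩ := h g
  obtain ⟨t, ht⟩ := QuotientGroup.mk_out_eq_mul (Γ'.subgroupOf Γ) (⟨γ, hγ⟩⁻¹ : Γ)
  refine ⟨(t : Γ), t.2, _, Set.mem_iUnion.2 ⟨((⟨γ, hγ⟩⁻¹ : Γ) : Γ ⧸ Γ'.subgroupOf Γ), c, hc, rfl⟩,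
    ?_⟩
  simp [ht, mul_assoc]

theorem Coc.finiteIndex {H : Subgroup G} (h : Coc H) (ho : IsOpen (H : Set G)) :
    H.FiniteIndex := by
  obtain ⟨C, hC, h⟩ := h
  have := QuotientGroup.discreteTopology ho
  have h1 : ((fun c : G => ((c⁻¹ : G) : G ⧸ H)) '' C).Finite :=
    (hC.image (QuotientGroup.continuous_mk.comp continuous_inv)).finite_of_discrete
  have : Finite (G ⧸ H) := by
    refine Set.finite_univ_iff.1 (h1.subset fun q _ => ?_)
    obtain ⟨g, rfl⟩ := QuotientGroup.mk_surjective q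
    obtain ⟨γ, hγ, c, hc, e⟩ := h g⁻¹
    refine ⟨c, hc, QuotientGroup.eq.2 ?_⟩
    rw [inv_eq_iff_eq_inv.1 e]
    simpa using hγ
  exact Subgroup.finiteIndex_of_finite_quotient

variable [T2Space G]

theorem finite_of_compact (Γ : Subgroup G) [DiscreteTopology Γ] {K : Set G} (hK : IsCompact K) :
    {γ : Γ | (γ : G) ∈ K}.Finite := by
  have h := (Γ.tendsto_coe_cofinite_of_discrete ⟨inferInstance⟩).eventually
    hK.compl_mem_cocompact
  simpa using Filter.eventually_cofinite.1 h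

variable [LocallyCompactSpace G] [SecondCountableTopology G] [MeasurableSpace G] [BorelSpace G]

/-- An equivariant measurable retraction onto the subgroup, at a bounded distance. -/
theorem exists_retr (Γ : Subgroup G) [DiscreteTopology Γ] (hc : Coc Γ) :
    ∃ r : G → Γ, (∀ γ : Γ, MeasurableSet {x | r x = γ}) ∧ (∀ (γ : Γ) x, r (γ * x) = γ * r x) ∧
      ∃ C : Set G, IsCompact C ∧ ∀ x, ((r x : Γ) : G)⁻¹ * x ∈ C := by
  obtain ⟨C, hC, h⟩ := hc
  have : Countable Γ := countable_of_Lindelof_of_discrete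
  obtain ⟨f, hf, hi⟩ := MeasurableSpace.measurable_injection_nat_bool_of_countablySeparated G
  have he := measurableEmbedding_embeddingReal (ℕ → Bool)
  have hφ := he.measurable.comp hf
  have hφi := he.injective.comp hi
  generalize embeddingReal (ℕ → Bool) ∘ f = φ at hφ hφi
  have ex : ∀ x : G, ∃ γ : Γ, (γ : G)⁻¹ * x ∈ C ∧
      ∀ δ : Γ, (δ : G)⁻¹ * x ∈ C → φ ((γ : G)⁻¹ * x) ≤ φ ((δ : G)⁻¹ * x) := by
    intro x
    have h1 : {γ : Γ | (γ : G)⁻¹ * x ∈ C}.Finite :=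
      (finite_of_compact Γ (hC.image (f := fun c => x * c⁻¹) (by fun_prop))).subset
        fun γ hγ => ⟨_, hγ, by simp⟩
    obtain ⟨γ, hγ, c, hc, e⟩ := h x
    exact Set.exists_min_image _ (fun δ : Γ => φ ((δ : G)⁻¹ * x)) h1
      ⟨⟨γ, hγ⟩, show γ⁻¹ * x ∈ C by rwa [e, inv_mul_cancel_left]⟩
  choose r hr1 hr2 using ex
  have un : ∀ (x : G) (γ : Γ), r x = γ ↔ (γ : G)⁻¹ * x ∈ C ∧
      ∀ δ : Γ, (δ : G)⁻¹ * x ∈ C → φ ((γ : G)⁻¹ * x) ≤ φ ((δ : G)⁻¹ * x) := fun x γ =>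
    ⟨fun e => e ▸ ⟨hr1 x, hr2 x⟩, fun e => Subtype.ext (inv_injective (mul_right_cancel
      (hφi (le_antisymm (hr2 x γ e.1) (e.2 _ (hr1 x))))))⟩
  refine ⟨r, fun γ => ?_, fun γ x => (un _ _).2 ⟨by simpa [mul_assoc] using hr1 x, fun δ hδ => ?_⟩,
    C, hC, hr1⟩
  · have m1 : ∀ δ : Γ, Measurable fun x : G => (δ : G)⁻¹ * x := fun δ => measurable_const_mul _
    simp only [un, measurableSet_setOfPred]
    refine Measurable.and (measurableSet_setOfPred.1 (m1 γ hC.measurableSet)) ?_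
    exact Measurable.forall fun δ => (measurableSet_setOfPred.1 (m1 δ hC.measurableSet)).imp
      (measurableSet_setOfPred.1 (measurableSet_le (hφ.comp (m1 γ)) (hφ.comp (m1 δ))))
  · simpa [mul_assoc] using hr2 x (γ⁻¹ * δ) (by simpa [mul_assoc] using hδ)

theorem unimod (Γ : Subgroup G) [DiscreteTopology Γ] (hc : Coc Γ) (μ : Measure G)
    [μ.IsHaarMeasure] : μ.IsMulRightInvariant := by
  obtain ⟨r, hm, hr, C, hC, hrC⟩ := exists_retr Γ hc
  have : Countable Γ := countable_of_Lindelof_of_discrete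
  have hD : ∀ g : G, IsFundamentalDomain Γ ((fun x => x * g) ⁻¹' {x | r x = 1}) μ := by
    intro g
    refine .mk' (measurable_mul_const g (hm 1)).nullMeasurableSet fun x => ?_
    have e : ∀ γ : Γ, γ • x ∈ (fun x => x * g) ⁻¹' {x | r x = 1} ↔ γ = (r (x * g))⁻¹ := by
      intro γ
      rw [eq_inv_iff_mul_eq_one, ← hr, ← mul_assoc]
      rfl
    simp only [e, existsUnique_eq]
  have h1 : IsFundamentalDomain Γ {x | r x = 1} μ := by simpa using hD 1
  have h2 : μ {x | r x = 1} ≠ ⊤ := by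
    refine ((measure_mono fun x hx => ?_).trans_lt hC.measure_lt_top).ne
    simpa [show r x = 1 from hx] using hrC x
  refine ⟨fun g => ?_⟩
  have h3 := Measure.map_right_mul_eq_modularCharacterFun_smul μ g
  have h4 := congrArg (fun ν : Measure G => ν {x | r x = 1}) h3
  simp only [Measure.map_apply (measurable_mul_const g) (hm 1), (hD g).measure_eq h1,
    Measure.smul_apply, ENNReal.smul_def, smul_eq_mul] at h4
  have h5 : (Measure.modularCharacterFun g : ENNReal) = 1 :=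
    ((ENNReal.mul_eq_right (h1.measure_ne_zero (NeZero.ne μ)) h2).1 h4.symm)
  rw [h3, ENNReal.coe_eq_one.1 h5, one_smul]

end Vale.Agent.P011Z
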