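import Vale.Agent.P011Z.Reiter
import Vale.Agent.P011Z.Core.Inv
import Vale.Agent.P011Z.Core.Cnt

/-!
The abstract normal subgroup theorem.
-/

open Topology MeasureTheory
open scoped ENNReal Pointwise

namespace Vale.Agent.P011Z

variable {A B : Type} [Group A] [TopologicalSpace A] [IsTopologicalGroup A] [T2Space A]
  [LocallyCompactSpace A] [SecondCountableTopology A] [Group B] [TopologicalSpace B]
  [IsTopologicalGroup B] [T2Space B] [LocallyCompactSpace B] [SecondCountableTopology B]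

/-- The property (T) half. -/
theorem core_of_reiter (Γ N : Subgroup (A × B)) [DiscreteTopology Γ] (hc : Coc Γ)
    (hn : ∀ γ ∈ Γ, ∀ x ∈ N, γ * x * γ⁻¹ ∈ N)
    (hR : ∀ (Φ : Finset Γ) (ε : ℝ), 0 < ε → ∃ p : Γ ⧸ N.subgroupOf Γ → ℝ, (∀ s, 0 ≤ p s) ∧
      HasSum p 1 ∧ ∀ γ ∈ Φ, ∑' s, |p (γ • s) - p s| ≤ ε)
    (G₁ U₁ : Subgroup B) [G₁.Normal] (hU : U₁ ≤ G₁) (hUc : IsCompact (U₁ : Set B))
    (hUo : IsOpen (U₁ : Set B)) (hT : HasT G₁) {K : Set A} (hK : IsCompact K) :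
    ∃ F : Finset (A × B), ∀ γ ∈ Γ, γ.1 ∈ K → γ.2 ∈ G₁ → ∃ f ∈ F, f⁻¹ * γ ∈ N := by
  classical
  borelize A B
  let m : Measure (A × B) := Measure.haar
  have := unimod Γ hc m
  have := Core.countable_of_discrete Γ
  obtain ⟨r, hm, hr, C₀, hC₀, hrC⟩ := exists_retr Γ hc
  obtain ⟨E, hE, hE0, hEN, hEG, hE1⟩ := Core.exists_inv_set Γ N m hm hr hC₀ hrC hR
    (MonoidHom.inr A B) (Continuous.prodMk_right 1) hT
  obtain ⟨⟨a, b⟩, -, hx⟩ := exists_mem_forall_mem_nhdsWithin_pos_measure hE0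
  obtain ⟨V, hV, ha⟩ := exists_compact_mem_nhds a
  have hη : m (E ∩ Core.box V b U₁) ≠ 0 := by
    refine (hx _ (inter_mem_nhdsWithin E ?_)).ne'
    refine Filter.inter_mem (continuous_fst.continuousAt.preimage_mem_nhds ha) ?_
    refine ((hUo.preimage (continuous_snd.mul continuous_const)).mem_nhds ?_)
    simp
  set η := m (E ∩ Core.box V b U₁) with hη'
  have hL : IsCompact (Core.box (K⁻¹ * V) b (U₁ : Set B)) :=
    Core.isCompact_box (hK.inv.mul hV) b hUc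
  have hfin := finite_of_compact Γ (hL.mul hC₀.inv)
  set F₀ : Finset Γ := hfin.toFinset with hF₀
  rw [Core.measure_dom hm m hE] at hE1
  have hpos : η / F₀.card ≠ 0 := ENNReal.div_ne_zero.2 ⟨hη, ENNReal.natCast_ne_top _⟩
  have hT₀ := ENNReal.finite_const_le_of_tsum_ne_top hE1 hpos
  refine ⟨(hT₀.toFinset ×ˢ F₀).image fun z => (((z.1.out)⁻¹ * z.2⁻¹ : Γ) : A × B),
    fun γ hγ h1 h2 => ?_⟩
  have hb := Core.measure_box m hV ha b hU hUc hUo hEG h2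
  have hsub : E ∩ Core.box V b ((γ.2⁻¹ * ·) ⁻¹' U₁) ⊆
      ⋃ β ∈ F₀, E ∩ {x | r x = ⟨γ, hγ⟩ * β} := by
    rintro x ⟨hxE, hx1, hx2⟩
    simp only [Set.mem_iUnion]
    refine ⟨(⟨γ, hγ⟩ : Γ)⁻¹ * r x, ?_, hxE, by simp⟩
    rw [hF₀, Set.Finite.mem_toFinset, Set.mem_ofPred_eq]
    have e : (((⟨γ, hγ⟩ : Γ)⁻¹ * r x : Γ) : A × B) = (γ⁻¹ * x) * ((r x : A × B)⁻¹ * x)⁻¹ := by
      simp [mul_assoc]
    rw [e]
    refine Set.mul_mem_mul ⟨Set.mul_mem_mul (Set.inv_mem_inv.2 h1) hx1, ?_⟩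
      (Set.inv_mem_inv.2 (hrC x))
    simpa [mul_assoc] using hx2
  have hle : η ≤ ∑ β ∈ F₀, m (E ∩ {x | r x = ⟨γ, hγ⟩ * β}) := by
    rw [hη', ← hb]
    exact (measure_mono hsub).trans (measure_biUnion_finset_le _ _)
  obtain ⟨β, hβ, hβ'⟩ : ∃ β ∈ F₀, η / F₀.card ≤ m (E ∩ {x | r x = ⟨γ, hγ⟩ * β}) := by
    have hne : F₀.Nonempty := by
      rw [Finset.nonempty_iff_ne_empty]
      intro h0
      rw [h0, Finset.sum_empty] at hle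
      exact hη (le_zero_iff.1 hle)
    obtain ⟨β, hβ, hmax⟩ := F₀.exists_max_image
      (fun β => m (E ∩ {x | r x = ⟨γ, hγ⟩ * β})) hne
    refine ⟨β, hβ, ENNReal.div_le_of_le_mul (hle.trans ?_)⟩
    refine (Finset.sum_le_card_nsmul _ _ _ hmax).trans_eq ?_
    rw [nsmul_eq_mul, mul_comm]
  set δ : Γ := ⟨γ, hγ⟩ * β with hδ
  have hν := Core.rep_mem (N := N) δ
  have hm2 := Core.measure_fib hr m (Core.rep N δ * δ⁻¹) δ (hEN _ hν)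
  rw [inv_mul_cancel_right] at hm2
  refine ⟨((Core.rep N δ * β⁻¹ : Γ) : A × B), Finset.mem_image.2
    ⟨(Core.cl N δ, β), Finset.mem_product.2 ⟨?_, hβ⟩, rfl⟩, ?_⟩
  · rw [Set.Finite.mem_toFinset]
    exact hβ'.trans_eq hm2.symm
  · have h3 := hn _ (Γ.inv_mem hγ) _ (N.inv_mem hν)
    have e : ((Core.rep N δ * β⁻¹ : Γ) : A × B)⁻¹ * γ =
        γ⁻¹ * ((Core.rep N δ * δ⁻¹ : Γ) : A × B)⁻¹ * γ⁻¹⁻¹ := by
      simp [hδ, mul_assoc]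
    rw [e]
    exact h3

theorem core (Γ N : Subgroup (A × B)) [DiscreteTopology Γ] (hc : Coc Γ)
    (hN : N.topologicalClosure.FiniteIndex) (hn : ∀ γ ∈ Γ, ∀ x ∈ N, γ * x * γ⁻¹ ∈ N)
    (hcom : ∀ x ∈ N, (Γ.comap (MulAut.conj x).toMonoidHom).relIndex Γ ≠ 0)
    (G₁ U₁ : Subgroup B) [G₁.Normal] (hU : U₁ ≤ G₁) (hUc : IsCompact (U₁ : Set B))
    (hUo : IsOpen (U₁ : Set B)) (hT : HasT G₁) {K : Set A} (hK : IsCompact K) :
    ∃ F : Finset (A × B), ∀ γ ∈ Γ, γ.1 ∈ K → γ.2 ∈ G₁ → ∃ f ∈ F, f⁻¹ * γ ∈ N :=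
  core_of_reiter Γ N hc hn (fun Φ _ hε => reiter Γ N hc hN hn hcom Φ hε) G₁ U₁ hU hUc hUo hT hK

end Vale.Agent.P011Z
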