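import Vale.Agent.P011Z.SUn
import Vale.Agent.P011.H756.Herm
import Vale.Agent.P011.H738.FDefs
import Vale.Agent.P011.H268.Nrd

/-!
The special unitary group of a matrix algebra with an anisotropic involution of the second kind.
-/

open Module

namespace Vale.Agent.P011Z

open Vale.Agent.P011

namespace SplitA

open Matrix Vale.Agent.P011.Arith.Lan

variable {K : Type} [Field K] [StarRing K] {n : ℕ}

/-- the hermitian form of a matrix, on column vectors -/
def bf (G : Matrix (Fin n) (Fin n) K) (u v : Fin n → K) : K := star v ⬝ᵥ (G *ᵥ u)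

theorem bf_herm {G : Matrix (Fin n) (Fin n) K} (hG : Gᴴ = G) : Herm (bf G) where
  add_left := fun x y z => by simp only [bf, mulVec_add, dotProduct_add]
  smul_left := fun c x y => by simp only [bf, mulVec_smul, dotProduct_smul, smul_eq_mul]
  symm := fun x y => by
    simp only [bf]
    rw [star_dotProduct, star_star, star_mulVec, hG, dotProduct_comm, dotProduct_mulVec,
      dotProduct_comm]

theorem bf_mulVec (G M : Matrix (Fin n) (Fin n) K) (u v : Fin n → K) :
    bf G (M *ᵥ u) (M *ᵥ v) = bf (Mᴴ * G * M) u v := by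
  simp only [bf]
  rw [star_mulVec, ← dotProduct_mulVec, mulVec_mulVec, mulVec_mulVec]

theorem bf_inj {G G' : Matrix (Fin n) (Fin n) K} (h : ∀ u v, bf G u v = bf G' u v) : G = G' := by
  ext i j
  have h1 := h (Pi.single j 1) (Pi.single i 1)
  simpa [bf, Pi.single_star] using h1

theorem rank_one (G : Matrix (Fin n) (Fin n) K) (v : Fin n → K) (h : bf G v v = 0) :
    (Matrix.of fun i (_ : Fin n) => v i)ᴴ * G * (Matrix.of fun i (_ : Fin n) => v i) = 0 := by
  ext i j
  rw [Matrix.mul_assoc, Matrix.zero_apply, ← h]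
  simp [bf, Matrix.mul_apply, dotProduct, mulVec, conjTranspose_apply]

theorem exists_quad {k : Type} [Field k] [Algebra k K]
    (hfix : ∀ x : K, star x = x ↔ x ∈ Set.range (algebraMap k K)) (hne : ∃ x : K, star x ≠ x) :
    ∃ (d : kˣ) (θ : K), Quad d θ := by
  obtain ⟨x, hx⟩ := hne
  have h0 : x - star x ≠ 0 := fun h => hx (sub_eq_zero.mp h).symm
  have h1 : star (x - star x) = -(x - star x) := by rw [star_sub, star_star, neg_sub]
  obtain ⟨d, hd⟩ := (hfix ((x - star x) ^ 2)).1 (by rw [star_pow, h1, neg_sq])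
  have hd0 : d ≠ 0 := fun h => pow_ne_zero 2 h0 (by rw [← hd, h, map_zero])
  exact ⟨Units.mk0 d hd0, x - star x, h1, hd.symm, fun y hy => (hfix y).1 hy,
    fun y => (hfix _).2 ⟨y, rfl⟩⟩

end SplitA

open SplitA Matrix in
theorem top_split {k K A Ω : Type} [Field k] [NumberField k] [Field K] [StarRing K] [Ring A]
    [StarRing A] [Algebra k K] [Algebra k A] [Algebra K A] [IsScalarTower k K A] [StarModule K A]
    {n : ℕ} [Field Ω] [Algebra K Ω] (hA : H738.Anis k K A n) (hn : 3 ≤ n)
    (hs : ∃ m : ℕ, Nonempty (A ≃ₐ[K] Matrix (Fin m) (Fin m) K))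
    (f : A →ₐ[K] Matrix (Fin n) (Fin n) Ω) (N : Subgroup (H738.SUA f)) (hN : N.index ≠ 0) :
    N = ⊤ := by
  have hcen := hA.central
  have hsim := hA.simple
  have hn0 : n ≠ 0 := by omega
  have hfd : FiniteDimensional K A := by
    refine Module.finite_of_finrank_pos ?_
    rw [hA.finrank_eq]
    positivity
  obtain ⟨m, ⟨e⟩⟩ := hs
  have hm : n = m := by
    have h1 := e.toLinearEquiv.finrank_eq
    rw [hA.finrank_eq, Module.finrank_matrix, Fintype.card_fin, Module.finrank_self, mul_one,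
      ← pow_two] at h1
    exact Nat.pow_left_injective two_ne_zero h1
  subst hm
  obtain ⟨H, hH, hdet, hHe⟩ := H756.exists_herm hn0 hA.finrank_eq hA.star_ne (RingHom.id K)
    (fun _ => rfl) (e : A →+* Matrix (Fin n) (Fin n) K) (fun c => e.commutes c)
  have hHu : IsUnit H.det := isUnit_iff_ne_zero.mpr hdet
  have hG : H⁻¹ᴴ = H⁻¹ := by rw [conjTranspose_nonsing_inv, hH]
  have key : ∀ x : A, (e x)ᴴ * H⁻¹ * e x = H⁻¹ * e (star x * x) := by
    intro x
    have h1 : e (star x) * H = H * (e x)ᴴ := hHe x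
    have h2 : (e x)ᴴ * H⁻¹ = H⁻¹ * e (star x) := by
      calc (e x)ᴴ * H⁻¹ = H⁻¹ * (H * (e x)ᴴ) * H⁻¹ := by
            rw [nonsing_inv_mul_cancel_left _ _ hHu]
        _ = H⁻¹ * e (star x) := by
            rw [← h1, Matrix.mul_assoc, mul_nonsing_inv_cancel_right _ _ hHu]
    rw [h2, map_mul, Matrix.mul_assoc]
  have hcanc : ∀ X Y : Matrix (Fin n) (Fin n) K, H⁻¹ * X = H⁻¹ * Y → X = Y := by
    intro X Y h
    rw [← mul_nonsing_inv_cancel_left H X hHu, h, mul_nonsing_inv_cancel_left H Y hHu]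
  have hb := bf_herm hG
  have ha : ∀ v, bf H⁻¹ v v = 0 → v = 0 := by
    intro v hv
    have h1 := key (e.symm (Matrix.of fun i (_ : Fin n) => v i))
    rw [e.apply_symm_apply, rank_one _ v hv] at h1
    have h2 := hcanc _ 0 (h1.symm.trans (Matrix.mul_zero _).symm)
    have h3 := hA.anisotropic _ (e.injective (h2.trans (map_zero e).symm))
    have h4 := congrArg e h3
    rw [e.apply_symm_apply, map_zero] at h4
    funext i
    exact congrFun (congrFun h4 i) i
  have hd : ∀ x : A, (f x).det = 1 ↔ (e x).det = 1 := by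
    intro x
    have h1 := H268.det_compare (Nat.pos_of_ne_zero hn0) hA.finrank_eq
      (e : A →ₐ[K] Matrix (Fin n) (Fin n) K) f x (ν := (e x).det) rfl
    rw [h1]
    exact ⟨fun h => (algebraMap K Ω).injective (h.trans (map_one _).symm),
      fun h => by rw [h, map_one]⟩
  let T : Aˣ ≃* ((Fin n → K) ≃ₗ[K] (Fin n → K)) :=
    (Units.mapEquiv (e.trans (Matrix.toLinAlgEquiv' (n := Fin n) (R := K))).toMulEquiv).trans
      (LinearMap.GeneralLinearGroup.generalLinearEquiv K (Fin n → K))
  have hT : ∀ u : Aˣ, (T u : (Fin n → K) →ₗ[K] (Fin n → K)) = Matrix.toLin' (e u) :=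
    fun u => rfl
  have hT' : ∀ (u : Aˣ) (v : Fin n → K), T u v = e u *ᵥ v := fun u v =>
    (LinearMap.congr_fun (hT u) v).trans (Matrix.toLin'_apply _ _)
  have hmem : ∀ u : Aˣ, u ∈ H738.SUA f ↔ T u ∈ SUb (bf H⁻¹) := by
    intro u
    have h1 : (u : A) * star (u : A) = 1 ↔ star (u : A) * u = 1 := by
      constructor
      · intro h
        rw [← Units.inv_eq_of_mul_eq_one_right h, Units.inv_mul]
      · intro h
        rw [← Units.inv_eq_of_mul_eq_one_left h, Units.mul_inv]
    have h2 : (∀ x y, bf H⁻¹ (T u x) (T u y) = bf H⁻¹ x y) ↔ star (u : A) * u = 1 := by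
      simp only [hT', bf_mulVec, key]
      constructor
      · intro h
        have h3 := hcanc _ 1 ((bf_inj h).trans (Matrix.mul_one _).symm)
        exact e.injective (h3.trans (map_one e).symm)
      · intro h x y
        rw [h, map_one, Matrix.mul_one]
    change ((u : A) * star (u : A) = 1 ∧ (f (u : A)).det = 1) ↔
      ((∀ x y, bf H⁻¹ (T u x) (T u y) = bf H⁻¹ x y) ∧
        LinearMap.det (T u : (Fin n → K) →ₗ[K] (Fin n → K)) = 1)
    rw [h1, h2, hd, hT, LinearMap.det_toLin']
  let Φ : H738.SUA f →* SUb (bf H⁻¹) :=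
    (T.toMonoidHom.comp (H738.SUA f).subtype).codRestrict _ fun u => (hmem u).1 u.2
  have hinj : Function.Injective Φ := fun u v h =>
    Subtype.ext (T.injective (congrArg Subtype.val h))
  have hsurj : Function.Surjective Φ := fun g =>
    ⟨⟨T.symm g, (hmem _).2 (by rw [T.apply_symm_apply]; exact g.2)⟩,
      Subtype.ext (T.apply_symm_apply _)⟩
  obtain ⟨d, θ, hq⟩ := exists_quad hA.fixed hA.star_ne
  have h5 := sub_top hq hb ha (by rw [Module.finrank_fin_fun]; exact hn) (N.map Φ)
    (by rw [Subgroup.index_map_of_bijective ⟨hinj, hsurj⟩]; exact hN)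
  rw [← Subgroup.comap_map_eq_self_of_injective hinj N, h5, Subgroup.comap_top]

end Vale.Agent.P011Z
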