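import Vale.Agent.P011Z.ModA
import Vale.Agent.P011Z.FF.Fin
import Vale.Agent.P011Z.SplitA
import Vale.Agent.P011.H925.Full.NF
import Vale.Agent.P011.H925.Full.FFA

/-!
The conjecture for all anisotropic outer forms of type `A` over global fields.
-/

open Module

namespace Vale.Agent.P011Z

open Vale.Agent.P011 Vale.Agent.P011.H925.Full

variable {k K A Ω : Type} [Field k] [Field K] [Algebra k K] [StarRing K] [Ring A] [StarRing A]
  [Algebra k A] [Algebra K A] [IsScalarTower k K A] [StarModule K A] [Field Ω] [Algebra K Ω] {n : ℕ}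

theorem exists_zero_div {K A : Type} [Field K] [Ring A] [Algebra K A] {n m : ℕ} (hn : 2 ≤ n)
    (h : finrank K A = n ^ 2) (e : A ≃ₐ[K] Matrix (Fin m) (Fin m) K) :
    ∃ x : A, x ≠ 0 ∧ ¬ IsUnit x := by
  have h1 : m * m = n ^ 2 := by
    rw [← h, e.toLinearEquiv.finrank_eq, finrank_matrix, Fintype.card_fin, finrank_self, mul_one]
  have hm : 2 ≤ m := by nlinarith
  have h0 : ∀ i : Fin m, (Matrix.single i i 1 : Matrix (Fin m) (Fin m) K) ≠ 0 := fun i h => by
    simpa using congrFun (congrFun h i) i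
  refine ⟨e.symm (Matrix.single ⟨0, by omega⟩ ⟨0, by omega⟩ 1), by simpa using h0 _, fun hu => ?_⟩
  have h2 := hu.map e
  rw [e.apply_symm_apply] at h2
  exact h0 ⟨1, hm⟩ (h2.mul_right_eq_zero.1 (Matrix.single_mul_single_of_ne _ _ _ _ (by simp) _))

theorem clause_out (h : Out k K A n) (f : A →ₐ[K] Matrix (Fin n) (Fin n) Ω) :
    ∃ δ : GK f →* HA k K A n, (∀ g, Diag g.1.1 (δ g)) ∧ MP δ := by
  have hA : H738.Anis k K A n := ⟨h.fixed, h.star_ne, h.central, h.simple, h.rank, h.aniso⟩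
  have hn := h.le
  rcases h.global with hk | hk
  · obtain ⟨δ, hd, hQ⟩ := q1_of (k := k) (f := f) (st := stLin h.fixed) (fun _ => rfl) (by
      by_cases hs : ∃ m : ℕ, Nonempty (A ≃ₐ[K] Matrix (Fin m) (Fin m) K)
      · obtain ⟨m, ⟨e⟩⟩ := id hs
        obtain ⟨δ, h1, h2, h3⟩ := H984.clause_of_top (f := f) (H518.R8.adiv_empty hA (by omega)
          (exists_zero_div (by omega) h.rank e)) (top_split hA hn hs f)
        exact ⟨δ, h1, h2, fun N hN => (h3 N hN).1⟩
      · exact old_nf hA hn hs f)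
    exact ⟨δ, hd, mp_of_q1 hQ fun N _ hN => finiteIndex_nf h f hd hQ N hN⟩
  · obtain ⟨δ, hd, hQ⟩ := q1_of (st := stLin h.fixed) (fun _ => rfl) (old_ffa hk hA hn f)
    exact ⟨δ, hd, mp_of_q1 hQ fun N _ hN => FF.finiteIndex_ff hk h f N hN⟩

end Vale.Agent.P011Z
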