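import Vale.Agent.P011Z.Fund

/-!
Integral points, congruence conditions and commensurability.
-/

open Matrix Topology

namespace Vale.Agent.P011Z

namespace CG

theorem exists_pos_le {ι : Type} [Finite ι] (f : ι → ℝ) (hf : ∀ i, 0 < f i) :
    ∃ ε : ℝ, 0 < ε ∧ ∀ i, ε ≤ f i := by
  have h : ∀ᶠ ε in 𝓝[>] (0 : ℝ), ∀ i, ε ≤ f i :=
    Filter.eventually_all.2 fun i => mem_nhdsWithin_of_mem_nhds (ge_mem_nhds (hf i))
  obtain ⟨ε, h1, h2⟩ := (h.and self_mem_nhdsWithin).exists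
  exact ⟨ε, h2, h1⟩

theorem finite_bad (x : ℚ) : {q : Nat.Primes | ¬ ‖(x : ℚ_[(q : ℕ)])‖ ≤ 1}.Finite := by
  refine ((Set.finite_Iic x.den).preimage (f := fun q : Nat.Primes => (q : ℕ))
    Subtype.val_injective.injOn).subset fun q hq => ?_
  by_contra h
  exact hq (Padic.norm_rat_le_one fun hd => h (Nat.le_of_dvd x.den_pos hd))

theorem den_eq_one {x : ℚ} (h : ∀ q : Nat.Primes, ‖(x : ℚ_[(q : ℕ)])‖ ≤ 1) : x.den = 1 := by
  by_contra hne
  obtain ⟨p, hp, hd⟩ := Nat.exists_prime_and_dvd hne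
  have : Fact p.Prime := ⟨hp⟩
  have h1 : ‖(x : ℚ_[p])‖ ≤ 1 := h ⟨p, hp⟩
  have h2 : ‖((x.den : ℤ) : ℚ_[p])‖ < 1 := Padic.norm_intCast_lt_one_iff.2 (by exact_mod_cast hd)
  have h3 : ((x.num : ℤ) : ℚ_[p]) = (x : ℚ_[p]) * ((x.den : ℤ) : ℚ_[p]) := by
    exact_mod_cast (Rat.mul_den_eq_num x).symm
  have h4 : ‖((x.num : ℤ) : ℚ_[p])‖ < 1 := by
    rw [h3, norm_mul]
    exact mul_lt_one_of_nonneg_of_lt_one_right h1 (norm_nonneg _) h2
  have h5 : p ∣ x.num.natAbs := Int.natCast_dvd.1 (Padic.norm_intCast_lt_one_iff.1 h4)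
  exact hp.one_lt.ne' (Nat.eq_one_of_dvd_coprimes x.reduced h5 hd)

theorem eq_zero_of_small {x : ℚ} (h : ∀ q : Nat.Primes, ‖(x : ℚ_[(q : ℕ)])‖ ≤ 1)
    (h' : ‖(x : ℝ)‖ ≤ 1 / 2) : x = 0 := by
  have h1 : (x.num : ℚ) = x := Rat.coe_int_num_of_den_eq_one (den_eq_one h)
  rw [← h1, Rat.cast_intCast, Real.norm_eq_abs, ← Int.cast_abs] at h'
  have h2 : |x.num| < 1 := by
    have : ((|x.num| : ℤ) : ℝ) < 1 := by linarith
    exact_mod_cast this
  rw [← h1, Int.abs_lt_one_iff.1 h2, Int.cast_zero]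

variable {n : Type} [Fintype n] [DecidableEq n]

omit [DecidableEq n] in
theorem exists_T (M : Matrix n n ℚ) : ∃ T : Finset Nat.Primes, ∀ q ∉ T, Bd q 1 M := by
  have h : (⋃ i, ⋃ j, {q : Nat.Primes | ¬ ‖(M i j : ℚ_[(q : ℕ)])‖ ≤ 1}).Finite :=
    Set.finite_iUnion fun i => Set.finite_iUnion fun j => finite_bad _
  refine ⟨h.toFinset, fun q hq i j => ?_⟩
  by_contra hc
  exact hq (h.mem_toFinset.2 (Set.mem_iUnion.2 ⟨i, Set.mem_iUnion.2 ⟨j, hc⟩⟩))

section PB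

variable {F : Type} [NormedField F]

/-- The entries have norm at most `c`. -/
def PB (c : ℝ) (g : Matrix n n F) : Prop := ∀ i j, ‖g i j‖ ≤ c

omit [Fintype n] [DecidableEq n] in
theorem PB.mono {c d : ℝ} {g : Matrix n n F} (h : PB c g) (hcd : c ≤ d) : PB d g :=
  fun i j => (h i j).trans hcd

omit [Fintype n] [DecidableEq n] in
theorem PB.neg {c : ℝ} {g : Matrix n n F} (h : PB c g) : PB c (-g) :=
  fun i j => by simpa using h i j

omit [Fintype n] in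
theorem pb_one : PB 1 (1 : Matrix n n F) := by
  intro i j
  rw [one_apply]
  split_ifs <;> simp

variable [IsUltrametricDist F]

omit [DecidableEq n] in
theorem PB.mul {c d : ℝ} {g h : Matrix n n F} (hc : 0 ≤ c) (hd : 0 ≤ d) (hg : PB c g)
    (hh : PB d h) : PB (c * d) (g * h) := by
  intro i j
  rw [mul_apply]
  refine IsUltrametricDist.norm_sum_le_of_forall_le_of_nonneg (mul_nonneg hc hd) fun k _ => ?_
  rw [norm_mul]
  exact mul_le_mul (hg i k) (hh k j) (norm_nonneg _) hc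

omit [Fintype n] [DecidableEq n] in
theorem PB.add {c : ℝ} {g h : Matrix n n F} (hg : PB c g) (hh : PB c h) : PB c (g + h) :=
  fun i j => (IsUltrametricDist.norm_add_le_max _ _).trans (max_le (hg i j) (hh i j))

omit [Fintype n] in
theorem pb_sub_one {g : Matrix n n F} : PB 1 (g - 1) ↔ PB 1 g :=
  ⟨fun h => by simpa using h.add pb_one, fun h => by
    simpa [sub_eq_add_neg] using h.add pb_one.neg⟩

theorem PB.mul_sub_one {δ : ℝ} (h0 : 0 ≤ δ) (h1 : δ ≤ 1) {g h : Matrix n n F} (hg : PB δ (g - 1))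
    (hh : PB δ (h - 1)) : PB δ (g * h - 1) := by
  have e : g * h - 1 = (g - 1) * (h - 1) + (g - 1) + (h - 1) := by noncomm_ring
  rw [e]
  exact (((hg.mul h0 h0 hh).mono (mul_le_of_le_one_left h0 h1)).add hg).add hh

end PB

omit [Fintype n] [DecidableEq n] in
theorem bd_iff {q : Nat.Primes} {c : ℝ} {g : Matrix n n ℚ} :
    Bd q c g ↔ PB c (g.map ((↑) : ℚ → ℚ_[(q : ℕ)])) := Iff.rfl

omit [Fintype n] in
theorem map_sub_one (F : Type) [Field F] [CharZero F] (g : Matrix n n ℚ) :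
    (g - 1).map ((↑) : ℚ → F) = g.map ((↑) : ℚ → F) - 1 := by
  ext i j
  simp only [map_apply, Matrix.sub_apply, one_apply, Rat.cast_sub]
  split_ifs <;> simp

omit [Fintype n] in
theorem bd_sub_one_iff {q : Nat.Primes} {c : ℝ} {g : Matrix n n ℚ} :
    Bd q c (g - 1) ↔ PB c (g.map ((↑) : ℚ → ℚ_[(q : ℕ)]) - 1) := by
  rw [bd_iff, map_sub_one]

omit [Fintype n] in
theorem bd_one_sub {q : Nat.Primes} {g : Matrix n n ℚ} : Bd q 1 (g - 1) ↔ Bd q 1 g := by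
  rw [bd_sub_one_iff, pb_sub_one, bd_iff]

variable (S : Sys n) {F : Type} [NontriviallyNormedField F] [CharZero F] [IsUltrametricDist F]

/-- The congruence subgroups. -/
def cong (δ : ℝ) (h0 : 0 < δ) (h1 : δ ≤ 1) : Subgroup (S.mon F) where
  carrier := {g | PB δ ((g : Matrix n n F) - 1) ∧ PB δ (((g⁻¹ : S.mon F) : Matrix n n F) - 1)}
  one_mem' := by
    have : PB δ (((1 : S.mon F) : Matrix n n F) - 1) := fun i j => by simp [h0.le]
    exact ⟨this, by rwa [inv_one]⟩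
  mul_mem' := fun {g h} hg hh => by
    refine ⟨hg.1.mul_sub_one h0.le h1 hh.1, ?_⟩
    rw [_root_.mul_inv_rev]
    exact hh.2.mul_sub_one h0.le h1 hg.2
  inv_mem' := fun {g} hg => ⟨hg.2, by rw [inv_inv]; exact hg.1⟩

omit [CharZero F] in
theorem isOpen_pb {δ : ℝ} (h0 : 0 < δ) : IsOpen {g : S.mon F | PB δ ((g : Matrix n n F) - 1)} := by
  have e : {g : S.mon F | PB δ ((g : Matrix n n F) - 1)} =
      ⋂ i, ⋂ j, (fun g : S.mon F => ((g : Matrix n n F) - 1) i j) ⁻¹' Metric.closedBall 0 δ := by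
    ext g
    simp [PB]
  rw [e]
  refine isOpen_iInter_of_finite fun i => isOpen_iInter_of_finite fun j =>
    (IsUltrametricDist.isOpen_closedBall _ h0.ne').preimage ?_
  exact (continuous_subtype_val.sub continuous_const).matrix_elem i j

theorem isOpen_cong {δ : ℝ} (h0 : 0 < δ) (h1 : δ ≤ 1) :
    IsOpen ((cong S δ h0 h1 : Subgroup (S.mon F)) : Set (S.mon F)) :=
  (isOpen_pb S h0).inter ((isOpen_pb S h0).preimage continuous_inv)

omit [IsUltrametricDist F] in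
theorem up_inv (γ : S.mon ℚ) : (((S.up F γ)⁻¹ : S.mon F) : Matrix n n F) =
    ((γ⁻¹ : S.mon ℚ) : Matrix n n ℚ).map ((↑) : ℚ → F) := by
  rw [← map_inv, Sys.coe_up]

theorem up_mem_cong {q : Nat.Primes} {δ : ℝ} (h0 : 0 < δ) (h1 : δ ≤ 1) {γ : S.mon ℚ} :
    S.up ℚ_[(q : ℕ)] γ ∈ cong S δ h0 h1 ↔
      Bd q δ ((γ : Matrix n n ℚ) - 1) ∧ Bd q δ (((γ⁻¹ : S.mon ℚ) : Matrix n n ℚ) - 1) := by
  rw [bd_sub_one_iff, bd_sub_one_iff, ← up_inv]
  rfl

end CG

namespace Sys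

open CG

variable {n : Type} [Fintype n] [DecidableEq n] (S : Sys n)

theorem up_injective (F : Type) [Field F] [CharZero F] : Function.Injective (S.up F) :=
  fun _ _ h => Subtype.ext (Matrix.map_injective Rat.cast_injective (congrArg Subtype.val h))

theorem diag_injective (T : Finset Nat.Primes) : Function.Injective (S.diag T) :=
  fun _ _ h => S.up_injective ℝ (congrArg Prod.fst h)

theorem Gam_mono {T T' : Finset Nat.Primes} (h : T ⊆ T') : S.Gam T ≤ S.Gam T' :=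
  fun _ hγ q hq => hγ q fun h' => hq (h h')

theorem exists_mem_Gam (γ : S.mon ℚ) : ∃ T, γ ∈ S.Gam T := by
  classical
  obtain ⟨T1, h1⟩ := exists_T (γ : Matrix n n ℚ)
  obtain ⟨T2, h2⟩ := exists_T ((γ⁻¹ : S.mon ℚ) : Matrix n n ℚ)
  exact ⟨T1 ∪ T2, fun q hq => ⟨h1 q fun h => hq (Finset.mem_union_left _ h),
    h2 q fun h => hq (Finset.mem_union_right _ h)⟩⟩

/-- A set of matrices with bounded entries is relatively compact in the group. -/
theorem isCompact_bd {F : Type} [NontriviallyNormedField F] [CharZero F] [ProperSpace F] (C : ℝ) :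
    IsCompact {g : S.mon F | ∀ i j, ‖(g : Matrix n n F) i j‖ ≤ C} := by
  have h : IsCompact (Set.univ.pi fun _ : n => Set.univ.pi fun _ : n =>
      Metric.closedBall (0 : F) C) :=
    isCompact_univ_pi fun _ => isCompact_univ_pi fun _ => isCompact_closedBall 0 C
  have h2 := (isClosed_mon (S := S) (F := F)).isClosedEmbedding_subtypeVal.isCompact_preimage
    (K := (Set.univ.pi fun _ : n => Set.univ.pi fun _ : n => Metric.closedBall (0 : F) C)) h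
  have e : {g : S.mon F | ∀ i j, ‖(g : Matrix n n F) i j‖ ≤ C} = Subtype.val ⁻¹'
      (Set.univ.pi fun _ : n => Set.univ.pi fun _ : n => Metric.closedBall (0 : F) C) := by
    ext g
    exact ⟨fun h i _ j _ => mem_closedBall_zero_iff.2 (h i j),
      fun h i j => mem_closedBall_zero_iff.1 (h i trivial j trivial)⟩
  rw [e]
  exact h2

theorem exists_bd {F : Type} [NontriviallyNormedField F] [CharZero F] {K : Set (S.mon F)}
    (hK : IsCompact K) : ∃ C : ℝ, ∀ g ∈ K, ∀ i j, ‖(g : Matrix n n F) i j‖ ≤ C := by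
  obtain ⟨C, hC⟩ := hK.exists_bound_of_continuousOn
    (f := fun g : S.mon F => fun p : n × n => (g : Matrix n n F) p.1 p.2)
    (continuous_pi fun p : n × n => continuous_subtype_val.matrix_elem p.1 p.2).continuousOn
  exact ⟨C, fun g hg i j => (norm_le_pi_norm _ (i, j)).trans (hC g hg)⟩

theorem mem_nhds_one_iff {F : Type} [NontriviallyNormedField F] [CharZero F] {U : Set (S.mon F)} :
    U ∈ 𝓝 (1 : S.mon F) ↔
      ∃ ε : ℝ, 0 < ε ∧ ∀ g : S.mon F, (∀ i j, ‖((g : Matrix n n F) - 1) i j‖ ≤ ε) → g ∈ U := by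
  have hi : IsInducing (fun g : S.mon F => (fun i j => (g : Matrix n n F) i j : n → n → F)) :=
    IsInducing.subtypeVal
  rw [hi.nhds_eq_comap, (Metric.nhds_basis_closedBall.comap _).mem_iff]
  refine exists_congr fun ε => and_congr_right fun hε => forall_congr' fun g => imp_congr_left ?_
  rw [Set.mem_preimage, Metric.mem_closedBall, dist_pi_le_iff hε.le]
  refine forall_congr' fun i => ?_
  rw [dist_pi_le_iff hε.le]
  refine forall_congr' fun j => ?_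
  rw [dist_eq_norm]
  rfl

/-- There is a compact open subgroup whose rational points are the integral ones. -/
theorem exists_intG (q : Nat.Primes) : ∃ K : Subgroup (S.mon ℚ_[(q : ℕ)]),
    IsCompact (K : Set (S.mon ℚ_[(q : ℕ)])) ∧ IsOpen (K : Set (S.mon ℚ_[(q : ℕ)])) ∧
    ∀ γ : S.mon ℚ, S.up _ γ ∈ K ↔
      Bd q 1 (γ : Matrix n n ℚ) ∧ Bd q 1 ((γ⁻¹ : S.mon ℚ) : Matrix n n ℚ) := by
  refine ⟨cong S 1 one_pos le_rfl, ?_, isOpen_cong S _ _, fun γ => ?_⟩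
  · exact (S.isCompact_bd 1).of_isClosed_subset
      (Subgroup.isClosed_of_isOpen _ (isOpen_cong S _ _)) fun g hg => pb_sub_one.1 hg.1
  · rw [up_mem_cong, bd_one_sub, bd_one_sub]

/-- No small subgroups fails: there are arbitrarily small open subgroups. -/
theorem exists_small (q : Nat.Primes) {U : Set (S.mon ℚ_[(q : ℕ)])} (hU : U ∈ 𝓝 1) :
    ∃ K : Subgroup (S.mon ℚ_[(q : ℕ)]), IsOpen (K : Set (S.mon ℚ_[(q : ℕ)])) ∧
      (K : Set (S.mon ℚ_[(q : ℕ)])) ⊆ U := by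
  obtain ⟨ε, hε, h⟩ := S.mem_nhds_one_iff.1 hU
  exact ⟨cong S (min ε 1) (lt_min hε one_pos) (min_le_right _ _), isOpen_cong S _ _,
    fun g hg => h g (hg.1.mono (min_le_left _ _))⟩

/-- Neighbourhoods of one, seen on rational points. -/
theorem exists_of_nhds {T : Finset Nat.Primes} {W : Set (S.GT T)} (hW : W ∈ 𝓝 1) :
    ∃ U ∈ 𝓝 (1 : S.mon ℝ), ∃ ε : ℝ, 0 < ε ∧ ∀ γ : S.mon ℚ, S.up ℝ γ ∈ U →
      (∀ q ∈ T, Bd q ε ((γ : Matrix n n ℚ) - 1)) → S.diag T γ ∈ W := by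
  obtain ⟨U, hU, V, hV, hUV⟩ := mem_nhds_prod_iff.1 hW
  rw [nhds_pi] at hV
  obtain ⟨I, -, t, ht, hI⟩ := Filter.mem_pi.1 hV
  choose f hf0 hf using fun q : T => S.mem_nhds_one_iff.1 (ht q)
  obtain ⟨ε, hε, hle⟩ := exists_pos_le f hf0
  refine ⟨U, hU, ε, hε, fun γ h1 h2 => hUV ⟨h1, hI fun q _ => hf q _ ?_⟩⟩
  exact (bd_sub_one_iff.1 (h2 q.1 q.2)).mono (hle q)

theorem exists_nhds (T : Finset Nat.Primes) {U : Set (S.mon ℝ)} (hU : U ∈ 𝓝 1) {ε : ℝ}
    (hε : 0 < ε) : ∃ W ∈ 𝓝 (1 : S.GT T), ∀ γ : S.mon ℚ, S.diag T γ ∈ W →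
      S.up ℝ γ ∈ U ∧ ∀ q ∈ T, Bd q ε ((γ : Matrix n n ℚ) - 1) := by
  refine ⟨U ×ˢ Set.univ.pi fun q : T =>
    {g : S.mon ℚ_[(q.1 : ℕ)] | PB ε ((g : Matrix n n ℚ_[(q.1 : ℕ)]) - 1)},
    prod_mem_nhds hU (set_pi_mem_nhds Set.finite_univ fun q _ =>
      S.mem_nhds_one_iff.2 ⟨ε, hε, fun g hg => hg⟩), fun γ h => ⟨h.1, fun q hq => ?_⟩⟩
  exact bd_sub_one_iff.2 (h.2 ⟨q, hq⟩ (Set.mem_univ _))

theorem discrete_Gam (T : Finset Nat.Primes) :
    DiscreteTopology ((S.Gam T).map (S.diag T)) := by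
  obtain ⟨W, hW, h⟩ := S.exists_nhds T
    (U := {g : S.mon ℝ | ∀ i j, ‖((g : Matrix n n ℝ) - 1) i j‖ ≤ 1 / 2})
    (S.mem_nhds_one_iff.2 ⟨1 / 2, by norm_num, fun g hg => hg⟩) one_pos
  refine discreteTopology_of_isOpen_singleton_one (isOpen_iff_mem_nhds.2 ?_)
  rintro _ rfl
  refine Filter.mem_of_superset (continuous_subtype_val.continuousAt.preimage_mem_nhds hW) ?_
  rintro ⟨_, γ, hγ, rfl⟩ hx
  obtain ⟨h1, h2⟩ := h γ hx
  have h3 : γ = 1 := by
    refine Subtype.ext (sub_eq_zero.1 (Matrix.ext fun i j => eq_zero_of_small (fun q => ?_) ?_))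
    · by_cases hq : q ∈ T
      · exact h2 q hq i j
      · exact bd_one_sub.2 (hγ q hq).1 i j
    · have := h1 i j
      rwa [coe_up, ← map_sub_one] at this
  exact Subtype.ext (by simp [h3])

theorem bd_inv_sub_one {q : Nat.Primes} {δ : ℝ} (h0 : 0 ≤ δ) {γ : S.mon ℚ}
    (h1 : Bd q 1 ((γ⁻¹ : S.mon ℚ) : Matrix n n ℚ)) (h2 : Bd q δ ((γ : Matrix n n ℚ) - 1)) :
    Bd q δ (((γ⁻¹ : S.mon ℚ) : Matrix n n ℚ) - 1) := by
  have h3 := Bd.mul zero_le_one h0 h1 h2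
  rw [one_mul, Matrix.mul_sub, coe_inv_mul, Matrix.mul_one] at h3
  intro i j
  have h4 := h3 i j
  rw [← neg_sub, Matrix.neg_apply, Rat.cast_neg, norm_neg] at h4
  exact h4

/-- Congruence subgroups have finite index. -/
theorem relIndex_of_cong {T T' : Finset Nat.Primes} (hd : Disjoint T T') (H : Subgroup (S.mon ℚ))
    {ε : ℝ} (hε : 0 < ε)
    (h : ∀ γ ∈ S.Gam T, (∀ q ∈ T', Bd q ε ((γ : Matrix n n ℚ) - 1)) → γ ∈ H) :
    H.relIndex (S.Gam T) ≠ 0 := by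
  have h0 : 0 < min ε 1 := lt_min hε one_pos
  have h1 : ∀ q : T', ((cong S (min ε 1) h0 (min_le_right _ _)).comap
      (S.up ℚ_[(q.1 : ℕ)])).relIndex (S.Gam T) ≠ 0 := by
    intro q
    obtain ⟨K, hKc, -, hK⟩ := S.exists_intG q.1
    rw [Subgroup.relIndex_comap]
    have hle : (S.Gam T).map (S.up ℚ_[(q.1 : ℕ)]) ≤ K := by
      rintro _ ⟨γ, hγ, rfl⟩
      exact (hK γ).2 (hγ q.1 (Finset.disjoint_right.1 hd q.2))
    refine fun hz => absurd (Subgroup.relIndex_eq_zero_of_le_right hle hz) ?_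
    have : CompactSpace K := isCompact_iff_compactSpace.1 hKc
    have := Subgroup.quotient_finite_of_isOpen
      ((cong S (min ε 1) h0 (min_le_right _ _)).subgroupOf K)
      ((isOpen_cong S h0 (min_le_right _ _)).preimage continuous_subtype_val)
    exact Subgroup.index_ne_zero_of_finite
  have h2 := Subgroup.relIndex_iInf_ne_zero h1
  rw [← Subgroup.inf_relIndex_right] at h2
  refine fun hz => h2 (Subgroup.relIndex_eq_zero_of_le_left (fun γ hγ => h γ hγ.2 fun q hq => ?_) hz)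
  have h3 := Subgroup.mem_iInf.1 hγ.1 ⟨q, hq⟩
  exact fun i j => (((up_mem_cong S h0 (min_le_right _ _)).1 h3).1 i j).trans (min_le_left _ _)

theorem bd_conj {q : Nat.Primes} {c δ : ℝ} (hc : 0 ≤ c) (h0 : 0 ≤ δ) {x γ : S.mon ℚ}
    (h1 : Bd q c (x : Matrix n n ℚ)) (h2 : Bd q c ((x⁻¹ : S.mon ℚ) : Matrix n n ℚ))
    (h3 : Bd q δ ((γ : Matrix n n ℚ) - 1)) :
    Bd q (c * δ * c) (((x * γ * x⁻¹ : S.mon ℚ) : Matrix n n ℚ) - 1) := by
  have h4 := Bd.mul (mul_nonneg hc h0) hc (Bd.mul hc h0 h1 h3) h2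
  rwa [Matrix.mul_sub, Matrix.mul_one, Matrix.sub_mul, coe_mul_inv] at h4

/-- Conjugation is continuous for the congruence conditions. -/
theorem exists_conj (T : Finset Nat.Primes) (x : S.mon ℚ) (T' : Finset Nat.Primes) {ε : ℝ}
    (hε : 0 < ε) : ∃ T'' : Finset Nat.Primes, Disjoint T T'' ∧ ∃ δ : ℝ, 0 < δ ∧
      ∀ γ ∈ S.Gam T, (∀ q ∈ T'', Bd q δ ((γ : Matrix n n ℚ) - 1)) → x * γ * x⁻¹ ∈ S.Gam T ∧
        ∀ q ∈ T', q ∉ T → Bd q ε (((x * γ * x⁻¹ : S.mon ℚ) : Matrix n n ℚ) - 1) := by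
  classical
  obtain ⟨T1, hx⟩ := S.exists_mem_Gam x
  obtain ⟨c0, hc0⟩ := Finite.exists_le fun p : ((T' ∪ T1) \ T : Finset Nat.Primes) × n × n =>
    max ‖(((x : Matrix n n ℚ) p.2.1 p.2.2 : ℚ) : ℚ_[(p.1.1 : ℕ)])‖
      ‖((((x⁻¹ : S.mon ℚ) : Matrix n n ℚ) p.2.1 p.2.2 : ℚ) : ℚ_[(p.1.1 : ℕ)])‖
  set c := max c0 1 with hc
  have hc1 : 0 < c := lt_max_of_lt_right one_pos
  have hb : ∀ q ∈ (T' ∪ T1) \ T,
      Bd q c (x : Matrix n n ℚ) ∧ Bd q c ((x⁻¹ : S.mon ℚ) : Matrix n n ℚ) := fun q hq =>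
    ⟨fun i j => ((le_max_left _ _).trans (hc0 (⟨q, hq⟩, i, j))).trans (le_max_left _ _),
      fun i j => ((le_max_right _ _).trans (hc0 (⟨q, hq⟩, i, j))).trans (le_max_left _ _)⟩
  have h0 : 0 < min ε 1 := lt_min hε one_pos
  have he : c * (min ε 1 / c ^ 2) * c = min ε 1 := by field_simp
  have hδ : 0 < min ε 1 / c ^ 2 := by positivity
  refine ⟨(T' ∪ T1) \ T, Finset.disjoint_sdiff, min ε 1 / c ^ 2, hδ, fun γ hγ h => ⟨?_, ?_⟩⟩
  · intro q hq
    have e : (x * γ * x⁻¹)⁻¹ = x * γ⁻¹ * x⁻¹ := by group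
    rw [e]
    by_cases h1 : q ∈ (T' ∪ T1) \ T
    · have k1 := S.bd_conj hc1.le hδ.le (hb q h1).1 (hb q h1).2 (h q h1)
      have k2 := S.bd_conj hc1.le hδ.le (hb q h1).1 (hb q h1).2
        (S.bd_inv_sub_one hδ.le (hγ q hq).2 (h q h1))
      rw [he] at k1 k2
      exact ⟨bd_one_sub.1 fun i j => (k1 i j).trans (min_le_right _ _),
        bd_one_sub.1 fun i j => (k2 i j).trans (min_le_right _ _)⟩
    · have h2 : q ∉ T1 := fun h3 => h1 (Finset.mem_sdiff.2 ⟨Finset.mem_union_right _ h3, hq⟩)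
      have k1 := S.bd_conj zero_le_one zero_le_one (hx q h2).1 (hx q h2).2
        (bd_one_sub.2 (hγ q hq).1)
      have k2 := S.bd_conj zero_le_one zero_le_one (hx q h2).1 (hx q h2).2
        (bd_one_sub.2 (hγ q hq).2)
      rw [one_mul, one_mul] at k1 k2
      exact ⟨bd_one_sub.1 k1, bd_one_sub.1 k2⟩
  · intro q hq hqT
    have h1 : q ∈ (T' ∪ T1) \ T := Finset.mem_sdiff.2 ⟨Finset.mem_union_left _ hq, hqT⟩
    have k1 := S.bd_conj hc1.le hδ.le (hb q h1).1 (hb q h1).2 (h q h1)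
    rw [he] at k1
    exact fun i j => (k1 i j).trans (min_le_left _ _)

theorem comm_Gam (T : Finset Nat.Primes) (x : S.mon ℚ) :
    ((S.Gam T).comap (MulAut.conj x).toMonoidHom).relIndex (S.Gam T) ≠ 0 := by
  obtain ⟨T'', hd, δ, hδ, h⟩ := S.exists_conj T x ∅ one_pos
  exact S.relIndex_of_cong hd _ hδ fun γ hγ h1 => (h γ hγ h1).1

end Sys

end Vale.Agent.P011Z
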