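import Vale.Agent.P011Z.Coc.B
import Vale.Agent.P011Z.Cong

/-!
The compactness criterion.
-/

open Matrix Topology

namespace Vale.Agent.P011Z

namespace Sys

open CocA

variable {n : Type} [Fintype n] [DecidableEq n] {S : Sys n}

theorem mem_mon_of_type {h h' : Matrix n n ℚ} (hd : IsUnit h'.det)
    (e : ∀ τ ∈ S.T, ∀ i : Fin τ.1 → n, ev τ.2 ℚ (fun r => h *ᵥ Pi.single (i r) 1) =
      ev τ.2 ℚ fun r => h' *ᵥ Pi.single (i r) 1) : h * h'⁻¹ ∈ S.mon ℚ := by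
  intro τ hτ x
  have h1 : (ev τ.2 ℚ).compLinearMap (fun _ => h.mulVecLin) =
      (ev τ.2 ℚ).compLinearMap fun _ => h'.mulVecLin :=
    Module.Basis.ext_multilinear (fun _ => Pi.basisFun ℚ n) fun i => by
      simpa only [MultilinearMap.compLinearMap_apply, Pi.basisFun_apply, mulVecLin_apply]
        using e τ hτ i
  have h2 := congrArg (fun m => m fun r => h'⁻¹ *ᵥ x r) h1
  simpa only [MultilinearMap.compLinearMap_apply, mulVecLin_apply, mulVec_mulVec,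
    mul_nonsing_inv h' hd, one_mulVec] using h2

omit [DecidableEq n] in
theorem norm_mul_le {F : Type} [NormedField F] {A B : Matrix n n F} {a b : ℝ} (ha : 0 ≤ a)
    (hA : ∀ i j, ‖A i j‖ ≤ a) (hB : ∀ i j, ‖B i j‖ ≤ b) (i j : n) :
    ‖(A * B) i j‖ ≤ Fintype.card n * (a * b) := by
  rw [mul_apply]
  refine (norm_sum_le _ _).trans
    ((Finset.sum_le_sum (g := fun _ => a * b) fun k _ => ?_).trans_eq (by simp))
  rw [norm_mul]
  exact mul_le_mul (hA i k) (hB k j) (norm_nonneg _) ha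

theorem exists_bd_fin (F : Type) [NormedField F] {H : Set (Matrix n n ℚ)} (hH : H.Finite) :
    ∃ c : ℝ, ∀ h ∈ H, ∀ i j, ‖(h⁻¹.map ((↑) : ℚ → F)) i j‖ ≤ c := by
  obtain ⟨c, hc⟩ := (hH.image fun h => ‖fun i j => (h⁻¹.map ((↑) : ℚ → F)) i j‖).bddAbove
  exact ⟨c, fun h hh i j => ((norm_le_pi_norm _ j).trans
    (norm_le_pi_norm (fun i j => (h⁻¹.map ((↑) : ℚ → F)) i j) i)).trans (hc ⟨h, hh, rfl⟩)⟩

theorem coc_Gam (hN : S.NoNil) (hS : S.Stable) (hT : S.TrNd ℚ) (T : Finset Nat.Primes) :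
    Coc ((S.Gam T).map (S.diag T)) := by
  obtain ⟨ε, hε, h1⟩ := exists_min hN hS hT T
  obtain ⟨C, h2⟩ := reduce n T hε
  obtain ⟨D, hD, K, hK, h3⟩ := exists_val S
  let P : S.GT T → Matrix n n ℚ → Prop := fun u h => |h.det| = 1 ∧ (∀ q ∉ T, Bd q 1 h) ∧
    (∀ (q : T) i j, ‖((u.2 q : Matrix n n ℚ_[(q.1 : ℕ)]) *
      h.map ((↑) : ℚ → ℚ_[(q.1 : ℕ)])) i j‖ ≤ 1) ∧
    ∀ i j, |((u.1 : Matrix n n ℝ) * h.map ((↑) : ℚ → ℝ)) i j| ≤ max C 0
  have h4 : ∀ u, ∃ h, P u h := fun u => by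
    obtain ⟨h, d1, d2, d3, d4⟩ := h2 u.1 (fun q => u.2 q) ((pow_eq_one_iff_of_nonneg (abs_nonneg _)
      two_ne_zero).1 (by rw [sq_abs, det_sq u.1.2])) (fun q => by
        have := congrArg norm (det_sq (u.2 q).2)
        rw [norm_pow, norm_one] at this
        exact (pow_eq_one_iff_of_nonneg (norm_nonneg _) two_ne_zero).1 this) fun v hv v1 v2 => by
      by_contra hlt
      exact hv (h1 u v ⟨v1, v2, (not_le.1 hlt).le⟩)
    exact ⟨h, d1, d2, d3, fun i j => (d4 i j).trans (le_max_left _ _)⟩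
  have col : ∀ (F : Type) [Field F] [CharZero F] (g : Matrix n n F) (h : Matrix n n ℚ) (j i : n),
      (g *ᵥ fun k => (((h *ᵥ Pi.single j 1) k : ℚ) : F)) i = (g * h.map ((↑) : ℚ → F)) i j := by
    intro F _ _ g h j i
    simp [mulVec, dotProduct, mul_apply, Pi.single_apply]
  have := S.fin.to_subtype
  let ty : Matrix n n ℚ → (τ : S.T) → (Fin τ.1.1 → n) → ℚ := fun h τ i =>
    ev τ.1.2 ℚ fun r => h *ᵥ Pi.single (i r) 1
  have h5 : (ty '' {h | ∃ u, P u h}).Finite := by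
    refine (Set.Finite.pi' fun τ : S.T => Set.Finite.pi' fun _ : Fin τ.1.1 → n =>
      finite_bd D hD (K * max C 0 ^ τ.1.1)).subset ?_
    rintro _ ⟨h, ⟨u, d1, d2, d3, d4⟩, rfl⟩ τ i
    refine h3 T u _ τ.1 τ.2 _ fun r => ⟨fun q hq k => ?_, fun q k => ?_, ?_⟩
    · simpa using d2 q hq k (i r)
    · rw [col]; exact d3 q k (i r)
    · refine (pi_norm_le_iff_of_nonneg (le_max_right _ _)).2 fun k => ?_
      rw [col]; exact d4 k (i r)
  obtain ⟨H, hH1, hH2, hH3⟩ := h5.exists_subset_finite_image_eq subset_rfl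
  obtain ⟨c, hc⟩ := exists_bd_fin ℝ hH2
  choose cq hcq using fun q : T => exists_bd_fin ℚ_[(q.1 : ℕ)] hH2
  refine ⟨_, ((S.isCompact_bd (F := ℝ) (Fintype.card n * (max C 0 * c))).prod (isCompact_univ_pi
    fun q : T => S.isCompact_bd (F := ℚ_[(q.1 : ℕ)]) (Fintype.card n * (1 * cq q)))).inv,
    fun g => ?_⟩
  obtain ⟨h, d⟩ := h4 g⁻¹
  obtain ⟨h', hh', e⟩ : ty h ∈ ty '' H := hH3 ▸ ⟨h, ⟨_, d⟩, rfl⟩
  obtain ⟨u', d'⟩ := hH1 hh'
  have un : ∀ {x : Matrix n n ℚ}, |x.det| = 1 → IsUnit x.det := fun {x} hx => by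
    refine Ne.isUnit fun e => ?_
    rw [e, abs_zero] at hx
    exact zero_ne_one hx
  let γ : S.mon ℚ := ⟨h * h'⁻¹, mem_mon_of_type (un d'.1) fun τ hτ i =>
    (congrFun (congrFun e ⟨τ, hτ⟩) i).symm⟩
  have hγ : ∀ (F : Type) [Field F] [CharZero F] (x : S.mon F), ((x * S.up F γ : S.mon F) :
      Matrix n n F) = (x : Matrix n n F) * h.map ((↑) : ℚ → F) * h'⁻¹.map ((↑) : ℚ → F) := by
    intro F _ _ x
    rw [Submonoid.coe_mul, coe_up, Matrix.mul_assoc]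
    exact congrArg _ (Matrix.map_mul (f := Rat.castHom F))
  refine ⟨S.diag T γ, ⟨γ, fun q hq => ⟨?_, ?_⟩, rfl⟩, (S.diag T γ)⁻¹ * g, ?_,
    (mul_inv_cancel_left _ _).symm⟩
  · simpa using Bd.mul zero_le_one zero_le_one (d.2.1 q hq) (bd_inv d'.1 (d'.2.1 q hq))
  · have e1 : ((γ⁻¹ : S.mon ℚ) : Matrix n n ℚ) = h' * h⁻¹ := by
      rw [coe_inv]
      show (h * h'⁻¹)⁻¹ = _
      rw [Matrix.mul_inv_rev, nonsing_inv_nonsing_inv h' (un d'.1)]
    rw [e1]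
    simpa using Bd.mul zero_le_one zero_le_one (d'.2.1 q hq) (bd_inv d.1 (d.2.1 q hq))
  · rw [Set.mem_inv, _root_.mul_inv_rev, inv_inv]
    refine ⟨fun i j => ?_, fun q _ i j => ?_⟩
    · rw [Prod.fst_mul, diag_fst, hγ]
      exact norm_mul_le (le_max_right _ _) d.2.2.2 (hc h' hh') i j
    · rw [Prod.snd_mul, Pi.mul_apply, diag_snd, hγ]
      exact norm_mul_le zero_le_one (d.2.2.1 q) (hcq q h' hh') i j

end Sys

end Vale.Agent.P011Z
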