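import Vale.Agent.P011Z.Cong
import Vale.Agent.P011Z.Red.Herm

/-!
Reduction theory for lattices.
-/

open Matrix Topology

namespace Vale.Agent.P011Z

namespace RD

open CG

variable {m : Type} [Fintype m] [DecidableEq m]

omit [DecidableEq m] in
theorem mulVec_mem {L : AddSubgroup (m → ℚ)} {h : Matrix m m ℚ} (hh : ∀ j, h.col j ∈ L)
    (z : m → ℤ) : (h *ᵥ fun i => (z i : ℚ)) ∈ L := by
  have e : (h *ᵥ fun i => (z i : ℚ)) = ∑ j, z j • h.col j := by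
    funext i
    simp [mulVec, dotProduct, mul_comm]
  rw [e]
  exact L.sum_mem fun j _ => L.zsmul_mem (hh j) _

/-- A matrix of minimal determinant gives a basis. -/
theorem exists_basis (L : AddSubgroup (m → ℚ))
    (hint : ∀ h : Matrix m m ℚ, (∀ j, h.col j ∈ L) → h.det.den = 1)
    (hne : ∃ h : Matrix m m ℚ, (∀ j, h.col j ∈ L) ∧ h.det ≠ 0) :
    ∃ h : Matrix m m ℚ, (∀ j, h.col j ∈ L) ∧ h.det ≠ 0 ∧
      ∀ v ∈ L, ∃ z : m → ℤ, v = h *ᵥ fun i => (z i : ℚ) := by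
  classical
  have hex : ∃ k : ℕ, ∃ h : Matrix m m ℚ, (∀ j, h.col j ∈ L) ∧ h.det ≠ 0 ∧
      h.det.num.natAbs = k := by
    obtain ⟨h, h1, h2⟩ := hne
    exact ⟨_, h, h1, h2, rfl⟩
  obtain ⟨h, h1, h2, h3⟩ := Nat.find_spec hex
  refine ⟨h, h1, h2, fun v hv => ?_⟩
  have hx : h *ᵥ (h⁻¹ *ᵥ v) = v := by
    rw [mulVec_mulVec, mul_nonsing_inv _ h2.isUnit, one_mulVec]
  set x := h⁻¹ *ᵥ v
  suffices hs : ∀ j, Int.fract (x j) = 0 by
    refine ⟨fun i => ⌊x i⌋, ?_⟩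
    rw [← hx]
    congr 1
    funext i
    exact sub_eq_zero.1 (hs i)
  intro j
  by_contra hj
  have h4 : (h *ᵥ fun i => Int.fract (x i)) ∈ L := by
    have e : (fun i => Int.fract (x i)) = x - fun i => ((⌊x i⌋ : ℤ) : ℚ) := rfl
    rw [e, mulVec_sub, hx]
    exact L.sub_mem hv (mulVec_mem h1 _)
  have h5 : (h.updateCol j (h *ᵥ fun i => Int.fract (x i))).det = Int.fract (x j) * h.det := by
    rw [← smul_eq_mul, ← det_updateCol_sum h j fun i => Int.fract (x i)]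
    congr 2
    funext k
    simp [mulVec, dotProduct, mul_comm]
  have h6 : ∀ k, (h.updateCol j (h *ᵥ fun i => Int.fract (x i))).col k ∈ L := by
    intro k
    by_cases hk : k = j
    · subst hk
      have e : (h.updateCol k (h *ᵥ fun i => Int.fract (x i))).col k =
          h *ᵥ fun i => Int.fract (x i) := funext fun i => updateCol_self
      rwa [e]
    · have e : (h.updateCol j (h *ᵥ fun i => Int.fract (x i))).col k = h.col k :=
        funext fun i => updateCol_ne hk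
      rw [e]
      exact h1 k
  have h7 := Nat.find_min' hex ⟨_, h6, by rw [h5]; exact mul_ne_zero hj h2, rfl⟩
  rw [← h3] at h7
  have h8 : |h.det| ≤ |Int.fract (x j) * h.det| := by
    rw [← h5, ← Rat.coe_int_num_of_den_eq_one (hint _ h6),
      ← Rat.coe_int_num_of_den_eq_one (hint _ h1), ← Int.cast_abs, ← Int.cast_abs,
      Int.abs_eq_natAbs, Int.abs_eq_natAbs]
    exact_mod_cast h7
  rw [abs_mul, abs_of_nonneg (Int.fract_nonneg (x j))] at h8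
  nlinarith [Int.fract_lt_one (x j), abs_pos.2 h2]

theorem norm_det_le {F : Type} [NormedField F] [IsUltrametricDist F] {g : Matrix m m F}
    (h : PB 1 g) : ‖g.det‖ ≤ 1 := by
  rw [det_apply']
  refine IsUltrametricDist.norm_sum_le_of_forall_le_of_nonneg zero_le_one fun σ _ => ?_
  rw [norm_mul, norm_prod]
  refine mul_le_one₀ ?_ (Finset.prod_nonneg fun _ _ => norm_nonneg _)
    (Finset.prod_le_one (fun _ _ => norm_nonneg _) fun i _ => h _ _)
  rcases Int.units_eq_one_or (Equiv.Perm.sign σ) with h1 | h1 <;> simp [h1]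

theorem det_cast (F : Type) [Field F] [CharZero F] (h : Matrix m m ℚ) :
    (h.map ((↑) : ℚ → F)).det = (h.det : F) :=
  ((Rat.castHom F).map_det h).symm

theorem exists_nat (T : Finset Nat.Primes) {δ : ℝ} (hδ : 0 < δ) : ∃ M : ℕ,
    (∀ q ∈ T, ‖(M : ℚ_[(q : ℕ)])‖ ≤ δ) ∧ ∀ q ∉ T, ‖(M : ℚ_[(q : ℕ)])‖ = 1 := by
  have h1 : ∀ᶠ k : ℕ in Filter.atTop, ∀ q ∈ T,
      ‖((∏ p ∈ T, (p : ℕ) : ℕ) : ℚ_[(q : ℕ)])‖ ^ k ≤ δ := by
    refine (Filter.eventually_all_finset T).2 fun q hq => ?_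
    exact (tendsto_pow_atTop_nhds_zero_of_lt_one (norm_nonneg _) (Padic.norm_natCast_lt_one_iff.2
      (Finset.dvd_prod_of_mem _ hq))).eventually (ge_mem_nhds hδ)
  obtain ⟨k, hk⟩ := h1.exists
  refine ⟨(∏ p ∈ T, (p : ℕ)) ^ k, fun q hq => ?_, fun q hq => ?_⟩
  · rw [Nat.cast_pow, norm_pow]
    exact hk q hq
  · refine Padic.norm_natCast_eq_one_iff.2 (Nat.Coprime.pow_right _ (Nat.Coprime.prod_right ?_))
    intro p hp
    exact (Nat.coprime_primes q.2 p.2).2 fun h => hq (by rwa [Subtype.ext h])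

theorem exists_approx (q : Nat.Primes) {g : Matrix m m ℚ_[(q : ℕ)]} (hg : ‖g.det‖ = 1) :
    ∃ Y : Matrix m m ℚ, PB 1 (g * Y.map ((↑) : ℚ → ℚ_[(q : ℕ)])) ∧
      ‖(Y.det : ℚ_[(q : ℕ)])‖ = 1 := by
  have hd : DenseRange fun Y : Matrix m m ℚ => Y.map ((↑) : ℚ → ℚ_[(q : ℕ)]) :=
    DenseRange.piMap fun _ : m => DenseRange.piMap fun _ : m => Padic.denseRange_ratCast q
  have hg0 : IsUnit g.det := (norm_pos_iff.1 (by rw [hg]; exact one_pos)).isUnit
  have ho : IsOpen ((⋂ i, ⋂ j, (fun Y : Matrix m m ℚ_[(q : ℕ)] => (g * Y) i j) ⁻¹'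
      Metric.closedBall 0 1) ∩ det ⁻¹' Metric.sphere 0 1) := by
    refine IsOpen.inter (isOpen_iInter_of_finite fun i => isOpen_iInter_of_finite fun j =>
      (IsUltrametricDist.isOpen_closedBall _ one_ne_zero).preimage ?_)
      ((IsUltrametricDist.isOpen_sphere _ one_ne_zero).preimage continuous_id.matrix_det)
    exact (continuous_const.matrix_mul continuous_id).matrix_elem i j
  obtain ⟨Y, h1, h2⟩ := hd.exists_mem_open ho ⟨g⁻¹, by
    refine ⟨Set.mem_iInter.2 fun i => Set.mem_iInter.2 fun j => mem_closedBall_zero_iff.2 ?_,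
      mem_sphere_zero_iff_norm.2 ?_⟩
    · show ‖(g * g⁻¹) i j‖ ≤ 1
      rw [mul_nonsing_inv _ hg0]
      exact pb_one i j
    · rw [det_nonsing_inv, Ring.inverse_eq_inv', norm_inv, hg, inv_one]⟩
  refine ⟨Y, fun i j => mem_closedBall_zero_iff.1 (Set.mem_iInter.1 (Set.mem_iInter.1 h1 i) j), ?_⟩
  rw [← det_cast]
  exact mem_sphere_zero_iff_norm.1 h2

variable (G : (q : Nat.Primes) → Matrix m m ℚ_[(q : ℕ)])

/-- The lattice which is defined by the local conditions. -/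
def lat : AddSubgroup (m → ℚ) where
  carrier := {v | ∀ (q : Nat.Primes) i, ‖(G q *ᵥ fun j => (v j : ℚ_[(q : ℕ)])) i‖ ≤ 1}
  zero_mem' := fun q i => by simp [mulVec, dotProduct]
  add_mem' := fun {v w} hv hw q i => by
    have e : (fun j => ((v + w) j : ℚ_[(q : ℕ)])) =
        (fun j => (v j : ℚ_[(q : ℕ)])) + fun j => (w j : ℚ_[(q : ℕ)]) :=
      funext fun j => Rat.cast_add _ _
    rw [e, mulVec_add]
    exact (IsUltrametricDist.norm_add_le_max _ _).trans (max_le (hv q i) (hw q i))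
  neg_mem' := fun {v} hv q i => by
    have e : (fun j => ((-v) j : ℚ_[(q : ℕ)])) = -fun j => (v j : ℚ_[(q : ℕ)]) :=
      funext fun j => Rat.cast_neg _
    rw [e, mulVec_neg, Pi.neg_apply, norm_neg]
    exact hv q i

omit [DecidableEq m] in
theorem col_mem_lat {h : Matrix m m ℚ} : (∀ j, h.col j ∈ lat G) ↔
    ∀ q : Nat.Primes, PB 1 (G q * h.map ((↑) : ℚ → ℚ_[(q : ℕ)])) :=
  ⟨fun H q i j => H j q i, fun H j q i => H q i j⟩

variable {G} {T : Finset Nat.Primes}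

theorem norm_det_lat (hG : ∀ q, ‖(G q).det‖ = 1) {h : Matrix m m ℚ} (hh : ∀ j, h.col j ∈ lat G)
    (q : Nat.Primes) : ‖(h.det : ℚ_[(q : ℕ)])‖ ≤ 1 := by
  have h1 := norm_det_le ((col_mem_lat G).1 hh q)
  rwa [det_mul, norm_mul, hG, one_mul, det_cast] at h1

theorem exists_loc (hG : ∀ q, ‖(G q).det‖ = 1) (hT : ∀ q ∉ T, G q = 1) (q : Nat.Primes) :
    ∃ Y : Matrix m m ℚ, (∀ j, Y.col j ∈ lat G) ∧ ‖(Y.det : ℚ_[(q : ℕ)])‖ = 1 := by
  classical
  obtain ⟨Y, h1, h2⟩ := exists_approx q (hG q)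
  obtain ⟨T1, h3⟩ := exists_T Y
  obtain ⟨c, hc⟩ := Finite.exists_le fun p : ((T ∪ T1).erase q : Finset Nat.Primes) × m × m =>
    ‖(G p.1.1 * Y.map ((↑) : ℚ → ℚ_[(p.1.1 : ℕ)])) p.2.1 p.2.2‖
  have hc1 : 0 < max c 1 := lt_max_of_lt_right one_pos
  obtain ⟨M, h4, h5⟩ := exists_nat ((T ∪ T1).erase q) (inv_pos.2 hc1)
  have hq := h5 q (Finset.notMem_erase _ _)
  refine ⟨(M : ℚ) • Y, (col_mem_lat G).2 fun p i j => ?_, ?_⟩
  · have e : ((M : ℚ) • Y).map ((↑) : ℚ → ℚ_[(p : ℕ)]) =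
        (M : ℚ_[(p : ℕ)]) • Y.map ((↑) : ℚ → ℚ_[(p : ℕ)]) := by
      ext a b
      simp
    rw [e, Matrix.mul_smul, Matrix.smul_apply, smul_eq_mul, norm_mul]
    by_cases hp : p ∈ (T ∪ T1).erase q
    · refine (mul_le_mul (h4 p hp) ((hc (⟨p, hp⟩, i, j)).trans (le_max_left c 1)) (norm_nonneg _)
        (inv_pos.2 hc1).le).trans_eq (inv_mul_cancel₀ hc1.ne')
    · rw [h5 p hp, one_mul]
      by_cases hpq : p = q
      · subst hpq
        exact h1 i j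
      · have h6 : p ∉ T ∪ T1 := fun h => hp (Finset.mem_erase.2 ⟨hpq, h⟩)
        rw [hT p fun h => h6 (Finset.mem_union_left _ h), Matrix.one_mul]
        exact h3 p (fun h => h6 (Finset.mem_union_right _ h)) i j
  · rw [det_smul, Rat.cast_mul, Rat.cast_pow, Rat.cast_natCast, norm_mul, norm_pow, hq, h2, one_pow,
      one_mul]

/-- The class number of the general linear group is one. -/
theorem exists_glob (hG : ∀ q, ‖(G q).det‖ = 1) (hT : ∀ q ∉ T, G q = 1) :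
    ∃ h : Matrix m m ℚ, (∀ j, h.col j ∈ lat G) ∧ |h.det| = 1 := by
  obtain ⟨h, h1, h2, h3⟩ := exists_basis (lat G) (fun h hh => den_eq_one (norm_det_lat hG hh)) (by
    obtain ⟨Y, h1, h2⟩ := exists_loc hG hT ⟨2, Nat.prime_two⟩
    refine ⟨Y, h1, fun h => ?_⟩
    simp [h] at h2)
  refine ⟨h, h1, ?_⟩
  have h4 : h.det⁻¹.den = 1 := by
    refine den_eq_one fun q => ?_
    obtain ⟨Y, h5, h6⟩ := exists_loc hG hT q
    choose z hz using fun j => h3 _ (h5 j)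
    have e : Y = h * (of z)ᵀ.map ((↑) : ℤ → ℚ) := Matrix.ext fun i j => congrFun (hz j) i
    have e2 : ((of z)ᵀ.map ((↑) : ℤ → ℚ)).det = ((of z)ᵀ.det : ℤ) :=
      ((Int.castRingHom ℚ).map_det _).symm
    rw [e, det_mul, e2, Rat.cast_mul, norm_mul, Rat.cast_intCast] at h6
    rw [Rat.cast_inv, norm_inv, ← eq_inv_of_mul_eq_one_right h6]
    exact Padic.norm_int_le_one _
  have h5 := Rat.coe_int_num_of_den_eq_one h4
  have h6 := Rat.coe_int_num_of_den_eq_one (den_eq_one (norm_det_lat hG h1))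
  have h7 : h.det.num * h.det⁻¹.num = 1 := by
    have : (h.det.num : ℚ) * h.det⁻¹.num = 1 := by rw [h5, h6, mul_inv_cancel₀ h2]
    exact_mod_cast this
  rw [← h6]
  rcases Int.eq_one_or_neg_one_of_mul_eq_one h7 with h8 | h8 <;> simp [h8]

end RD

open RD

variable (m : Type) [Fintype m] [DecidableEq m]

/-- Reduction of Hermite. -/
theorem hermite {ε : ℝ} (hε : 0 < ε) (D : ℝ) : ∃ C : ℝ, ∀ A : Matrix m m ℝ, A.det ≠ 0 →
    |A.det| ≤ D → (∀ v : m → ℤ, v ≠ 0 → ε ≤ ‖A *ᵥ fun i => (v i : ℝ)‖) →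
    ∃ U : Matrix m m ℤ, IsUnit U.det ∧ ∀ i j, |(A * U.map ((↑) : ℤ → ℝ)) i j| ≤ C := by
  obtain ⟨C, hC⟩ := herm m (pow_pos hε 2) (D ^ 2)
  refine ⟨√C, fun A _ hD hm => ?_⟩
  have hq : ∀ x i, ‖(A *ᵥ x) i‖ ≤ √(qf (Aᵀ * A) x) := by
    intro x i
    have e : qf (Aᵀ * A) x = ∑ k, (A *ᵥ x) k ^ 2 := by
      rw [qf, ← mulVec_mulVec, dotProduct_mulVec, vecMul_transpose]
      simp only [dotProduct, sq]
    rw [e]
    exact Real.abs_le_sqrt
      (Finset.single_le_sum (f := fun k => (A *ᵥ x) k ^ 2) (fun _ _ => sq_nonneg _)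
        (Finset.mem_univ i))
  obtain ⟨U, hU, h⟩ := hC (Aᵀ * A) (isSymm_transpose_mul_self A)
    (by
      rw [det_mul, det_transpose, abs_mul, ← sq]
      exact pow_le_pow_left₀ (abs_nonneg _) hD 2)
    fun v hv => (Real.le_sqrt' hε).1 ((hm v hv).trans
      ((pi_norm_le_iff_of_nonneg (Real.sqrt_nonneg _)).2 (hq (zc v))))
  exact ⟨U, hU, fun i j => (hq (zc (U.col j)) i).trans (Real.sqrt_le_sqrt (h j))⟩

/-- The version for a finite set of primes. -/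
theorem reduce (T : Finset Nat.Primes) {ε : ℝ} (hε : 0 < ε) : ∃ C : ℝ,
    ∀ (g : Matrix m m ℝ) (gq : (q : T) → Matrix m m ℚ_[(q.1 : ℕ)]), |g.det| = 1 →
    (∀ q, ‖(gq q).det‖ = 1) →
    (∀ v : m → ℚ, v ≠ 0 → (∀ q : Nat.Primes, q ∉ T → ∀ i, ‖(v i : ℚ_[(q : ℕ)])‖ ≤ 1) →
      (∀ (q : T) i, ‖(gq q *ᵥ fun j => (v j : ℚ_[(q.1 : ℕ)])) i‖ ≤ 1) →
      ε ≤ ‖g *ᵥ fun j => (v j : ℝ)‖) →
    ∃ h : Matrix m m ℚ, |h.det| = 1 ∧ (∀ q ∉ T, Bd q 1 h) ∧
      (∀ (q : T) i j, ‖(gq q * h.map ((↑) : ℚ → ℚ_[(q.1 : ℕ)])) i j‖ ≤ 1) ∧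
      ∀ i j, |(g * h.map ((↑) : ℚ → ℝ)) i j| ≤ C := by
  classical
  obtain ⟨C, hC⟩ := hermite m hε 1
  refine ⟨C, fun g gq hg hgq hm => ?_⟩
  let G : (q : Nat.Primes) → Matrix m m ℚ_[(q : ℕ)] := fun q =>
    if h : q ∈ T then gq ⟨q, h⟩ else 1
  have hT : ∀ q ∉ T, G q = 1 := fun q hq => dif_neg hq
  have hT' : ∀ q : T, G q.1 = gq q := fun q => dif_pos q.2
  have hG : ∀ q, ‖(G q).det‖ = 1 := by
    intro q
    by_cases hq : q ∈ T
    · rw [hT' ⟨q, hq⟩]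
      exact hgq _
    · rw [hT q hq, det_one, norm_one]
  obtain ⟨h, h1, h2⟩ := exists_glob hG hT
  have h3 : |(g * h.map ((↑) : ℚ → ℝ)).det| = 1 := by
    rw [det_mul, abs_mul, hg, one_mul, det_cast, ← Rat.cast_abs, h2, Rat.cast_one]
  have h0 : h.det ≠ 0 := abs_pos.1 (by rw [h2]; exact one_pos)
  obtain ⟨U, hU, h4⟩ := hC (g * h.map ((↑) : ℚ → ℝ)) (abs_pos.1 (by rw [h3]; exact one_pos)) h3.le
    fun v hv => by
      have k1 := mulVec_mem h1 v
      have k2 := hm (h *ᵥ fun i => (v i : ℚ))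
        (fun h5 => hv (funext fun i => by
          simpa using congrFun (eq_zero_of_mulVec_eq_zero h0 h5) i))
        (fun q hq i => by
          have := k1 q i
          rwa [hT q hq, one_mulVec] at this)
        fun q i => by
          have := k1 q.1 i
          rwa [hT' q] at this
      have e : (fun j => ((h *ᵥ fun i => (v i : ℚ)) j : ℝ)) =
          h.map ((↑) : ℚ → ℝ) *ᵥ fun i => (v i : ℝ) := by
        funext j
        simp [mulVec, dotProduct]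
      rwa [e, mulVec_mulVec] at k2
  have h5 := (col_mem_lat G (h := h * U.map ((↑) : ℤ → ℚ))).1 fun j => mulVec_mem h1 (U.col j)
  refine ⟨h * U.map ((↑) : ℤ → ℚ), ?_, fun q hq => ?_, fun q => ?_, ?_⟩
  · have e2 : (U.map ((↑) : ℤ → ℚ)).det = (U.det : ℤ) := ((Int.castRingHom ℚ).map_det _).symm
    rw [det_mul, abs_mul, h2, one_mul, e2]
    rcases Int.isUnit_iff.1 hU with h6 | h6 <;> simp [h6]
  · have := h5 q
    rwa [hT q hq, Matrix.one_mul] at this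
  · have := h5 q.1
    rwa [hT' q] at this
  · have e : (h * U.map ((↑) : ℤ → ℚ)).map ((↑) : ℚ → ℝ) =
        h.map ((↑) : ℚ → ℝ) * U.map ((↑) : ℤ → ℝ) := by
      ext i j
      simp [mul_apply]
    rwa [e, ← Matrix.mul_assoc]

end Vale.Agent.P011Z
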