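import Vale.Agent.P011Z.MaxG
import Vale.Agent.P011Z.Cell
import Vale.Agent.P011Z.Cong
import Vale.Agent.P011Z.D1.Real
import Vale.Agent.P011Z.D1.Padic

/-!
The anisotropic part of the centraliser.
-/

open Matrix Topology

namespace Vale.Agent.P011Z

namespace Sys

variable {n : Type} [Fintype n] [DecidableEq n] {S : Sys n} {I : Type} [Fintype I] {k : I → ℤ}

theorem MaxG.cover {F : Type} [NontriviallyNormedField F] [CharZero F] [ProperSpace F]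
    {e : I → Matrix n n F} (Ω : Type) [NormedField Ω] [NormedAlgebra F Ω] [IsGalois F Ω]
    [IsAlgClosed Ω] (h : S.MaxG e k) (hiso : ∀ (φ : Ω ≃ₐ[F] Ω) x, ‖φ x‖ = ‖x‖) {ε : ℝ}
    (hε : 0 < ε) : ∃ A : Finset (S.mon F), ∀ z ∈ S.Z0 h.dec, ∃ a ∈ A, a ∈ S.Z0 h.dec ∧ ∀ μ : Ω,
      (((a⁻¹ * z : S.mon F) : Matrix n n F).map (algebraMap F Ω)).charpoly.IsRoot μ →
        ‖μ - 1‖ < ε := h.cover' Ω hiso hε

theorem MaxG.d1_real {e : I → Matrix n n ℝ} (h : S.MaxG e k) (hT : S.TrNd ℝ)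
    {M : Subgroup (S.mon ℝ)} (hM : (M : Set (S.mon ℝ)) ∈ 𝓝 1) :
    M.relIndex (S.Z0 h.dec) ≠ 0 := h.d1_real' hT hM

theorem MaxG.d2_real {e : I → Matrix n n ℝ} (h : S.MaxG e k)
    {M : Subgroup (S.mon ℝ)} (hM : (M : Set (S.mon ℝ)) ∈ 𝓝 1) :
    S.Zc e ≤ (M ⊓ S.Zc e) ⊔ S.Z0 h.dec := h.d2_real' hM

theorem MaxG.d1_padic {p : ℕ} [Fact p.Prime] {e : I → Matrix n n ℚ_[p]} (h : S.MaxG e k)
    (hT : S.TrNd ℚ_[p]) {M : Subgroup (S.mon ℚ_[p])} (hM : (M : Set (S.mon ℚ_[p])) ∈ 𝓝 1) :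
    M.relIndex (S.Z0 h.dec) ≠ 0 := h.d1_padic' hT hM

end Sys

end Vale.Agent.P011Z
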