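import Mathlib

/-!
Groups of matrices which preserve finitely many multilinear forms with rational coefficients:
the definitions.
-/

open Matrix Topology

namespace Vale.Agent.P011Z

instance primesFact (q : Nat.Primes) : Fact (q : ℕ).Prime := ⟨q.2⟩

/-- Rational tensors: the degree and the array of the coefficients. -/
abbrev Tn (n : Type) : Type := Σ a : ℕ, (Fin a → n) → ℚ

variable {n : Type} [Fintype n] [DecidableEq n]

/-- The multilinear form over `F` with the given rational coefficients. -/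
noncomputable def ev {a : ℕ} (t : (Fin a → n) → ℚ) (F : Type) [Field F] :
    MultilinearMap F (fun _ : Fin a => n → F) F :=
  ∑ j : Fin a → n, (t j : F) •
    (MultilinearMap.mkPiAlgebra F (Fin a) F).compLinearMap fun r => LinearMap.proj (j r)

omit [DecidableEq n] in
theorem ev_apply {a : ℕ} (t : (Fin a → n) → ℚ) (F : Type) [Field F] (x : Fin a → n → F) :
    ev t F x = ∑ j : Fin a → n, (t j : F) * ∏ r, x r (j r) := by
  simp [ev]

/-- A finite system of rational tensors which contains a nondegenerate bilinear form. -/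
structure Sys (n : Type) [Fintype n] [DecidableEq n] where
  T : Set (Tn n)
  fin : T.Finite
  B : Matrix n n ℚ
  detB : B.det ≠ 0
  memB : (⟨2, fun j => B (j 0) (j 1)⟩ : Tn n) ∈ T

namespace Sys

variable (S : Sys n) (F : Type) [Field F]

/-- The matrices which preserve all tensors. -/
def mon : Submonoid (Matrix n n F) where
  carrier := {g | ∀ τ ∈ S.T, ∀ x : Fin τ.1 → n → F, ev τ.2 F (fun r => g *ᵥ x r) = ev τ.2 F x}
  one_mem' := fun τ _ x => by simp
  mul_mem' := fun {g h} hg hh τ hτ x => by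
    have h1 := hg τ hτ fun r => h *ᵥ x r
    simp only [mulVec_mulVec] at h1
    rw [h1, hh τ hτ]

/-- The matrices which annihilate all tensors. -/
def lie : Submodule F (Matrix n n F) where
  carrier := {X | ∀ τ ∈ S.T, ∀ x : Fin τ.1 → n → F,
    ∑ r, ev τ.2 F (Function.update x r (X *ᵥ x r)) = 0}
  zero_mem' := fun τ _ x => by
    refine Finset.sum_eq_zero fun r _ => ?_
    rw [zero_mulVec, MultilinearMap.map_update_zero]
  add_mem' := fun {X Y} hX hY τ hτ x => by
    simp only [add_mulVec, MultilinearMap.map_update_add, Finset.sum_add_distrib]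
    rw [hX τ hτ, hY τ hτ, add_zero]
  smul_mem' := fun c X hX τ hτ x => by
    simp only [smul_mulVec, MultilinearMap.map_update_smul, ← Finset.smul_sum]
    rw [hX τ hτ, smul_zero]

variable {S F}

theorem mem_mon {g : Matrix n n F} : g ∈ S.mon F ↔
    ∀ τ ∈ S.T, ∀ x : Fin τ.1 → n → F, ev τ.2 F (fun r => g *ᵥ x r) = ev τ.2 F x := Iff.rfl

theorem mem_lie {X : Matrix n n F} : X ∈ S.lie F ↔ ∀ τ ∈ S.T, ∀ x : Fin τ.1 → n → F,
    ∑ r, ev τ.2 F (Function.update x r (X *ᵥ x r)) = 0 := Iff.rfl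

variable (S F) in
/-- The matrix of the bilinear form over `F`. -/
def BF : Matrix n n F := S.B.map ((↑) : ℚ → F)

theorem ev_B (x : Fin 2 → n → F) :
    ev (fun j : Fin 2 → n => S.B (j 0) (j 1)) F x = x 0 ⬝ᵥ S.BF F *ᵥ x 1 := by
  rw [ev_apply, ← (piFinTwoEquiv fun _ => n).symm.sum_comp, Fintype.sum_prod_type]
  simp only [dotProduct, mulVec, BF, map_apply, Finset.mul_sum, Fin.prod_univ_two]
  refine Finset.sum_congr rfl fun i _ => Finset.sum_congr rfl fun j _ => ?_
  simp [piFinTwoEquiv]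
  ring

theorem form_of_mem {g : Matrix n n F} (hg : g ∈ S.mon F) : gᵀ * S.BF F * g = S.BF F := by
  ext i j
  have h := hg _ S.memB ![Pi.single i 1, Pi.single j 1]
  rw [ev_B, ev_B] at h
  simp only [Matrix.cons_val_zero, Matrix.cons_val_one, mulVec_mulVec] at h
  have h1 : ∀ M : Matrix n n F, (Pi.single i 1 : n → F) ⬝ᵥ M *ᵥ (Pi.single j 1) = M i j := by
    intro M
    simp
  rw [h1] at h
  rw [← h, ← h1 (gᵀ * S.BF F * g), Matrix.mul_assoc, ← mulVec_mulVec, dotProduct_mulVec,
    vecMul_transpose]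

variable [CharZero F]

theorem det_BF : (S.BF F).det ≠ 0 := by
  have h : (S.BF F).det = ((S.B.det : ℚ) : F) := ((Rat.castHom F).map_det S.B).symm
  rw [h]
  exact_mod_cast S.detB

theorem det_sq {g : Matrix n n F} (hg : g ∈ S.mon F) : g.det ^ 2 = 1 := by
  have h := congrArg det (form_of_mem hg)
  rw [det_mul, det_mul, det_transpose] at h
  refine mul_right_cancel₀ (det_BF (S := S) (F := F)) ?_
  linear_combination h

theorem det_ne {g : Matrix n n F} (hg : g ∈ S.mon F) : g.det ≠ 0 := by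
  intro h
  have h2 := det_sq hg
  rw [h] at h2
  simp at h2

theorem isUnit_det {g : Matrix n n F} (hg : g ∈ S.mon F) : IsUnit g.det := (det_ne hg).isUnit

theorem inv_mem_mon {g : Matrix n n F} (hg : g ∈ S.mon F) : g⁻¹ ∈ S.mon F := by
  intro τ hτ x
  have h := hg τ hτ fun r => g⁻¹ *ᵥ x r
  simp only [mulVec_mulVec, mul_nonsing_inv g (isUnit_det hg), one_mulVec] at h
  exact h.symm

theorem inv_eq {g : Matrix n n F} (hg : g ∈ S.mon F) : g⁻¹ = (S.BF F)⁻¹ * gᵀ * S.BF F := by
  refine inv_eq_left_inv ?_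
  rw [Matrix.mul_assoc, Matrix.mul_assoc, ← Matrix.mul_assoc gᵀ, form_of_mem hg,
    nonsing_inv_mul _ det_BF.isUnit]

noncomputable instance instGroup : Group (S.mon F) :=
  { (inferInstance : Monoid (S.mon F)) with
    inv := fun g => ⟨(g : Matrix n n F)⁻¹, inv_mem_mon g.2⟩
    inv_mul_cancel := fun g => Subtype.ext (nonsing_inv_mul _ (isUnit_det g.2)) }

theorem coe_inv (g : S.mon F) : ((g⁻¹ : S.mon F) : Matrix n n F) = (g : Matrix n n F)⁻¹ := rfl

theorem coe_mul_inv (g : S.mon F) :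
    (g : Matrix n n F) * ((g⁻¹ : S.mon F) : Matrix n n F) = 1 :=
  congrArg Subtype.val (mul_inv_cancel g)

theorem coe_inv_mul (g : S.mon F) :
    ((g⁻¹ : S.mon F) : Matrix n n F) * (g : Matrix n n F) = 1 :=
  congrArg Subtype.val (inv_mul_cancel g)

omit [CharZero F] in
/-- The coordinate form of the invariance. -/
theorem mem_mon_iff {g : Matrix n n F} : g ∈ S.mon F ↔
    ∀ τ ∈ S.T, ∀ i : Fin τ.1 → n,
      ∑ j : Fin τ.1 → n, (τ.2 j : F) * ∏ r, g (j r) (i r) = (τ.2 i : F) := by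
  have h0 : ∀ (τ : Tn n) (i : Fin τ.1 → n),
      ev τ.2 F (fun r => Pi.single (i r) 1) = (τ.2 i : F) := by
    intro τ i
    rw [ev_apply, Finset.sum_eq_single i]
    · simp
    · intro j _ hj
      obtain ⟨r, hr⟩ := Function.ne_iff.1 hj
      rw [Finset.prod_eq_zero (Finset.mem_univ r) (by simp [hr]), mul_zero]
    · simp
  have h1 : ∀ (τ : Tn n) (i : Fin τ.1 → n), ev τ.2 F (fun r => g *ᵥ Pi.single (i r) 1) =
      ∑ j : Fin τ.1 → n, (τ.2 j : F) * ∏ r, g (j r) (i r) := by
    intro τ i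
    rw [ev_apply]
    simp
  refine ⟨fun h τ hτ i => by rw [← h1, h τ hτ, h0], fun h τ hτ x => ?_⟩
  have h2 : (ev τ.2 F).compLinearMap (fun _ => g.mulVecLin) = ev τ.2 F := by
    refine Module.Basis.ext_multilinear (fun _ => Pi.basisFun F n) fun i => ?_
    simp only [MultilinearMap.compLinearMap_apply, Pi.basisFun_apply, mulVecLin_apply]
    rw [h1, h τ hτ, h0]
  exact congrArg (fun m => m x) h2

theorem map_mem_mon {F' : Type} [Field F'] [CharZero F'] (φ : F →+* F') {g : Matrix n n F}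
    (hg : g ∈ S.mon F) : g.map φ ∈ S.mon F' := by
  rw [mem_mon_iff] at hg ⊢
  intro τ hτ i
  have h := congrArg φ (hg τ hτ i)
  simpa [map_sum, map_prod] using h

variable (S) in
/-- Extension of the field. -/
def mapG {F' : Type} [Field F'] [CharZero F'] (φ : F →+* F') : S.mon F →* S.mon F' where
  toFun g := ⟨(g : Matrix n n F).map φ, map_mem_mon φ g.2⟩
  map_one' := Subtype.ext (Matrix.map_one _ (map_zero φ) (map_one φ))
  map_mul' _ _ := Subtype.ext Matrix.map_mul

theorem coe_mapG {F' : Type} [Field F'] [CharZero F'] (φ : F →+* F') (g : S.mon F) :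
    (S.mapG φ g : Matrix n n F') = (g : Matrix n n F).map φ := rfl

variable (S F) in
/-- The rational points as points over `F`. -/
def up : S.mon ℚ →* S.mon F := S.mapG (Rat.castHom F)

theorem coe_up (g : S.mon ℚ) :
    (S.up F g : Matrix n n F) = (g : Matrix n n ℚ).map ((↑) : ℚ → F) := rfl

section top

variable {F : Type} [NontriviallyNormedField F] [CharZero F]

omit [CharZero F] in
theorem isClosed_mon : IsClosed (S.mon F : Set (Matrix n n F)) := by
  have e : (S.mon F : Set (Matrix n n F)) = ⋂ τ ∈ S.T, ⋂ i : Fin τ.1 → n,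
      {g | ∑ j : Fin τ.1 → n, (τ.2 j : F) * ∏ r, g (j r) (i r) = (τ.2 i : F)} := by
    ext g
    simp only [SetLike.mem_coe, mem_mon_iff, Set.mem_iInter, Set.mem_ofPred_eq]
  rw [e]
  refine isClosed_biInter fun τ _ => isClosed_iInter fun i => isClosed_eq ?_ continuous_const
  fun_prop

instance : IsTopologicalGroup (S.mon F) where
  continuous_inv := by
    refine Continuous.subtype_mk ?_ _
    have e : (fun g : S.mon F => (g : Matrix n n F)⁻¹) =
        fun g : S.mon F => (S.BF F)⁻¹ * (g : Matrix n n F)ᵀ * S.BF F :=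
      funext fun g => inv_eq g.2
    rw [e]
    exact (continuous_const.mul continuous_subtype_val.matrix_transpose).mul continuous_const

instance [ProperSpace F] : LocallyCompactSpace (S.mon F) :=
  haveI : LocallyCompactSpace (Matrix n n F) := inferInstanceAs (LocallyCompactSpace (n → n → F))
  isClosed_mon.locallyCompactSpace

instance [ProperSpace F] : SecondCountableTopology (S.mon F) :=
  haveI : SecondCountableTopology (Matrix n n F) :=
    inferInstanceAs (SecondCountableTopology (n → n → F))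
  TopologicalSpace.Subtype.secondCountableTopology _

end top

section global

variable (S)

/-- The points over the completions at infinity and at the primes of `T`. -/
abbrev GT (T : Finset Nat.Primes) : Type := S.mon ℝ × ((q : T) → S.mon ℚ_[(q.1 : ℕ)])

/-- The diagonal map. -/
noncomputable def diag (T : Finset Nat.Primes) : S.mon ℚ →* S.GT T :=
  (S.up ℝ).prod (MonoidHom.pi fun q : T => S.up ℚ_[(q.1 : ℕ)])

variable {S}

theorem diag_fst (T : Finset Nat.Primes) (g : S.mon ℚ) : (S.diag T g).1 = S.up ℝ g := rfl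

theorem diag_snd (T : Finset Nat.Primes) (g : S.mon ℚ) (q : T) :
    (S.diag T g).2 q = S.up ℚ_[(q.1 : ℕ)] g := rfl

end global

end Sys

/-- The entries of the rational matrix have `q`-adic absolute value at most `c`. -/
def Bd (q : Nat.Primes) (c : ℝ) (g : Matrix n n ℚ) : Prop :=
  ∀ i j, ‖((g i j : ℚ) : ℚ_[(q : ℕ)])‖ ≤ c

omit [DecidableEq n] in
theorem Bd.mul {q : Nat.Primes} {c d : ℝ} {g h : Matrix n n ℚ} (hc : 0 ≤ c) (hd : 0 ≤ d)
    (hg : Bd q c g) (hh : Bd q d h) : Bd q (c * d) (g * h) := by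
  intro i j
  rw [mul_apply, Rat.cast_sum]
  refine IsUltrametricDist.norm_sum_le_of_forall_le_of_nonneg (mul_nonneg hc hd) fun k _ => ?_
  rw [Rat.cast_mul, norm_mul]
  exact mul_le_mul (hg i k) (hh k j) (norm_nonneg _) hc

omit [Fintype n] in
theorem bd_one (q : Nat.Primes) : Bd q 1 (1 : Matrix n n ℚ) := by
  intro i j
  rw [one_apply]
  split_ifs <;> simp

/-- The rational points which are integral outside `T`. -/
noncomputable def Sys.Gam (S : Sys n) (T : Finset Nat.Primes) : Subgroup (S.mon ℚ) where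
  carrier := {γ | ∀ q ∉ T, Bd q 1 (γ : Matrix n n ℚ) ∧ Bd q 1 ((γ⁻¹ : S.mon ℚ) : Matrix n n ℚ)}
  one_mem' := fun q _ => by
    rw [inv_one]
    exact ⟨bd_one q, bd_one q⟩
  mul_mem' := fun {g h} hg hh q hq => by
    rw [_root_.mul_inv_rev]
    exact ⟨by simpa using Bd.mul zero_le_one zero_le_one (hg q hq).1 (hh q hq).1,
      by simpa using Bd.mul zero_le_one zero_le_one (hh q hq).2 (hg q hq).2⟩
  inv_mem' := fun {g} hg q hq => by
    rw [inv_inv]
    exact ⟨(hg q hq).2, (hg q hq).1⟩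

theorem Sys.mem_Gam {S : Sys n} {T : Finset Nat.Primes} {γ : S.mon ℚ} : γ ∈ S.Gam T ↔
    ∀ q ∉ T, Bd q 1 (γ : Matrix n n ℚ) ∧ Bd q 1 ((γ⁻¹ : S.mon ℚ) : Matrix n n ℚ) := Iff.rfl

namespace Sys

variable (S : Sys n)

/-- The subspace `I` is an ideal of the Lie algebra over `F`. -/
def IsIdeal (F : Type) [Field F] (I : Submodule F (Matrix n n F)) : Prop :=
  I ≤ S.lie F ∧ ∀ X ∈ S.lie F, ∀ Y ∈ I, X * Y - Y * X ∈ I

/-- The trace form of the Lie algebra over `F` is nondegenerate. -/
def TrNd (F : Type) [Field F] : Prop :=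
  ∀ X ∈ S.lie F, (∀ Y ∈ S.lie F, (X * Y).trace = 0) → X = 0

/-- The centre of the Lie algebra over `F` is zero. -/
def NoCen (F : Type) [Field F] : Prop :=
  ∀ X ∈ S.lie F, (∀ Y ∈ S.lie F, X * Y = Y * X) → X = 0

/-- There is no nonzero nilpotent element in the rational Lie algebra. -/
def NoNil : Prop := ∀ X ∈ S.lie ℚ, IsNilpotent X → X = 0

/-- On every nonzero invariant subspace some tensor of positive degree is nonzero. -/
def Stable : Prop :=
  ∀ W : Submodule ℚ (n → ℚ), W ≠ ⊥ → (∀ X ∈ S.lie ℚ, ∀ w ∈ W, X *ᵥ w ∈ W) →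
    ∃ τ ∈ S.T, 0 < τ.1 ∧ ∃ x : Fin τ.1 → n → ℚ, (∀ r, x r ∈ W) ∧ ev τ.2 ℚ x ≠ 0

/-- There are no two commuting nonzero ideals in the rational Lie algebra. -/
def Prime : Prop :=
  ∀ I J : Submodule ℚ (Matrix n n ℚ), S.IsIdeal ℚ I → S.IsIdeal ℚ J →
    (∀ X ∈ I, ∀ Y ∈ J, X * Y = Y * X) → I = ⊥ ∨ J = ⊥

/-- The element centralises the Lie algebra over `F`. -/
def Cent (F : Type) [Field F] (g : Matrix n n F) : Prop := ∀ X ∈ S.lie F, g * X = X * g

/-- The element `s` is diagonalisable with eigenvalues which are powers of `w`, and no nonzero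
element of the Lie algebra commutes with all `s X s⁻¹ - X`. -/
def Hyp (F : Type) [Field F] [CharZero F] (w : F) (s : S.mon F) : Prop :=
  (∃ K : Finset ℤ, ∀ v : n → F, ∃ u : ℤ → n → F, v = ∑ k ∈ K, u k ∧
      ∀ k, (s : Matrix n n F) *ᵥ u k = w ^ k • u k) ∧
    ∀ Y ∈ S.lie F, (∀ X ∈ S.lie F,
      Commute Y ((s : Matrix n n F) * X * ((s⁻¹ : S.mon F) : Matrix n n F) - X)) → Y = 0

/-- The subgroups of finite index of `Λ` contain the elements close to one at the primes of
`TA`. -/
def Csp (Λ : Subgroup (S.mon ℚ)) (TA : Finset Nat.Primes) : Prop :=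
  ∀ Λ' : Subgroup (S.mon ℚ), Λ' ≤ Λ → Λ'.FiniteIndex → ∃ ε : ℝ, 0 < ε ∧ ∀ g ∈ Λ,
    (∀ q ∈ TA, Bd q ε ((g : Matrix n n ℚ) - 1)) → g ∈ Λ'

end Sys

/-- The subgroup generated by the elements which are contracted by `s` or by `s⁻¹`. -/
def plus {B : Type} [Group B] [TopologicalSpace B] (s : B) : Subgroup B :=
  Subgroup.closure {u | Filter.Tendsto (fun m : ℕ => s ^ m * u * (s ^ m)⁻¹) Filter.atTop (𝓝 1) ∨
    Filter.Tendsto (fun m : ℕ => (s ^ m)⁻¹ * u * s ^ m) Filter.atTop (𝓝 1)}

/-- A relative form of property (T), for representations which need not be continuous. -/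
def HasT {B : Type} [Group B] [TopologicalSpace B] (G₁ : Subgroup B) : Prop :=
  ∃ C : Set B, IsCompact C ∧ ∃ δ : ℝ, 0 < δ ∧
    ∀ (H : Type) [NormedAddCommGroup H] [InnerProductSpace ℝ H] [CompleteSpace H]
      (π : B →* (H ≃ₗᵢ[ℝ] H)) (v : H), ‖v‖ = 1 → (∀ g ∈ C, ‖π g v - v‖ ≤ δ) →
      ∃ ξ : H, ξ ≠ 0 ∧ ∀ g ∈ G₁, π g ξ = ξ

/-- The diagonal matrix with the entries `w`, `1`, `w⁻¹`. -/
def dg3 {F : Type} [Field F] (w : F) (hw : w ≠ 0) : SpecialLinearGroup (Fin 3) F :=
  ⟨diagonal ![w, 1, w⁻¹], by simp [Fin.prod_univ_three, hw]⟩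

/-- The elementary matrices. -/
def el3 {F : Type} [Field F] (i j : Fin 3) (hij : i ≠ j) (t : F) : SpecialLinearGroup (Fin 3) F :=
  ⟨transvection i j t, det_transvection_of_ne i j hij t⟩

end Vale.Agent.P011Z
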