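import Vale.Agent.P011Z.Spec

/-!
Gradings of the representation space: the definitions.
-/

open Matrix

namespace Vale.Agent.P011Z

variable {n : Type} [Fintype n] [DecidableEq n] {F : Type} [Field F] {I : Type} [Fintype I]

/-- The determinant of `z` on the image of the idempotent `E`. -/
def dl (E z : Matrix n n F) : F := (E * z * E + (1 - E)).det

open Classical in
/-- The sum of the idempotents of degree at least `a`. -/
noncomputable def upE (e : I → Matrix n n F) (k : I → ℤ) (a : ℤ) : Matrix n n F :=
  ∑ i with a ≤ k i, e i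

theorem dl_mul {E y z : Matrix n n F} (hE : E * E = E) (hz : Commute z E) :
    dl E (y * z) = dl E y * dl E z := by
  have h1 : E * (1 - E) = 0 := by rw [mul_sub, mul_one, hE, sub_self]
  have h2 : (1 - E) * E = 0 := by rw [sub_mul, one_mul, hE, sub_self]
  have h3 : (1 - E) * (1 - E) = 1 - E := by rw [mul_sub, mul_one, h2, sub_zero]
  have h4 : E * y * E * (E * z * E) = E * (y * z) * E := by
    have h5 : E * (E * z * E) = z * E := by
      rw [← mul_assoc, ← mul_assoc, hE, ← hz.eq, mul_assoc, hE]
    rw [mul_assoc (E * y), h5]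
    simp only [mul_assoc]
  have h6 : E * y * E * (1 - E) = 0 := by rw [mul_assoc, h1, mul_zero]
  have h7 : (1 - E) * (E * z * E) = 0 := by rw [← mul_assoc, ← mul_assoc, h2, zero_mul, zero_mul]
  rw [dl, dl, dl, ← det_mul, add_mul, mul_add, mul_add, h4, h6, h7, h3, add_zero, zero_add]

theorem dl_one {E : Matrix n n F} (hE : E * E = E) : dl E 1 = 1 := by
  rw [dl, mul_one, hE, add_sub_cancel, det_one]

namespace Sys

variable (S : Sys n)

/-- A grading whose degree operator lies in the Lie algebra. -/
structure Gr (e : I → Matrix n n F) (k : I → ℤ) : Prop where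
  dec : IsDec e
  inj : Function.Injective k
  mem : ∑ i, (k i : F) • e i ∈ S.lie F

/-- A grading with the largest number of nonzero summands. -/
structure MaxG (e : I → Matrix n n F) (k : I → ℤ) : Prop extends S.Gr e k where
  ne : ∀ i, e i ≠ 0
  max : ∀ (m : ℕ) (e' : Fin m → Matrix n n F) (k' : Fin m → ℤ), S.Gr e' k' → (∀ i, e' i ≠ 0) →
    m ≤ Fintype.card I

/-- The elements which raise the degree. -/
def Up (e : I → Matrix n n F) (k : I → ℤ) : Set (S.mon F) :=
  {g | ∀ i j, k i ≤ k j → e i * ((g : Matrix n n F) - 1) * e j = 0}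

variable [CharZero F]

/-- The centraliser of the idempotents. -/
noncomputable def Zc (e : I → Matrix n n F) : Subgroup (S.mon F) where
  carrier := {g | ∀ i, Commute (g : Matrix n n F) (e i)}
  one_mem' := fun _ => Commute.one_left _
  mul_mem' := fun hg hh i => (hg i).mul_left (hh i)
  inv_mem' := fun {g} hg i => by
    have h1 : ((g⁻¹ : S.mon F) : Matrix n n F) * e i =
        ((g⁻¹ : S.mon F) : Matrix n n F) * (e i * g) * ((g⁻¹ : S.mon F) : Matrix n n F) := by
      rw [mul_assoc, mul_assoc, coe_mul_inv, mul_one]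
    rw [← (hg i).eq, ← mul_assoc, coe_inv_mul, one_mul] at h1
    exact h1

omit [Fintype I] in
variable {S} in
theorem mem_Zc {e : I → Matrix n n F} {g : S.mon F} :
    g ∈ S.Zc e ↔ ∀ i, Commute (g : Matrix n n F) (e i) := Iff.rfl

/-- The subgroup generated by the raising and the lowering elements. -/
noncomputable def Pl (e : I → Matrix n n F) (k : I → ℤ) : Subgroup (S.mon F) :=
  Subgroup.closure (S.Up e k ∪ S.Up e (-k))

end Sys

namespace Sys

variable (S : Sys n) {F : Type} [NormedField F] [CharZero F]

/-- The elements of the centraliser whose determinants on the summands have absolute value one. -/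
noncomputable def Z0 {e : I → Matrix n n F} (he : IsDec e) : Subgroup (S.mon F) where
  carrier := {g | g ∈ S.Zc e ∧ ∀ i, ‖dl (e i) (g : Matrix n n F)‖ = 1}
  one_mem' := ⟨one_mem _, fun i => by rw [OneMemClass.coe_one, dl_one (he.idem i), norm_one]⟩
  mul_mem' := fun {g h} hg hh => ⟨mul_mem hg.1 hh.1, fun i => by
    rw [Submonoid.coe_mul, dl_mul (he.idem i) (hh.1 i), norm_mul, hg.2 i, hh.2 i, mul_one]⟩
  inv_mem' := fun {g} hg => ⟨inv_mem hg.1, fun i => by
    have h := dl_mul (y := ((g⁻¹ : S.mon F) : Matrix n n F)) (he.idem i) (hg.1 i)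
    rw [coe_inv_mul, dl_one (he.idem i)] at h
    have h2 := congrArg norm h
    rw [norm_one, norm_mul, hg.2 i, mul_one] at h2
    exact h2.symm⟩

variable {S} in
theorem mem_Z0 {e : I → Matrix n n F} {he : IsDec e} {g : S.mon F} :
    g ∈ S.Z0 he ↔ g ∈ S.Zc e ∧ ∀ i, ‖dl (e i) (g : Matrix n n F)‖ = 1 := Iff.rfl

end Sys

end Vale.Agent.P011Z
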