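import Vale.Agent.P011Z.D1
import Vale.Agent.P011Z.LT.Half

/-!
Open normal subgroups have finite index.
-/

open Matrix Topology

namespace Vale.Agent.P011Z

namespace LT

variable {n : Type} [Fintype n] [DecidableEq n] {S : Sys n} {I : Type} [Fintype I] {k : I → ℤ}

theorem log_norm {p : ℕ} [Fact p.Prime] {x : ℚ_[p]} (hx : x ≠ 0) :
    Real.log ‖x‖ = -(x.valuation : ℝ) * Real.log p := by
  rw [Padic.norm_eq_zpow_neg_valuation hx, Real.log_zpow, Int.cast_neg]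

theorem log_ne (p : ℕ) [hp : Fact p.Prime] : Real.log p ≠ 0 :=
  (Real.log_pos (by exact_mod_cast hp.out.one_lt)).ne'

omit [DecidableEq n] in
theorem rank_ne {F : Type} [Field F] {A : Matrix n n F} (h : A ≠ 0) : A.rank ≠ 0 := by
  classical
  intro h0
  rw [Matrix.rank, Submodule.finrank_eq_zero, LinearMap.range_eq_bot] at h0
  refine h (Matrix.toLin'.injective ?_)
  rw [map_zero]
  exact h0

/-- The valuations of the determinants on the summands. -/
noncomputable def val {p : ℕ} [Fact p.Prime] {e : I → Matrix n n ℚ_[p]} (he : IsDec e) :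
    S.Zc e →* Multiplicative (I → ℤ) where
  toFun z := Multiplicative.ofAdd fun i =>
    (dl (e i) ((z : S.mon ℚ_[p]) : Matrix n n ℚ_[p])).valuation
  map_one' := by
    rw [← ofAdd_zero]
    congr 1
    funext i
    rw [OneMemClass.coe_one, OneMemClass.coe_one, dl_one (he.idem i), Padic.valuation_one,
      Pi.zero_apply]
  map_mul' y z := by
    rw [← ofAdd_add]
    congr 1
    funext i
    rw [Subgroup.coe_mul, Submonoid.coe_mul, dl_mul (he.idem i) (z.2 i),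
      Padic.valuation_mul (dl_ne he y.2 i) (dl_ne he z.2 i), Pi.add_apply]

theorem val_apply {p : ℕ} [Fact p.Prime] {e : I → Matrix n n ℚ_[p]} (he : IsDec e) (z : S.Zc e)
    (i : I) : (val he z).toAdd i = (dl (e i) ((z : S.mon ℚ_[p]) : Matrix n n ℚ_[p])).valuation :=
  rfl

variable (S) in
/-- The rational weights which give elements of the Lie algebra. -/
def wts {F : Type} [Field F] (e : I → Matrix n n F) : Submodule ℚ (I → ℚ) where
  carrier := {c | ∀ (a : ℕ) (j : Fin a → I), S.Rel e j → ∑ r, c (j r) = 0}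
  zero_mem' := fun a j _ => by simp
  add_mem' := fun {c d} hc hd a j hj => by
    simp only [Pi.add_apply, Finset.sum_add_distrib, hc a j hj, hd a j hj, add_zero]
  smul_mem' := fun t c hc a j hj => by
    simp only [Pi.smul_apply, smul_eq_mul, ← Finset.mul_sum, hc a j hj, mul_zero]

theorem eq_of_orth {C W : Submodule ℚ (I → ℚ)} (hW : W ≤ C) (r : I → ℚ)
    (h : ∀ c ∈ C, (∀ x ∈ W, ∑ i, c i * (x i * r i) = 0) → c = 0) : W = C := by
  let B : (I → ℚ) →ₗ[ℚ] (I → ℚ) →ₗ[ℚ] ℚ := LinearMap.mk₂ ℚ (fun c x => ∑ i, c i * (x i * r i))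
    (fun c d x => by simp only [Pi.add_apply, add_mul, Finset.sum_add_distrib])
    (fun t c x => by simp only [Pi.smul_apply, smul_eq_mul, Finset.mul_sum, mul_assoc])
    (fun c x y => by simp only [Pi.add_apply, add_mul, mul_add, Finset.sum_add_distrib])
    (fun t c x => by
      simp only [Pi.smul_apply, smul_eq_mul, Finset.mul_sum]
      exact Finset.sum_congr rfl fun i _ => by ring)
  have h1 : Function.Injective (B.domRestrict₁₂ C W) := by
    rw [injective_iff_map_eq_zero]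
    intro c hc
    exact Subtype.ext (h c c.2 fun x hx => LinearMap.congr_fun hc ⟨x, hx⟩)
  have h2 := LinearMap.finrank_le_finrank_of_injective h1
  have h3 : Module.finrank ℚ (W →ₗ[ℚ] ℚ) = Module.finrank ℚ W := Subspace.dual_finrank_eq
  exact Submodule.eq_of_le_of_finrank_le hW (h3 ▸ h2)

theorem finiteIndex_of {F : Type} [NormedField F] [CharZero F] {e : I → Matrix n n F}
    (h : S.Gr e k) {M : Subgroup (S.mon F)} (hP : S.Pl e k ≤ M) (h1 : M.relIndex (S.Z0 h.dec) ≠ 0)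
    (h2 : ((M ⊓ S.Zc e) ⊔ S.Z0 h.dec).relIndex (S.Zc e) ≠ 0) : M.FiniteIndex := by
  have h3 : S.Zc e ≤ Subgroup.normalizer (S.Z0 h.dec : Set (S.mon F)) := by
    have a1 : ∀ z ∈ S.Zc e, ∀ g ∈ S.Z0 h.dec, z * g * z⁻¹ ∈ S.Z0 h.dec := by
      intro z hz g hg
      refine ⟨mul_mem (mul_mem hz hg.1) (inv_mem hz), fun i => ?_⟩
      have a2 := dl_mul (y := (z : Matrix n n F)) (h.dec.idem i) (inv_mem hz i)
      rw [Sys.coe_mul_inv, dl_one (h.dec.idem i)] at a2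
      rw [Submonoid.coe_mul, Submonoid.coe_mul, dl_mul (h.dec.idem i) (inv_mem hz i),
        dl_mul (h.dec.idem i) (hg.1 i), mul_right_comm, ← a2, one_mul, hg.2 i]
    intro z hz
    rw [Subgroup.mem_normalizer_iff]
    refine fun g => ⟨a1 z hz g, fun hg => ?_⟩
    have a3 := a1 z⁻¹ (inv_mem hz) _ hg
    rwa [show z⁻¹ * (z * g * z⁻¹) * z⁻¹⁻¹ = g by group] at a3
  have h4 := relIndex_sup (M := M) inf_le_left (Or.inr (inf_le_right.trans h3)) h1
  have h5 := relIndex_sup hP (Or.inl h.Zc_le_normalizer) (Subgroup.relIndex_ne_zero_trans h4 h2)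
  have h6 := h.finiteIndex.index_ne_zero
  rw [← Subgroup.relIndex_top_right] at h6
  have h7 := Subgroup.relIndex_ne_zero_trans h5 h6
  rw [Subgroup.relIndex_top_right] at h7
  exact ⟨h7⟩

theorem finiteIndex_prod {G₀ ι : Type} [Group G₀] [TopologicalSpace G₀] [Fintype ι] {G : ι → Type}
    [∀ q, Group (G q)] [∀ q, TopologicalSpace (G q)]
    (a0 : ∀ B M : Subgroup G₀, B.FiniteIndex → (M : Set G₀) ∈ 𝓝 1 →
      (∀ b ∈ B, ∀ x ∈ M, b * x * b⁻¹ ∈ M) → M.FiniteIndex)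
    (a1 : ∀ (q : ι) (B M : Subgroup (G q)), B.FiniteIndex → (M : Set (G q)) ∈ 𝓝 1 →
      (∀ b ∈ B, ∀ x ∈ M, b * x * b⁻¹ ∈ M) → M.FiniteIndex)
    {B M : Subgroup (G₀ × ∀ q, G q)} [B.FiniteIndex] (hM : (M : Set (G₀ × ∀ q, G q)) ∈ 𝓝 1)
    (hn : ∀ b ∈ B, ∀ x ∈ M, b * x * b⁻¹ ∈ M) : M.FiniteIndex := by
  classical
  have key : ∀ {H : Type} [Group H] [TopologicalSpace H] (f : H →* G₀ × ∀ q, G q), Continuous f →
      (M.comap f : Set H) ∈ 𝓝 1 ∧ ∀ b ∈ B.comap f, ∀ x ∈ M.comap f, b * x * b⁻¹ ∈ M.comap f := by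
    intro H _ _ f hf
    refine ⟨hf.continuousAt.preimage_mem_nhds (by rwa [map_one]), fun b hb x hx => ?_⟩
    rw [Subgroup.mem_comap, map_mul, map_mul, map_inv]
    exact hn _ hb _ hx
  let f₀ : G₀ →* G₀ × ∀ q, G q := MonoidHom.inl _ _
  let f₁ : (∀ q, G q) →* G₀ × ∀ q, G q := MonoidHom.inr _ _
  let f : (q : ι) → G q →* G₀ × ∀ q, G q := fun q => f₁.comp (MonoidHom.mulSingle G q)
  have h0 : (M.comap f₀).FiniteIndex := by
    obtain ⟨h1, h2⟩ := key f₀ (Continuous.prodMk_left 1)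
    exact a0 _ _ (finiteIndex_comap f₀ B) h1 h2
  have h1 : ∀ q, (M.comap (f q)).FiniteIndex := by
    intro q
    obtain ⟨h1, h2⟩ := key (f q) ((Continuous.prodMk_right 1).comp (continuous_mulSingle q))
    exact a1 q _ _ (finiteIndex_comap (f q) B) h1 h2
  have h2 : ((M.comap f₀).prod
      (⨅ q, (M.comap (f q)).comap (Pi.evalMonoidHom G q))).FiniteIndex := by
    refine ⟨?_⟩
    rw [Subgroup.index_prod]
    exact mul_ne_zero h0.index_ne_zero (Subgroup.index_iInf_ne_zero fun q =>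
      (@finiteIndex_comap _ _ _ _ (Pi.evalMonoidHom G q) _ (h1 q)).index_ne_zero)
  refine Subgroup.finiteIndex_of_le (H := (M.comap f₀).prod
    (⨅ q, (M.comap (f q)).comap (Pi.evalMonoidHom G q))) ?_
  rintro ⟨x, y⟩ ⟨hx, hy⟩
  have h3 : y ∈ M.comap f₁ :=
    Subgroup.pi_mem_of_mulSingle_mem y fun q => Subgroup.mem_iInf.1 hy q
  have h4 : (x, y) = f₀ x * f₁ y := by simp [f₀, f₁]
  rw [h4]
  exact mul_mem hx h3

end LT

namespace Sys

variable {n : Type} [Fintype n] [DecidableEq n] {S : Sys n}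

theorem MaxG.d2_padic {I : Type} [Fintype I] {k : I → ℤ} {p : ℕ} [Fact p.Prime]
    {e : I → Matrix n n ℚ_[p]} (h : S.MaxG e k) (hT : S.TrNd ℚ_[p]) (hC : S.NoCen ℚ_[p])
    {M : Subgroup (S.mon ℚ_[p])} (hM : ∀ k', S.Gr e k' → S.Pl e k' ≤ M) :
    ((M ⊓ S.Zc e) ⊔ S.Z0 h.dec).relIndex (S.Zc e) ≠ 0 := by
  have hr : ∀ i, ((e i).rank : ℚ) ≠ 0 := fun i => Nat.cast_ne_zero.2 (LT.rank_ne (h.ne i))
  let w : S.Zc e → I → ℚ := fun z i => ((LT.val h.dec z).toAdd i : ℚ) / (e i).rank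
  have hlog : ∀ (z : S.Zc e) i, Real.log ‖dl (e i) ((z : S.mon ℚ_[p]) : Matrix n n ℚ_[p])‖ =
      -((LT.val h.dec z).toAdd i : ℝ) * Real.log p :=
    fun z i => LT.log_norm (LT.dl_ne h.dec z.2 i)
  have hw : ∀ z, w z ∈ LT.wts S e := by
    intro z a j hj
    have h1 := h.rel_log (PadicAlgCl p) (iso_padic p) z.2 hj
    have h2 : ((∑ r, w z (j r) : ℚ) : ℝ) * -Real.log p = 0 := by
      rw [← h1, Rat.cast_sum, Finset.sum_mul]
      refine Finset.sum_congr rfl fun r _ => ?_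
      rw [hlog]
      simp only [w, Rat.cast_div, Rat.cast_intCast, Rat.cast_natCast]
      ring
    exact_mod_cast (mul_eq_zero.1 h2).resolve_right (neg_ne_zero.2 (LT.log_ne p))
  have hW : Submodule.span ℚ (w '' {z | (z : S.mon ℚ_[p]) ∈ M}) = LT.wts S e := by
    refine LT.eq_of_orth (Submodule.span_le.2 ?_) (fun i => (e i).rank) fun c hc h0 => ?_
    · rintro _ ⟨z, -, rfl⟩
      exact hw z
    obtain ⟨N, hN, c', hc'⟩ := LT.exists_int c
    have h1 : c' = 0 := by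
      refine LT.key h hT hC hM (h.dec.sum_mem_lie _ fun j hj => ?_) fun z hz1 hz2 => ?_
      · have h2 : ((∑ r, c' (j r) : ℤ) : ℚ) = 0 := by
          rw [Int.cast_sum]
          simp only [hc', ← Finset.mul_sum, hc _ j hj, mul_zero]
        rw [← Int.cast_sum, Int.cast_eq_zero.1 h2, Int.cast_zero]
      · have h2 := h0 _ (Submodule.subset_span ⟨⟨z, hz2⟩, hz1, rfl⟩)
        have h3 : ((∑ i, c' i * (LT.val h.dec ⟨z, hz2⟩).toAdd i : ℤ) : ℚ) = 0 := by
          rw [Int.cast_sum, ← mul_zero (N : ℚ), ← h2, Finset.mul_sum]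
          refine Finset.sum_congr rfl fun i _ => ?_
          rw [Int.cast_mul, hc', div_mul_cancel₀ _ (hr i), mul_assoc]
        have h4 := congrArg (fun x : ℤ => (x : ℝ) * -Real.log p) (Int.cast_eq_zero.1 h3)
        simp only [Int.cast_zero, zero_mul, Int.cast_sum, Finset.sum_mul, Int.cast_mul] at h4
        rw [← h4]
        refine Finset.sum_congr rfl fun i _ => ?_
        rw [hlog ⟨z, hz2⟩]
        ring
    funext i
    have h2 := hc' i
    rw [h1, Pi.zero_apply, Int.cast_zero] at h2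
    exact (mul_eq_zero.1 h2.symm).resolve_left (Int.cast_ne_zero.2 hN)
  have hspan : ∀ y ∈ Submodule.span ℚ (w '' {z | (z : S.mon ℚ_[p]) ∈ M}), ∃ N : ℤ, N ≠ 0 ∧
      ∃ x : S.Zc e, (x : S.mon ℚ_[p]) ∈ M ∧
        ∀ i, (N : ℚ) * (y i * (e i).rank) = (LT.val h.dec x).toAdd i := by
    intro y hy
    induction hy using Submodule.span_induction with
    | mem y hy =>
      obtain ⟨z, hz, rfl⟩ := hy
      exact ⟨1, one_ne_zero, z, hz, fun i => by rw [div_mul_cancel₀ _ (hr i), Int.cast_one, one_mul]⟩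
    | zero => exact ⟨1, one_ne_zero, 1, one_mem _, fun i => by simp⟩
    | add y y' _ _ hy hy' =>
      obtain ⟨N, hN, x, hx, h1⟩ := hy
      obtain ⟨N', hN', x', hx', h1'⟩ := hy'
      refine ⟨N * N', mul_ne_zero hN hN', x ^ N' * x' ^ N,
        mul_mem (zpow_mem hx N') (zpow_mem hx' N), fun i => ?_⟩
      rw [map_mul, map_zpow, map_zpow, toAdd_mul, toAdd_zpow, toAdd_zpow, Pi.add_apply,
        Pi.add_apply, Pi.smul_apply, Pi.smul_apply, smul_eq_mul, smul_eq_mul]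
      push_cast
      rw [← h1, ← h1']
      ring
    | smul t y _ hy =>
      obtain ⟨N, hN, x, hx, h1⟩ := hy
      refine ⟨N * t.den, mul_ne_zero hN (Int.natCast_ne_zero.2 t.den_nz), x ^ t.num,
        zpow_mem hx _, fun i => ?_⟩
      rw [map_zpow, toAdd_zpow, Pi.smul_apply, Pi.smul_apply, smul_eq_mul, smul_eq_mul]
      push_cast
      rw [← h1, ← Rat.mul_den_eq_num t]
      ring
  refine LT.index_ne_zero (LT.val h.dec) _ (fun z hz => ?_) fun z => ?_
  · refine Subgroup.mem_subgroupOf.2 (Subgroup.mem_sup_right ⟨z.2, fun i => ?_⟩)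
    have h1 : (LT.val h.dec z).toAdd i = 0 := by rw [MonoidHom.mem_ker.1 hz]; rfl
    rw [Padic.norm_eq_zpow_neg_valuation (LT.dl_ne h.dec z.2 i), ← LT.val_apply h.dec z i, h1,
      neg_zero, zpow_zero]
  · obtain ⟨N, hN, x, hx, h1⟩ := hspan (w z) (hW ▸ hw z)
    refine ⟨N, hN, x, Subgroup.mem_subgroupOf.2 (Subgroup.mem_sup_left ⟨hx, x.2⟩), ?_⟩
    refine Multiplicative.toAdd.injective (funext fun i => ?_)
    have h2 := h1 i
    rw [div_mul_cancel₀ _ (hr i)] at h2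
    rw [toAdd_zpow, Pi.smul_apply, smul_eq_mul]
    exact_mod_cast h2

theorem lt_real (hT : S.TrNd ℝ) {B M : Subgroup (S.mon ℝ)} [B.FiniteIndex]
    (hM : (M : Set (S.mon ℝ)) ∈ 𝓝 1) (hn : ∀ b ∈ B, ∀ x ∈ M, b * x * b⁻¹ ∈ M) :
    M.FiniteIndex := by
  obtain ⟨m, e, k, h⟩ := exists_maxG S ℝ
  refine LT.finiteIndex_of h.toGr (h.toGr.Pl_le hM hn) (h.d1_real hT hM) ?_
  rw [Subgroup.relIndex_eq_one.2 (h.d2_real hM)]
  exact one_ne_zero

theorem lt_padic {p : ℕ} [Fact p.Prime] (hT : S.TrNd ℚ_[p]) (hC : S.NoCen ℚ_[p])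
    {B M : Subgroup (S.mon ℚ_[p])} [B.FiniteIndex] (hM : (M : Set (S.mon ℚ_[p])) ∈ 𝓝 1)
    (hn : ∀ b ∈ B, ∀ x ∈ M, b * x * b⁻¹ ∈ M) : M.FiniteIndex := by
  obtain ⟨m, e, k, h⟩ := exists_maxG S ℚ_[p]
  exact LT.finiteIndex_of h.toGr (h.toGr.Pl_le hM hn) (h.d1_padic hT hM)
    (h.d2_padic hT hC fun k' hk => hk.Pl_le hM hn)

theorem lt_GT (hT : S.TrNd ℚ) (hC : S.NoCen ℚ) {T : Finset Nat.Primes} {B M : Subgroup (S.GT T)}
    [B.FiniteIndex] (hM : (M : Set (S.GT T)) ∈ 𝓝 1) (hn : ∀ b ∈ B, ∀ x ∈ M, b * x * b⁻¹ ∈ M) :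
    M.FiniteIndex :=
  LT.finiteIndex_prod (fun _ _ hB h1 h2 => @lt_real _ _ _ _ (trNd_map (Rat.castHom ℝ) hT)
    _ _ hB h1 h2) (fun _ _ _ hB h1 h2 => @lt_padic _ _ _ _ _ _ (trNd_map (Rat.castHom _) hT)
    (noCen_map (Rat.castHom _) hC) _ _ hB h1 h2) hM hn

end Sys

end Vale.Agent.P011Z
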