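import Vale.Agent.P011Z.Defs
import Vale.Agent.P011Z.TLem.Hilb

/-!
Property (T) relative to the subgroup generated by the contracted elements.
-/

open Topology Matrix
open scoped InnerProductSpace

namespace Vale.Agent.P011Z

namespace TL

section el

variable {F : Type} [Field F] {i j k l : Fin 3}

theorem el_add (h : i ≠ j) (s t : F) : el3 i j h (s + t) = el3 i j h s * el3 i j h t :=
  Subtype.ext (transvection_mul_transvection_same i j h s t).symm

theorem el_zero (h : i ≠ j) : el3 i j h (0 : F) = 1 := Subtype.ext (transvection_zero i j)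

theorem el_neg (h : i ≠ j) (t : F) : el3 i j h (-t) = (el3 i j h t)⁻¹ :=
  eq_inv_of_mul_eq_one_left (by rw [← el_add, neg_add_cancel, el_zero])

theorem el_comm (h : i ≠ j) (h' : k ≠ l) (h1 : j ≠ k) (h2 : l ≠ i) (s t : F) :
    el3 i j h s * el3 k l h' t = el3 k l h' t * el3 i j h s := by
  refine Subtype.ext ?_
  change (1 + single i j s) * (1 + single k l t) = (1 + single k l t) * (1 + single i j s)
  simp only [mul_add, add_mul, Matrix.mul_one,
    Matrix.one_mul, single_mul_single_of_ne _ _ _ _ h1, single_mul_single_of_ne _ _ _ _ h2]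
  abel

theorem el_rel (h1 : i ≠ j) (h2 : j ≠ k) (h3 : i ≠ k) (s t : F) :
    el3 i j h1 s * el3 j k h2 t = el3 j k h2 t * el3 i k h3 (s * t) * el3 i j h1 s := by
  refine Subtype.ext ?_
  change (1 + single i j s) * (1 + single j k t) =
    (1 + single j k t) * (1 + single i k (s * t)) * (1 + single i j s)
  simp only [mul_add, add_mul, Matrix.mul_one,
    Matrix.one_mul, single_mul_single_of_ne _ _ _ _ h3.symm, single_mul_single_same,
    Matrix.zero_mul]
  abel

theorem el_rel' (h1 : i ≠ j) (h2 : j ≠ k) (h3 : i ≠ k) (s t : F) :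
    el3 j k h2 s * el3 i j h1 t = el3 i j h1 t * el3 i k h3 (-(s * t)) * el3 j k h2 s := by
  rw [mul_assoc, el_comm h3 h2 h2.symm h3.symm, ← mul_assoc, el_rel h1 h2 h3, mul_assoc, mul_assoc,
    el_comm h1 h3 h1.symm h3.symm, ← mul_assoc (el3 i k h3 _), ← el_add, mul_comm t s,
    add_neg_cancel, el_zero, one_mul]

theorem dg3_eq {w : F} (hw : w ≠ 0) : dg3 w hw =
    el3 0 2 (by decide) w * el3 2 0 (by decide) (w⁻¹ * -1) * el3 0 2 (by decide) w *
      (el3 0 2 (by decide) (-1) * el3 2 0 (by decide) (w⁻¹ * w) * el3 0 2 (by decide) (-1)) := by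
  refine Subtype.ext ?_
  rw [inv_mul_cancel₀ hw]
  change diagonal ![w, 1, w⁻¹] = transvection 0 2 w * transvection 2 0 (w⁻¹ * -1) *
    transvection 0 2 w * (transvection 0 2 (-1) * transvection 2 0 1 * transvection 0 2 (-1))
  ext a b
  fin_cases a <;> fin_cases b <;>
    simp [transvection, Matrix.mul_apply, Fin.sum_univ_three, single_apply, Matrix.one_apply, hw]

end el

variable {H : Type} [NormedAddCommGroup H] [InnerProductSpace ℝ H]

section heis

variable {F : Type} [Field F] (O : Subring F) (σ : SpecialLinearGroup (Fin 3) F →* (H ≃ₗᵢ[ℝ] H))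
  {i j k : Fin 3}

/-- the root groups -/
def rt (h : i ≠ j) (c : F) (t : O) : H ≃ₗᵢ[ℝ] H := σ (el3 i j h (c * t))

theorem rt_add (h : i ≠ j) (c : F) (s t : O) :
    rt O σ h c (s + t) = rt O σ h c s * rt O σ h c t := by
  simp only [rt, Subring.coe_add, mul_add, el_add, map_mul]

theorem rt_neg (h : i ≠ j) (c : F) (t : O) : rt O σ h c (-t) = (rt O σ h c t)⁻¹ := by
  simp only [rt, Subring.coe_neg, mul_neg, el_neg, map_inv]

theorem rt_sub (h : i ≠ j) (c : F) (s t : O) :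
    rt O σ h c (s - t) = (rt O σ h c t)⁻¹ * rt O σ h c s := by
  rw [sub_eq_neg_add, rt_add, rt_neg]

theorem heis1 (h1 : i ≠ j) (h2 : j ≠ k) (h3 : i ≠ k) (c : F) :
    Heis (rt O σ h1 c) (rt O σ h2 1) (rt O σ h3 (-c)) where
  x_neg := rt_neg O σ _ _
  y_sub := rt_sub O σ _ _
  y_neg := rt_neg O σ _ _
  z_add := rt_add O σ _ _
  z_neg := rt_neg O σ _ _
  zx := fun s t => by simp only [rt, ← map_mul, el_comm h3 h1 h3.symm h1.symm]
  zy := fun s t => by simp only [rt, ← map_mul, el_comm h3 h2 h2.symm h3.symm]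
  rel := fun a t => by
    simp only [rt, ← map_mul]
    rw [el_rel' h1 h2 h3]
    congr 4
    push_cast
    ring

theorem heis2 (h1 : i ≠ j) (h2 : j ≠ k) (h3 : i ≠ k) (c : F) :
    Heis (rt O σ h2 c) (rt O σ h1 1) (rt O σ h3 c) where
  x_neg := rt_neg O σ _ _
  y_sub := rt_sub O σ _ _
  y_neg := rt_neg O σ _ _
  z_add := rt_add O σ _ _
  z_neg := rt_neg O σ _ _
  zx := fun s t => by simp only [rt, ← map_mul, el_comm h3 h2 h2.symm h3.symm]
  zy := fun s t => by simp only [rt, ← map_mul, el_comm h3 h1 h3.symm h1.symm]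
  rel := fun a t => by
    simp only [rt, ← map_mul]
    rw [el_rel h1 h2 h3]
    congr 4
    push_cast
    ring

end heis

variable {B : Type} [Group B]

/-- The stabiliser of a vector. -/
def stab (π : B →* (H ≃ₗᵢ[ℝ] H)) (ξ : H) : Subgroup B where
  carrier := {g | π g ξ = ξ}
  one_mem' := by simp
  mul_mem' := fun {a b} ha hb => by
    have ha' : π a ξ = ξ := ha
    have hb' : π b ξ = ξ := hb
    simp [ha', hb']
  inv_mem' := fun {a} ha => by
    have ha' : π a ξ = ξ := ha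
    change π a⁻¹ ξ = ξ
    rw [map_inv]
    nth_rewrite 1 [← ha']
    exact (π a).symm_apply_apply ξ

theorem mem_stab {π : B →* (H ≃ₗᵢ[ℝ] H)} {ξ : H} {g : B} : g ∈ stab π ξ ↔ π g ξ = ξ := Iff.rfl

variable [TopologicalSpace B]

/-- The vectors whose orbit map is continuous at one. -/
def cts (π : B →* (H ≃ₗᵢ[ℝ] H)) : Submodule ℝ H where
  carrier := {y | Filter.Tendsto (fun g => π g y) (𝓝 1) (𝓝 y)}
  zero_mem' := by simp
  add_mem' := fun {a b} ha hb => by simpa using Filter.Tendsto.add ha hb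
  smul_mem' := fun c a ha => by simpa using Filter.Tendsto.const_smul ha c

theorem isClosed_cts (π : B →* (H ≃ₗᵢ[ℝ] H)) : IsClosed (cts π : Set H) := by
  refine isClosed_of_closure_subset fun y hy => Metric.tendsto_nhds.2 fun ε hε => ?_
  obtain ⟨z, hz, hyz⟩ := Metric.mem_closure_iff.1 hy (ε / 3) (by positivity)
  filter_upwards [Metric.tendsto_nhds.1 hz (ε / 3) (by positivity)] with g hg
  have h1 := dist_triangle4 (π g y) (π g z) z y
  rw [(π g).dist_map, dist_comm z y] at h1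
  linarith

theorem cts_inv [IsTopologicalGroup B] (π : B →* (H ≃ₗᵢ[ℝ] H)) (h : B) {y : H} (hy : y ∈ cts π) :
    π h y ∈ cts π := by
  have h1 : Filter.Tendsto (fun g : B => h⁻¹ * g * h) (𝓝 1) (𝓝 1) := by
    have : Continuous fun g : B => h⁻¹ * g * h := by fun_prop
    simpa using this.tendsto 1
  have h2 := ((π h).continuous.tendsto y).comp (Filter.Tendsto.comp hy h1)
  refine Filter.Tendsto.congr (fun g => ?_) h2
  simp

theorem mautner {π : B →* (H ≃ₗᵢ[ℝ] H)} {ξ : H} (hξ : ξ ∈ cts π) {s : ℕ → B} {u : B}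
    (hs : ∀ m, s m ∈ stab π ξ)
    (hu : Filter.Tendsto (fun m => s m * u * (s m)⁻¹) Filter.atTop (𝓝 1)) : u ∈ stab π ξ := by
  have h1 := (Filter.Tendsto.comp hξ hu).dist (tendsto_const_nhds (x := ξ))
  have h2 : ∀ m, dist (π (s m * u * (s m)⁻¹) ξ) ξ = dist (π u ξ) ξ := fun m => by
    have e1 : π (s m)⁻¹ ξ = ξ := (stab π ξ).inv_mem (hs m)
    have e2 : π (s m) ξ = ξ := hs m
    rw [map_mul, map_mul, LinearIsometryEquiv.coe_mul, Function.comp_apply, e1,
      LinearIsometryEquiv.coe_mul, Function.comp_apply]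
    nth_rewrite 2 [← e2]
    rw [(π (s m)).dist_map]
  simp only [Function.comp_apply, h2, dist_self] at h1
  exact dist_eq_zero.1 (tendsto_const_nhds_iff.1 h1)

end TL

theorem HasT.mono {B : Type} [Group B] [TopologicalSpace B] {G₁ G₂ : Subgroup B} (h : HasT G₁)
    (hle : G₂ ≤ G₁) : HasT G₂ := by
  obtain ⟨C, hC, δ, hδ, h⟩ := h
  refine ⟨C, hC, δ, hδ, fun H _ _ _ π v hv hπ => ?_⟩
  obtain ⟨ξ, h0, hξ⟩ := h H π v hv hπ
  exact ⟨ξ, h0, fun g hg => hξ g (hle hg)⟩

open TL in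
theorem hasT_of_sl3 {F : Type} [Field F] (O : Subring F) {w : F} (hw : w ≠ 0)
    (_hF : ∀ x : F, ∃ j : ℕ, w ^ j * x ∈ O) (a : Fin 5 → O)
    (ha : ∀ i j, i ≠ j → IsUnit (a i - a j)) {B : Type} [Group B] [TopologicalSpace B]
    [IsTopologicalGroup B] (ρ : SpecialLinearGroup (Fin 3) F →* B) (K : Subgroup B)
    (hKc : IsCompact (K : Set B)) (hKo : IsOpen (K : Set B)) {C : Set B} (hC : IsCompact C)
    (h01 : ∀ t ∈ O, ρ (el3 0 1 (by decide) t) ∈ C) (h12 : ∀ t ∈ O, ρ (el3 1 2 (by decide) t) ∈ C)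
    (h20 : ∀ t ∈ O, ρ (el3 2 0 (by decide) (w⁻¹ * t)) ∈ C) (hwO : w ∈ O) :
    HasT (plus (ρ (dg3 w hw))) := by
  refine ⟨C ∪ K, hC.union hKc, 1 / 20, by norm_num, fun H _ _ _ π v hv hπ => ?_⟩
  set σ := π.comp ρ with hσ
  have d01 : (0 : Fin 3) ≠ 1 := by decide
  have d12 : (1 : Fin 3) ≠ 2 := by decide
  have d20 : (2 : Fin 3) ≠ 0 := by decide
  obtain ⟨y, y1, y2, y3, hy⟩ := triple (isClosed_Fx (rt O σ d01 1)) (isClosed_Fx (rt O σ d12 1))
    (isClosed_Fx (rt O σ d20 w⁻¹))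
    (fun _ hu _ hw' ho => (heis1 O σ d01 d12 d20.symm 1).angle a ha hu hw' ho)
    (fun _ hu _ hw' ho => (heis2 O σ d12 d20 d01.symm w⁻¹).angle a ha hu hw' ho)
    (fun _ hu _ hw' ho => (heis1 O σ d20 d01 d12.symm w⁻¹).angle a ha hu hw' ho)
    (v := v) (δ := 1 / 20)
    (exists_near (fun s t => ⟨s + t, rt_add O σ _ _ s t⟩) fun t =>
      hπ _ (Or.inl (h01 _ (O.mul_mem O.one_mem t.2))))
    (exists_near (fun s t => ⟨s + t, rt_add O σ _ _ s t⟩) fun t =>
      hπ _ (Or.inl (h12 _ (O.mul_mem O.one_mem t.2))))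
    (exists_near (fun s t => ⟨s + t, rt_add O σ _ _ s t⟩) fun t => hπ _ (Or.inl (h20 _ t.2)))
  have s01 : ∀ t ∈ O, el3 0 1 d01 t ∈ stab σ y := fun t ht => by
    have := y1 ⟨t, ht⟩
    rwa [rt, one_mul] at this
  have s12 : ∀ t ∈ O, el3 1 2 d12 t ∈ stab σ y := fun t ht => by
    have := y2 ⟨t, ht⟩
    rwa [rt, one_mul] at this
  have s20 : ∀ t ∈ O, el3 2 0 d20 (w⁻¹ * t) ∈ stab σ y := fun t ht => y3 ⟨t, ht⟩
  have s02 : ∀ t ∈ O, el3 0 2 d20.symm t ∈ stab σ y := fun t ht => by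
    have h1 := (stab σ y).mul_mem (s01 t ht) (s12 1 O.one_mem)
    rw [el_rel d01 d12 d20.symm, mul_one] at h1
    exact ((stab σ y).mul_mem_cancel_left (s12 1 O.one_mem)).1
      (((stab σ y).mul_mem_cancel_right (s01 t ht)).1 h1)
  have hs : dg3 w hw ∈ stab σ y := by
    rw [dg3_eq]
    have m1 := O.neg_mem O.one_mem
    exact mul_mem (mul_mem (mul_mem (s02 _ hwO) (s20 _ m1)) (s02 _ hwO))
      (mul_mem (mul_mem (s02 _ m1) (s20 _ hwO)) (s02 _ m1))
  obtain ⟨P, hP⟩ := exists_prj (isClosed_cts π)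
  obtain ⟨k, hk, hvk⟩ := exists_near (x := fun g : K => π g)
    (fun s t => ⟨s * t, by simp⟩) (v := v) (δ := 1 / 20) fun g => hπ _ (Or.inr g.2)
  have hkc : k ∈ cts π := by
    refine tendsto_const_nhds.congr' ?_
    filter_upwards [hKo.mem_nhds K.one_mem] with g hg using (hk ⟨g, hg⟩).symm
  have hfix : ρ (dg3 w hw) ∈ stab π (P y) := by
    rw [mem_stab, ← hP.comm _ (fun m hm => cts_inv π _ hm)
      (fun m hm => by rw [← map_inv]; exact cts_inv π _ hm) y]
    exact congrArg P hs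
  refine ⟨P y, fun h0 => ?_, fun g hg => ?_⟩
  · have h1 := hP.dist_le y hkc
    rw [h0, sub_zero] at h1
    have h2 : ‖y - k‖ ≤ ‖v - y‖ + ‖v - k‖ := by
      rw [show y - k = -(v - y) + (v - k) by abel]
      exact (norm_add_le _ _).trans (by rw [norm_neg])
    have h3 : ‖v‖ ≤ ‖v - y‖ + ‖y‖ := by
      simpa using norm_add_le (v - y) y
    linarith
  · refine (Subgroup.closure_le (stab π (P y))).2 ?_ hg
    rintro u (hu | hu)
    · exact mautner (hP.mem y) (fun m => pow_mem hfix m) hu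
    · exact mautner (s := fun m => (ρ (dg3 w hw) ^ m)⁻¹) (hP.mem y)
        (fun m => inv_mem (pow_mem hfix m)) (by simpa only [inv_inv] using hu)

end Vale.Agent.P011Z
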