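import Vale.Agent.P011Z.SA
import Vale.Agent.P011Z.LT
import Vale.Agent.P011Z.Core
import Vale.Agent.P011Z.TLem
import Vale.Agent.P011Z.Main.Cov

/-!
Noncentral normal subgroups have finite index.
-/

open Matrix Topology Filter

namespace Vale.Agent.P011Z

namespace Sys

variable {n : Type} [Fintype n] [DecidableEq n] {S : Sys n}

theorem main (hN : S.NoNil) (hS : S.Stable) (hP : S.Prime) (Λ : Subgroup (S.mon ℚ))
    [Λ.FiniteIndex] (TA : Finset Nat.Primes) (hC : S.Csp Λ TA) (p : Nat.Primes) (hp : p ∉ TA)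
    (h5 : 5 ≤ (p : ℕ)) (ρ : SpecialLinearGroup (Fin 3) ℚ_[(p : ℕ)] →* S.mon ℚ_[(p : ℕ)])
    (hρ : ∀ i j hij, Continuous fun t => ρ (el3 i j hij t))
    (hs : S.Hyp ℚ_[(p : ℕ)] ((p : ℕ) : ℚ_[(p : ℕ)])
      (ρ (dg3 ((p : ℕ) : ℚ_[(p : ℕ)]) (Nat.cast_ne_zero.2 p.2.ne_zero))))
    {N : Subgroup (S.mon ℚ)} (hle : N ≤ Λ) (hn : ∀ g ∈ Λ, ∀ x ∈ N, g * x * g⁻¹ ∈ N)
    (hx : ∃ x ∈ N, ¬ S.Cent ℚ (x : Matrix n n ℚ)) : N.FiniteIndex := by
  have hT := trNd_map (Rat.castHom ℚ_[(p : ℕ)]) (trNd_of_noNil hN)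
  have hw : ((p : ℕ) : ℚ_[(p : ℕ)]) ≠ 0 := Nat.cast_ne_zero.2 p.2.ne_zero
  have h0 : S.lie ℚ ≠ ⊥ := fun h => by
    obtain ⟨x, -, hx⟩ := hx
    refine hx fun X hX => ?_
    rw [h, Submodule.mem_bot] at hX
    rw [hX, Matrix.mul_zero, Matrix.zero_mul]
  have h1 := hasT_padic p h5 ρ hρ
  generalize ρ (dg3 ((p : ℕ) : ℚ_[(p : ℕ)]) _) = s at hs h1
  have h2 := hs.plus_nhds hT hw Padic.norm_p_lt_one
  have := hs.normalizer hw Padic.norm_p_lt_one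
  have : (plus s).FiniteIndex :=
    lt_padic (B := Subgroup.normalizer (plus s : Set (S.mon ℚ_[(p : ℕ)]))) hT
      (noCen_map (Rat.castHom _) (noCen_of_prime hP)) h2
      fun b hb x hx => (Subgroup.mem_normalizer_iff.1 hb x).1 hx
  have h3 : IsOpen ((plus s).normalCore : Set (S.mon ℚ_[(p : ℕ)])) :=
    Subgroup.isOpen_of_isClosed_of_finiteIndex _ (Subgroup.normalCore_isClosed _
      (Subgroup.isClosed_of_isOpen _ (Subgroup.isOpen_of_mem_nhds _ h2)))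
  obtain ⟨K, hK, hK1⟩ := exists_compact_mem_nhds (1 : S.mon ℝ)
  obtain ⟨F, hF, h4⟩ := exists_cover hN hS hP Λ p _ h3 (h1.mono (plus s).normalCore_le) hle hn hx hK
  have := MA.finiteIndex_comap (S.up ℚ_[(p : ℕ)]) (plus s).normalCore
  exact fin_of_cover hN hS hP h0 (Λ ⊓ (plus s).normalCore.comap (S.up ℚ_[(p : ℕ)]))
    (fun Λ' h h' => (hC Λ' (h.trans inf_le_left) h').imp fun ε hε =>
      ⟨hε.1, fun g hg => hε.2 g hg.1⟩) hp hs (fun g hg => hn g hg.1) hK1 hF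
    fun γ hγ h => h4 γ ⟨hγ.1, hγ.2.1⟩ h hγ.2.2

end Sys

end Vale.Agent.P011Z
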