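import Vale.Agent.P011Z.Defs

/-!
Groups of matrices over a number field which preserve finitely many semilinear tensors: the
definitions.
-/

open Matrix

namespace Vale.Agent.P011Z

/-- A tensor which is semilinear in each argument. -/
structure TnF (F m : Type) [Field F] where
  a : ℕ
  σ : Fin a → F →+* F
  t : (Fin a → m) → F

variable {F m : Type} [Field F] [Fintype m] [DecidableEq m]

/-- The value of the tensor. -/
def TnF.ev (t : TnF F m) (x : Fin t.a → m → F) : F :=
  ∑ j : Fin t.a → m, t.t j * ∏ r, t.σ r (x r (j r))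

/-- The multilinear form attached to the tensor and to an embedding. -/
def TnF.evE (t : TnF F m) {Ω : Type} [Field Ω] (τ : F →+* Ω) (x : Fin t.a → m → Ω) : Ω :=
  ∑ j : Fin t.a → m, τ (t.t j) * ∏ r, x r (j r)

/-- A finite system of tensors which contains a nondegenerate sesquilinear form. -/
structure SysF (F m : Type) [Field F] [Fintype m] [DecidableEq m] where
  T : Set (TnF F m)
  fin : T.Finite
  σ : Fin 2 → F →+* F
  B : Matrix m m F
  detB : B.det ≠ 0
  memB : (⟨2, σ, fun j => B (j 0) (j 1)⟩ : TnF F m) ∈ T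

namespace SysF

variable (S : SysF F m)

/-- The matrices which preserve all tensors. -/
def mon : Set (Matrix m m F) :=
  {g | ∀ t ∈ S.T, ∀ x : Fin t.a → m → F, t.ev (fun r => g *ᵥ x r) = t.ev x}

/-- The matrices which annihilate all tensors. -/
def lie : Set (Matrix m m F) :=
  {X | ∀ t ∈ S.T, ∀ x : Fin t.a → m → F, ∑ r, t.ev (Function.update x r (X *ᵥ x r)) = 0}

/-- The span of the image of the Lie algebra under an embedding. -/
def lieE {Ω : Type} [Field Ω] (τ : F →+* Ω) : Submodule Ω (Matrix m m Ω) :=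
  Submodule.span Ω ((fun X : Matrix m m F => X.map τ) '' S.lie)

/-- On every nonzero invariant subspace some tensor of positive degree is nonzero. -/
def Stable : Prop :=
  ∀ W : Submodule F (m → F), W ≠ ⊥ → (∀ X ∈ S.lie, ∀ w ∈ W, X *ᵥ w ∈ W) →
    ∃ t ∈ S.T, 0 < t.a ∧ ∃ x : Fin t.a → m → F, (∀ r, x r ∈ W) ∧ t.ev x ≠ 0

/-- There are no two commuting nonzero ideals after extension of the scalars. -/
def Prime {Ω : Type} [Field Ω] (τ : F →+* Ω) : Prop :=
  ∀ I J : Submodule Ω (Matrix m m Ω), I ≤ S.lieE τ → J ≤ S.lieE τ →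
    (∀ X ∈ S.lieE τ, ∀ Y ∈ I, X * Y - Y * X ∈ I) → (∀ X ∈ S.lieE τ, ∀ Y ∈ J, X * Y - Y * X ∈ J) →
    (∀ X ∈ I, ∀ Y ∈ J, X * Y = Y * X) → I = ⊥ ∨ J = ⊥

/-- A family of representations, one for each embedding, which preserves the tensors. -/
def Pres {Ω G : Type} [Field Ω] (ρ : (F →+* Ω) → G → Matrix m m Ω) : Prop :=
  ∀ t ∈ S.T, ∀ (τ : F →+* Ω) (g : G) (x : Fin t.a → m → Ω),
    t.evE τ (fun r => ρ (τ.comp (t.σ r)) g *ᵥ x r) = t.evE τ x

end SysF

/-- A representation of `SL₃` in which the elementary matrices act continuously and the diagonal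
matrices with the entries `w`, `1`, `w⁻¹` act diagonalisably through powers of `w`. -/
structure Rep3 {Ω : Type} [Field Ω] [TopologicalSpace Ω]
    (ρ : SpecialLinearGroup (Fin 3) Ω →* Matrix m m Ω) : Prop where
  cont : ∀ i j hij, Continuous fun t => ρ (el3 i j hij t)
  diag : ∀ (w : Ω) (hw : w ≠ 0), ∃ K : Finset ℤ, ∀ v : m → Ω, ∃ u : ℤ → m → Ω,
    v = ∑ k ∈ K, u k ∧ ∀ k, ρ (dg3 w hw) *ᵥ u k = w ^ k • u k

end Vale.Agent.P011Z
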