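import Vale.Agent.P011Z.Main
import Vale.Agent.P011Z.SysF
import Vale.Agent.P011Z.Split
import Vale.Agent.P011Z.MainF.Blk
import Vale.Agent.P011Z.MainF.Hyp

/-!
Noncentral normal subgroups have finite index: the version over a number field.
-/

open Matrix Module

namespace Vale.Agent.P011Z

namespace MF

variable {F m L : Type} [Field F] [NumberField F] [Fintype m] [DecidableEq m] [Fintype L]
  [DecidableEq L] {β : Basis L ℚ F} {Ω : Type} [Field Ω] [CharZero Ω] {S : SysF F m}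

/-- The representation in the points over `Ω`. -/
noncomputable def Blk.rep (b : Blk β m Ω) {G : Type} [Group G]
    (ρ : (F →+* Ω) → G →* Matrix m m Ω) (h : S.Pres fun τ g => ρ τ g) : G →* (sys β S).mon Ω where
  toFun g := ⟨b.blk fun τ => ρ τ g, b.blk_mem_mon h g⟩
  map_one' := Subtype.ext (by
    simp only [map_one]
    exact map_one b.blk)
  map_mul' g h := Subtype.ext (by
    simp only [map_mul]
    exact map_mul b.blk (fun τ => ρ τ g) fun τ => ρ τ h)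

theorem Blk.hyp [Finite (F →+* Ω)] (b : Blk β m Ω) {G : Type} [Group G]
    (ρ : (F →+* Ω) → G →* Matrix m m Ω) (h : S.Pres fun τ g => ρ τ g)
    (hP : ∀ τ : F →+* Ω, S.Prime τ) (g : G) {w : Ω} (hw : w ≠ 0)
    (hd : ∀ τ, ∃ K : Finset ℤ, ∀ v : m → Ω, ∃ u : ℤ → m → Ω,
      v = ∑ k ∈ K, u k ∧ ∀ k, ρ τ g *ᵥ u k = w ^ k • u k)
    (hn : ∀ τ, ∃ X ∈ S.lieE τ, ρ τ g * X ≠ X * ρ τ g) : (sys β S).Hyp Ω w (b.rep ρ h g) := by
  classical
  have := Fintype.ofFinite (F →+* Ω)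
  have e1 : ((b.rep ρ h g : (sys β S).mon Ω) : Matrix (m × L) (m × L) Ω) =
      b.blk fun τ => ρ τ g := rfl
  have e2 : (((b.rep ρ h g)⁻¹ : (sys β S).mon Ω) : Matrix (m × L) (m × L) Ω) =
      b.blk fun τ => ρ τ g⁻¹ := by rw [← map_inv]; rfl
  constructor
  · choose K hK using hd
    refine ⟨Finset.univ.biUnion K, fun v => ?_⟩
    choose u h1 h2 using fun τ => hK τ (jm β τ v)
    choose U hU using fun k => b.surj fun τ => if k ∈ K τ then u τ k else 0
    refine ⟨U, inj_of β b.inj₀ fun τ => ?_, fun k => inj_of β b.inj₀ fun τ => ?_⟩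
    · rw [map_sum, h1 τ]
      simp only [hU]
      rw [← Finset.sum_filter]
      refine Finset.sum_congr (Finset.ext fun k => ?_) fun _ _ => rfl
      simp only [Finset.mem_filter, Finset.mem_biUnion, Finset.mem_univ, true_and]
      exact ⟨fun h => ⟨⟨τ, h⟩, h⟩, fun h => h.2⟩
    · rw [e1, b.jm_blk, map_smul, hU]
      split_ifs
      · exact h2 τ k
      · rw [mulVec_zero, smul_zero]
  · intro Y hY H
    obtain ⟨y, rfl, hy⟩ := b.of_mem_lie hY
    have h1 : ∀ z, ((b.rep ρ h g : (sys β S).mon Ω) : Matrix (m × L) (m × L) Ω) * b.blk z *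
        (((b.rep ρ h g)⁻¹ : (sys β S).mon Ω) : Matrix (m × L) (m × L) Ω) =
          b.blk fun τ => ρ τ g * z τ * ρ τ g⁻¹ := fun z => by
      rw [e1, e2, ← map_mul, ← map_mul]
      rfl
    have h2 : y = 0 := funext fun τ => by
      obtain ⟨K, hK⟩ := hd τ
      refine eq_zero_of_prime (s := ρ τ g) (s' := ρ τ g⁻¹) (L := S.lieE τ)
        ⟨K, fun k => w ^ k, fun k => zpow_ne_zero k hw, hK⟩
        (by rw [← map_mul, inv_mul_cancel, map_one]) (fun X hX Y hY => span_br τ (P := S.lieE τ)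
          (fun X hX Y hY => Submodule.subset_span ⟨_, bracket β S hX hY, rfl⟩) hX hY)
        (fun X hX => ?_) (hP τ) (hn τ) (hy τ) fun X hX => ?_
      · obtain ⟨z, hz, rfl⟩ := b.of_mem_lieE hX
        have h3 := Sys.conj_mem (b.rep ρ h g) hz
        rw [h1] at h3
        obtain ⟨z', h4, h5⟩ := b.of_mem_lie h3
        have h6 := h5 τ
        rwa [b.blk_inj h4] at h6
      · obtain ⟨z, hz, rfl⟩ := b.of_mem_lieE hX
        have h3 := (H _ hz).eq
        rw [h1, ← map_sub, ← map_mul, ← map_mul] at h3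
        exact congrFun (b.blk_inj h3) τ
    rw [h2, map_zero]

theorem norm_repr_le (q : Nat.Primes) (X : Matrix m m F) {ε : ℝ} (h : Bd q ε (res β X))
    (i j : m) (l : L) : ‖((β.repr (X i j) l : ℚ) : ℚ_[(q : ℕ)])‖ ≤
      (∑ l', ‖((β.repr 1 l' : ℚ) : ℚ_[(q : ℕ)])‖) * ε := by
  have h1 : β.repr (X i j) l = ∑ l', β.repr 1 l' * res β X (i, l) (j, l') := by
    conv_lhs => rw [← mul_one (X i j), ← β.sum_repr 1, Finset.mul_sum, map_sum,
      Finsupp.finsetSum_apply]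
    refine Finset.sum_congr rfl fun l' _ => ?_
    rw [mul_smul_comm, map_smul, res_apply]
    rfl
  rw [h1, Rat.cast_sum, Finset.sum_mul]
  refine norm_sum_le_of_le _ fun l' _ => ?_
  rw [Rat.cast_mul, norm_mul]
  exact mul_le_mul_of_nonneg_left (h _ _) (norm_nonneg _)

end MF

namespace SysF

open MF

variable {F m : Type} [Field F] [NumberField F] [Fintype m] [DecidableEq m]

theorem main (S : SysF F m) {G : Type} [Group G] (ι : G →* Matrix m m F)
    (hι : Function.Injective ι) (hm : ∀ g, ι g ∈ S.mon)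
    (hf : ∃ A : Finset (Matrix m m F), ∀ y ∈ S.mon, ∃ a ∈ A, ∃ g, y = a * ι g)
    (hu : ∀ g, IsNilpotent (ι g - 1) → g = 1) (hS : S.Stable) (TA : Finset Nat.Primes)
    {L : Type} [Fintype L] [DecidableEq L] (β : Basis L ℚ F)
    (hC : ∀ H : Subgroup G, H.FiniteIndex → ∃ ε : ℝ, 0 < ε ∧ ∀ g,
      (∀ q ∈ TA, ∀ i j l, ‖((β.repr ((ι g - 1) i j) l : ℚ) : ℚ_[((q : Nat.Primes) : ℕ)])‖ ≤ ε) →
        g ∈ H)
    (p : Nat.Primes) (hp : p ∉ TA) (h5 : 5 ≤ (p : ℕ)) (hs : Splits F ℚ_[(p : ℕ)])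
    (hP : ∀ τ : F →+* ℚ_[(p : ℕ)], S.Prime τ)
    (ρ : (F →+* ℚ_[(p : ℕ)]) → SpecialLinearGroup (Fin 3) ℚ_[(p : ℕ)] →* Matrix m m ℚ_[(p : ℕ)])
    (hρ : S.Pres fun τ g => ρ τ g) (h3 : ∀ τ, Rep3 (ρ τ))
    (hn : ∀ τ (w : ℚ_[(p : ℕ)]) (hw : w ≠ 0), ‖w‖ < 1 → ∃ X ∈ S.lieE τ,
      ρ τ (dg3 w hw) * X ≠ X * ρ τ (dg3 w hw))
    (N : Subgroup G) [N.Normal] (hx : ∃ x ∈ N, ∃ X ∈ S.lie, ι x * X ≠ X * ι x) :
    N.FiniteIndex := by
  classical
  have : Finite (F →+* ℚ_[(p : ℕ)]) :=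
    Nat.finite_of_card_ne_zero (by rw [hs]; exact finrank_pos.ne')
  obtain ⟨τ₀⟩ : Nonempty (F →+* ℚ_[(p : ℕ)]) :=
    (Nat.card_ne_zero.1 (by rw [hs]; exact finrank_pos.ne')).1
  obtain ⟨b⟩ := exists_blk (m := m) β hs
  let φ : G →* (sys β S).mon ℚ :=
    { toFun := fun g => ⟨res β (ι g), (res_mem_mon β S).2 (hm g)⟩
      map_one' := Subtype.ext (by simp)
      map_mul' := fun g h => Subtype.ext (by simp) }
  have hφ : ∀ g, ((φ g : (sys β S).mon ℚ) : Matrix (m × L) (m × L) ℚ) = res β (ι g) :=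
    fun _ => rfl
  have h1 : Function.Injective φ := fun g h e => hι (res_inj β (congrArg Subtype.val e))
  have h2 : ∀ g, ((φ g : (sys β S).mon ℚ) : Matrix (m × L) (m × L) ℚ) - 1 = res β (ι g - 1) :=
    fun g => by rw [map_sub, map_one, hφ]
  have : φ.range.FiniteIndex := by
    obtain ⟨A, hA⟩ := hf
    have : Finite ((sys β S).mon ℚ ⧸ φ.range) := by
      refine Finite.of_surjective (fun a : A => if h : res β a.1 ∈ (sys β S).mon ℚ then
        ((⟨_, h⟩ : (sys β S).mon ℚ) : (sys β S).mon ℚ ⧸ φ.range) else (1 : (sys β S).mon ℚ))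
        fun y => ?_
      obtain ⟨y, rfl⟩ := QuotientGroup.mk_surjective y
      obtain ⟨X, hX, e⟩ := exists_res_mon β S y.2
      obtain ⟨a, ha, g, rfl⟩ := hA X hX
      have h3 : ((y * φ g⁻¹ : (sys β S).mon ℚ) : Matrix (m × L) (m × L) ℚ) = res β a := by
        rw [Submonoid.coe_mul, ← e, hφ, ← map_mul, Matrix.mul_assoc, ← map_mul, mul_inv_cancel,
          map_one, Matrix.mul_one]
      have h4 : res β a ∈ (sys β S).mon ℚ := h3 ▸ (y * φ g⁻¹).2
      refine ⟨⟨a, ha⟩, ?_⟩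
      simp only [h4, dite_true]
      rw [show (⟨res β a, h4⟩ : (sys β S).mon ℚ) = y * φ g⁻¹ from Subtype.ext h3.symm]
      exact QuotientGroup.mk_mul_of_mem y ⟨_, rfl⟩
    exact Subgroup.finiteIndex_of_finite_quotient
  have hN : (sys β S).NoNil := Sys.noNil_of_noUni φ.range (by
    rintro _ ⟨g, rfl⟩ h
    rw [h2] at h
    rw [hu g ((IsNilpotent.map_iff (res_inj β)).1 h), map_one])
  have hC' : (sys β S).Csp φ.range TA := by
    intro Λ' _ hΛ
    obtain ⟨ε, h3, h4⟩ := hC (Λ'.comap φ) (MA.finiteIndex_comap φ Λ')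
    let c : Nat.Primes → ℝ := fun q => ∑ l', ‖((β.repr 1 l' : ℚ) : ℚ_[(q : ℕ)])‖
    have h5 : ∀ q, 0 ≤ c q := fun q => Finset.sum_nonneg fun _ _ => norm_nonneg _
    have h6 : 0 < 1 + ∑ q ∈ TA, c q :=
      add_pos_of_pos_of_nonneg one_pos (Finset.sum_nonneg fun q _ => h5 q)
    refine ⟨ε / (1 + ∑ q ∈ TA, c q), div_pos h3 h6, ?_⟩
    rintro _ ⟨g, rfl⟩ h7
    refine h4 g fun q hq i j l => (norm_repr_le q _ (h2 g ▸ h7 q hq) i j l).trans ?_
    have h8 : c q ≤ 1 + ∑ q ∈ TA, c q :=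
      (Finset.single_le_sum (fun q _ => h5 q) hq).trans (le_add_of_nonneg_left zero_le_one)
    exact (mul_le_mul_of_nonneg_right h8 (div_pos h3 h6).le).trans (mul_div_cancel₀ _ h6.ne').le
  have hw : ((p : ℕ) : ℚ_[(p : ℕ)]) ≠ 0 := Nat.cast_ne_zero.2 p.2.ne_zero
  have h4 := Sys.main hN (stable β S hS) (prime β S τ₀ (hP τ₀)) φ.range TA hC' p hp h5
    (b.rep ρ hρ) (fun i j hij => Continuous.subtype_mk
      (b.blk.toLinearMap.continuous_of_finiteDimensional.comp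
        (continuous_pi fun τ => (h3 τ).cont i j hij)) _)
    (b.hyp ρ hρ hP _ hw (fun τ => (h3 τ).diag _ hw) fun τ => hn τ _ hw Padic.norm_p_lt_one)
    (N := N.map φ) (Subgroup.map_le_range φ N)
    (by
      rintro _ ⟨g, rfl⟩ _ ⟨x, hx, rfl⟩
      exact ⟨g * x * g⁻¹, Subgroup.Normal.conj_mem ‹_› x hx g, by rw [map_mul, map_mul, map_inv]⟩)
    (by
      obtain ⟨x, hx, X, hX, h⟩ := hx
      refine ⟨φ x, ⟨x, hx, rfl⟩, fun h' => h (res_inj β ?_)⟩
      rw [map_mul, map_mul]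
      exact h' _ ((res_mem_lie β S).2 hX))
  rw [← Subgroup.comap_map_eq_self_of_injective h1 N]
  exact MA.finiteIndex_comap φ _

end SysF

end Vale.Agent.P011Z
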