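import Vale.Agent.P011Z.MaxG.Desc

/-!
Gradings with the largest number of summands.
-/

open Matrix

namespace Vale.Agent.P011Z

open Mx

namespace Sys

variable {n : Type} [Fintype n] [DecidableEq n] {S : Sys n} {I : Type} [Fintype I]

section alg

variable {F : Type} [Field F] [CharZero F] {e : I → Matrix n n F} {k : I → ℤ}

variable (S F) in
theorem exists_maxG : ∃ (m : ℕ) (e : Fin m → Matrix n n F) (k : Fin m → ℤ), S.MaxG e k := by
  let A : Set ℕ := {m | ∃ (e : Fin m → Matrix n n F) (k : Fin m → ℤ), S.Gr e k ∧ ∀ i, e i ≠ 0}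
  have hb : BddAbove A := ⟨Fintype.card n, by
    rintro m ⟨e, k, h, h0⟩
    simpa using card_le h.dec h0⟩
  have hne : A.Nonempty := by
    by_cases h1 : (1 : Matrix n n F) = 0
    · exact ⟨0, Fin.elim0, Fin.elim0, ⟨⟨by simp [h1], fun i => i.elim0, fun i => i.elim0⟩,
        fun i => i.elim0, by simp⟩, fun i => i.elim0⟩
    · exact ⟨1, fun _ => 1, fun _ => 0, ⟨⟨by simp, fun _ => mul_one _,
        fun i j h => (h (Subsingleton.elim _ _)).elim⟩, fun i j _ => Subsingleton.elim _ _,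
        by simp⟩, fun _ => h1⟩
  obtain ⟨e, k, h, h0⟩ := Nat.sSup_mem hne hb
  exact ⟨_, e, k, h, h0, fun m e' k' h' h0' => by
    rw [Fintype.card_fin]
    exact le_csSup hb ⟨e', k', h', h0'⟩⟩

omit [CharZero F] in
theorem MaxG.of_gr (h : S.MaxG e k) {k' : I → ℤ} (h' : S.Gr e k') : S.MaxG e k' :=
  ⟨h', h.ne, h.max⟩

omit [CharZero F] in
theorem MaxG.card_values (h : S.MaxG e k) {J : Type} [Fintype J] {d : J → Matrix n n F}
    (hd : IsDec d) (w : J → ℤ) (hw : ∑ j, (w j : F) • d j ∈ S.lie F) (s : Finset ℤ)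
    (hs : ∀ t, t ∈ s ↔ ∃ j, d j ≠ 0 ∧ w j = t) : s.card ≤ Fintype.card I := by
  have hs' : ∀ j, d j ≠ 0 → w j ∈ s := fun j hj => (hs _).2 ⟨j, hj, rfl⟩
  refine h.max s.card ((fun t : s => grp d w t) ∘ s.equivFin.symm)
    (fun i => (s.equivFin.symm i : ℤ)) ⟨dec_equiv (dec_grp hd w s hs') _,
      Subtype.val_injective.comp s.equivFin.symm.injective, ?_⟩ fun i h0 => ?_
  · rw [← sum_grp w s hs' fun t => (t : F)] at hw
    rw [← s.equivFin.symm.sum_comp] at hw
    exact hw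
  · obtain ⟨j, hj, e⟩ := (hs _).1 (s.equivFin.symm i).2
    have h1 := grp_mul hd w (s.equivFin.symm i) j
    rw [if_pos e] at h1
    refine hj ?_
    rw [← h1]
    exact (congrArg (· * d j) h0).trans (zero_mul _)

/-- The grading can not be refined. -/
theorem MaxG.refine (h : S.MaxG e k) {J : Type} [Fintype J] {d : J → Matrix n n F} (hd : IsDec d)
    (hc : ∀ i j, Commute (e i) (d j)) (r : J → ℚ) (hr : ∑ j, (r j : F) • d j ∈ S.lie F)
    {i : I} {j j' : J} (hj : e i * d j ≠ 0) (hj' : e i * d j' ≠ 0) : r j = r j' := by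
  classical
  obtain ⟨b, hb⟩ := IsLocalization.exist_integer_multiples_of_finite (nonZeroDivisors ℤ) r
  choose ρ hρ using hb
  have hb0 : ((b : ℤ) : ℚ) ≠ 0 := Int.cast_ne_zero.2 (nonZeroDivisors.ne_zero b.2)
  have hρ' : ∀ j, (ρ j : ℚ) = (b : ℤ) * r j := fun j => by simpa using hρ j
  by_contra hne
  have hne' : ρ j ≠ ρ j' := fun h1 => hne (mul_left_cancel₀ hb0 (by rw [← hρ', ← hρ', h1]))
  obtain ⟨M, hM⟩ := (Set.finite_range fun j => |ρ j|).bddAbove
  have hM' : ∀ j, |ρ j| ≤ M := fun j => hM ⟨j, rfl⟩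
  let w : I × J → ℤ := fun x => (2 * M + 1) * k x.1 + ρ x.2
  have hw : ∀ x y, w x = w y → x.1 = y.1 := fun x y hxy => h.inj <| by
    have h1 := abs_le.1 (hM' x.2)
    have h2 := abs_le.1 (hM' y.2)
    have h3 : (2 * M + 1) * (k x.1 - k y.1) = ρ y.2 - ρ x.2 := by
      simp only [w] at hxy
      linarith
    by_contra h4
    rcases lt_or_gt_of_ne h4 with h5 | h5 <;> nlinarith
  have hmem : ∑ x : I × J, (w x : F) • (e x.1 * d x.2) ∈ S.lie F := by
    have e1 : ∑ x : I × J, (w x : F) • (e x.1 * d x.2) =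
        ((2 * M + 1 : ℤ) : F) • ∑ i, (k i : F) • e i + ((b : ℤ) : F) • ∑ j, (r j : F) • d j := by
      have e2 : ∀ j, (ρ j : F) = ((b : ℤ) : F) * (r j : F) := fun j => by
        have h1 := congrArg (fun q : ℚ => (q : F)) (hρ' j)
        simpa using h1
      simp only [w, Int.cast_add, Int.cast_mul, add_smul, Finset.sum_add_distrib]
      congr 1
      · rw [Fintype.sum_prod_type, ← add_smul, Finset.smul_sum]
        refine Finset.sum_congr rfl fun i _ => ?_
        simp only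
        rw [← Finset.smul_sum, ← Finset.mul_sum, hd.sum, mul_one, smul_smul]
      · rw [Fintype.sum_prod_type_right, Finset.smul_sum]
        refine Finset.sum_congr rfl fun j _ => ?_
        simp only
        rw [← Finset.smul_sum, ← Finset.sum_mul, h.dec.sum, one_mul, smul_smul, e2]
    rw [e1]
    exact add_mem (Submodule.smul_mem _ _ h.mem) (Submodule.smul_mem _ _ hr)
  have hcard := h.card_values (dec_prod h.dec hd hc) w hmem
    ((Finset.univ.filter fun x : I × J => e x.1 * d x.2 ≠ 0).image w) fun t => by simp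
  have hex : ∀ a, ∃ c, e a * d c ≠ 0 ∧ (a = i → c = j) := fun a => by
    by_cases ha : a = i
    · exact ⟨j, ha ▸ hj, fun _ => rfl⟩
    · by_contra h0
      push Not at h0
      refine h.ne a ?_
      rw [← mul_one (e a), ← hd.sum, Finset.mul_sum]
      exact Finset.sum_eq_zero fun c _ => by_contra fun h1 => ha (h0 c h1).1
  choose s hs hs' using hex
  have h1 := Finset.card_le_card_of_injOn (s := Finset.univ)
    (t := (Finset.univ.filter fun x : I × J => e x.1 * d x.2 ≠ 0).image w)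
    (fun o : Option I => o.elim (w (i, j')) fun a => w (a, s a)) ?_ ?_
  · rw [Finset.card_univ, Fintype.card_option] at h1
    omega
  · rintro (_ | a) -
    · exact Finset.mem_image_of_mem w (Finset.mem_filter.2 ⟨Finset.mem_univ _, hj'⟩)
    · exact Finset.mem_image_of_mem w (Finset.mem_filter.2 ⟨Finset.mem_univ _, hs a⟩)
  · have key : ∀ a, w (i, j') ≠ w (a, s a) := fun a h2 => by
      have h3 : i = a := hw _ _ h2
      subst h3
      rw [hs' i rfl] at h2
      exact hne' (add_left_cancel h2).symm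
    rintro (_ | a) - (_ | c) - h2
    · rfl
    · exact (key c h2).elim
    · exact (key a h2.symm).elim
    · exact congrArg some (hw _ _ h2)

/-- Invariant rational functions of the eigenvalues are constant on the summands. -/
theorem MaxG.spec_const (h : S.MaxG e k) {Ω : Type} [Field Ω] [Algebra F Ω] [IsGalois F Ω]
    {Y : Matrix n n F} (hY : ∀ i, Commute Y (e i)) {σ : Finset Ω} {π : Ω → Matrix n n Ω}
    (hπ : IsSpec (Y.map (algebraMap F Ω)) σ π) (ψ : Ω → ℚ)
    (hψ : ∀ (φ : Ω ≃ₐ[F] Ω) μ, ψ (φ μ) = ψ μ)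
    (hr : ∀ {a : ℕ} (c : Fin a → σ), S.Rel (fun μ : σ => π μ) c → ∑ r, ψ (c r) = 0) {i : I}
    {μ ν : Ω} (hμ : (e i).map (algebraMap F Ω) * π μ ≠ 0)
    (hν : (e i).map (algebraMap F Ω) * π ν ≠ 0) : ψ μ = ψ ν := by
  classical
  have : CharZero Ω := charZero_of_injective_algebraMap (algebraMap F Ω).injective
  have hd := dec_spec hπ
  have hex : ∀ t : ℚ, ∃ M : Matrix n n F,
      M.map (algebraMap F Ω) = grp (fun μ : σ => π μ) (fun μ => ψ μ) t := fun t => by
    obtain ⟨M, hM⟩ := descent hπ (fun μ => if ψ μ = t then 1 else 0) fun φ μ => by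
      rw [hψ]
      split_ifs <;> simp
    refine ⟨M, hM.trans ?_⟩
    rw [grp, Finset.sum_filter]
    exact Finset.sum_congr rfl fun μ _ => by split_ifs <;> simp
  choose d hdM using hex
  let s : Finset ℚ := σ.image ψ
  have hs : ∀ μ : σ, π μ ≠ 0 → ψ μ ∈ s := fun μ _ => Finset.mem_image_of_mem ψ μ.2
  have hdec : IsDec fun t : s => d t := dec_of_map (algebraMap F Ω) <| by
    simp only [hdM]
    exact dec_grp hd _ s hs
  have hne : ∀ κ, (e i).map (algebraMap F Ω) * π κ ≠ 0 → ∃ hκ : ψ κ ∈ s, e i * d (ψ κ) ≠ 0 := by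
    intro κ hκ
    have h1 : κ ∈ σ := (hπ.ne κ).1 fun h0 => hκ (by rw [h0, mul_zero])
    refine ⟨Finset.mem_image_of_mem ψ h1, fun h0 => hκ ?_⟩
    have h2 := grp_mul hd (fun μ => ψ μ) (ψ κ) ⟨κ, h1⟩
    rw [if_pos rfl, ← hdM] at h2
    rw [← h2, ← mul_assoc, ← Matrix.map_mul, h0, Matrix.map_zero _ (map_zero _), zero_mul]
  obtain ⟨h1, h2⟩ := hne μ hμ
  obtain ⟨h3, h4⟩ := hne ν hν
  refine h.refine hdec (fun i t => ?_) (fun t => t) ?_ (j := ⟨_, h1⟩) (j' := ⟨_, h3⟩) h2 h4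
  · rw [← commute_map (algebraMap F Ω), hdM]
    exact Commute.sum_right _ _ _ fun κ _ =>
      (hπ.comm κ _ ((commute_map _).2 (hY i))).symm
  · refine mem_lie_of_map (algebraMap F Ω) ?_
    have e1 : (∑ t : s, ((t : ℚ) : F) • d t).map (algebraMap F Ω) =
        ∑ t : s, ((t : ℚ) : Ω) • grp (fun μ : σ => π μ) (fun μ => ψ μ) t := by
      ext a b
      simp only [← hdM, map_apply, Matrix.sum_apply, map_sum, Matrix.smul_apply, smul_eq_mul,
        map_mul, map_ratCast]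
    rw [e1, sum_grp _ s hs fun t => (t : Ω)]
    refine hd.sum_mem_lie _ fun c hc => ?_
    exact_mod_cast congrArg (fun q : ℚ => (q : Ω)) (hr c hc)

theorem MaxG.noNil (h : S.MaxG e k) (hT : S.TrNd F) {X : Matrix n n F} (hX : X ∈ S.lie F)
    (hc : ∀ i, Commute X (e i)) (hn : IsNilpotent X) : X = 0 := by
  obtain ⟨H, hH, hHc, hHX⟩ := exists_ad h.toGr hT hX hc hn
  let Ω := AlgebraicClosure F
  obtain ⟨σ, π, hπ⟩ := exists_spec (H.map (algebraMap F Ω))
  obtain ⟨f, hf⟩ := Module.Projective.exists_dual_eq_one ℚ (one_ne_zero : (1 : F) ≠ 0)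
  let ψ : Ω →+ ℚ := f.toAddMonoidHom.comp (Algebra.normalizedTrace F Ω).toAddMonoidHom
  have hψ1 : ψ 1 = 1 := by
    change f (Algebra.normalizedTrace F Ω 1) = 1
    rw [← map_one (algebraMap F Ω), Algebra.normalizedTrace_algebraMap_apply_eq_self, hf]
  have hXH : H.map (algebraMap F Ω) * X.map (algebraMap F Ω) -
      X.map (algebraMap F Ω) * H.map (algebraMap F Ω) = X.map (algebraMap F Ω) := by
    rw [← Matrix.map_mul, ← Matrix.map_mul, ← Matrix.map_sub _ (map_sub _), hHX]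
  refine map_inj (algebraMap F Ω) ?_
  have e1 : X.map (algebraMap F Ω) = (∑ ν ∈ σ, π ν) * X.map (algebraMap F Ω) * (∑ μ ∈ σ, π μ) *
      ∑ i, (e i).map (algebraMap F Ω) := by
    rw [hπ.sum, (dec_map (algebraMap F Ω) h.dec).sum, one_mul, mul_one, mul_one]
  rw [Matrix.map_zero _ (map_zero _), e1]
  rw [Matrix.mul_sum]
  refine Finset.sum_eq_zero fun i _ => ?_
  rw [Matrix.mul_sum, Matrix.sum_mul]
  refine Finset.sum_eq_zero fun μ _ => ?_
  rw [Matrix.sum_mul, Matrix.sum_mul, Matrix.sum_mul]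
  refine Finset.sum_eq_zero fun ν _ => ?_
  by_cases hν : ν = μ + 1
  · by_contra h0
    have hcπ : ∀ κ, Commute (π κ) ((e i).map (algebraMap F Ω)) := fun κ =>
      hπ.comm κ _ ((commute_map _).2 (hHc i))
    have h1 := h.spec_const hHc hπ ψ
      (fun φ κ => congrArg f (Algebra.normalizedTrace_map F Ω φ.toAlgHom κ))
      (fun c hc => by
        obtain ⟨t, ht, x, hx⟩ := hc
        rw [← map_sum ψ fun r => (c r : Ω)]
        by_contra h2
        exact hx (hπ.ev_eq_zero_of_lie (map_mem_lie _ hH) ht (fun r => c r)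
          (fun h3 => h2 (by rw [h3, map_zero])) x))
      (i := i) (μ := μ) (ν := ν)
      (fun h2 => h0 (by rw [mul_assoc, (hcπ μ).eq, h2, mul_zero]))
      (fun h2 => h0 (by
        rw [mul_assoc, (hcπ μ).eq, ← mul_assoc, mul_assoc (π ν), ((commute_map _).2 (hc i)).eq,
          ← mul_assoc, (hcπ ν).eq, h2, zero_mul, zero_mul]))
    rw [hν, map_add, hψ1] at h1
    simp at h1
  · rw [shift_eq_zero hπ hXH hν, zero_mul]

theorem MaxG.noUni (h : S.MaxG e k) (hT : S.TrNd F) {z : S.mon F} (hz : z ∈ S.Zc e)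
    (hn : IsNilpotent ((z : Matrix n n F) - 1)) : z = 1 := by
  obtain ⟨X, h1, h2, h3, h4⟩ := exists_log z.2 hn
  rw [h.noNil hT h1 (fun i => h4 _ (hz i)) h2, IsNilpotent.exp_zero] at h3
  exact Subtype.ext h3.symm

theorem MaxG.semisimple (h : S.MaxG e k) (hT : S.TrNd F) {z : S.mon F} (hz : z ∈ S.Zc e)
    {Ω : Type} [Field Ω] [Algebra F Ω] [IsGalois F Ω] {σ : Finset Ω} {π : Ω → Matrix n n Ω}
    (hπ : IsSpec ((z : Matrix n n F).map (algebraMap F Ω)) σ π) :
    (z : Matrix n n F).map (algebraMap F Ω) = ∑ μ ∈ σ, μ • π μ := by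
  have : CharZero Ω := charZero_of_injective_algebraMap (algebraMap F Ω).injective
  obtain ⟨M, hM⟩ := descent hπ id fun _ _ => rfl
  have hMm : M ∈ S.mon F := mem_mon_of_map (algebraMap F Ω) <| by
    rw [hM]
    refine (dec_spec hπ).sum_mem_mon _ fun c hc => ?_
    obtain ⟨t, ht, x, hx⟩ := hc
    by_contra h2
    exact hx (hπ.ev_eq_zero_of_mon (map_mem_mon _ z.2) ht (fun r => c r) h2 x)
  rw [Finset.sum_coe_sort σ fun μ => id μ • π μ] at hM
  have hcm : ∀ y, Commute (z : Matrix n n F) y → Commute M y := fun y hy => by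
    rw [← commute_map (algebraMap F Ω), hM]
    exact Commute.sum_left _ _ _ fun μ _ => (hπ.comm μ _ ((commute_map _).2 hy)).smul_left _
  let y : S.mon F := ⟨M, hMm⟩
  have hy : y ∈ S.Zc e := fun i => hcm _ (hz i)
  have hn : IsNilpotent ((z : Matrix n n F) - M) := by
    have h1 := hπ.isNilpotent_sub
    rw [← IsNilpotent.map_iff (f := (algebraMap F Ω).mapMatrix) (map_injective
      (algebraMap F Ω).injective), map_sub, RingHom.mapMatrix_apply, RingHom.mapMatrix_apply, hM]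
    exact h1
  have hzy : Commute z y := Subtype.ext (hcm _ (Commute.refl _)).symm
  have h1 := h.noUni hT (mul_mem hz (inv_mem hy)) <| by
    have e1 : ((z * y⁻¹ : S.mon F) : Matrix n n F) - 1 =
        ((z : Matrix n n F) - M) * ((y⁻¹ : S.mon F) : Matrix n n F) := by
      rw [sub_mul, Submonoid.coe_mul, ← coe_mul_inv y]
    rw [e1]
    refine Commute.isNilpotent_mul_right (Commute.sub_left ?_ ?_) hn
    · exact congrArg Subtype.val hzy.inv_right.eq
    · exact congrArg Subtype.val (Commute.refl y).inv_right.eq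
  rw [mul_inv_eq_one] at h1
  rw [h1]
  exact hM

end alg

section norm

variable {F : Type} [NormedField F] [CharZero F] {e : I → Matrix n n F} {k : I → ℤ}
  {Ω : Type} [NormedField Ω] [NormedAlgebra F Ω] [IsGalois F Ω]

omit [IsGalois F Ω] in
theorem det_map_ne (z : S.mon F) : ((z : Matrix n n F).map (algebraMap F Ω)).det ≠ 0 := by
  have : CharZero Ω := charZero_of_injective_algebraMap (algebraMap F Ω).injective
  exact det_ne (map_mem_mon _ z.2)

theorem MaxG.norm_eq (h : S.MaxG e k) (hiso : ∀ (φ : Ω ≃ₐ[F] Ω) x, ‖φ x‖ = ‖x‖) {z : S.mon F}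
    (hz : z ∈ S.Zc e) {σ : Finset Ω} {π : Ω → Matrix n n Ω}
    (hπ : IsSpec ((z : Matrix n n F).map (algebraMap F Ω)) σ π) {i : I} {μ ν : Ω}
    (hμ : (e i).map (algebraMap F Ω) * π μ ≠ 0) (hν : (e i).map (algebraMap F Ω) * π ν ≠ 0) :
    ‖μ‖ = ‖ν‖ := by
  have : CharZero Ω := charZero_of_injective_algebraMap (algebraMap F Ω).injective
  have hpos : ∀ κ, (e i).map (algebraMap F Ω) * π κ ≠ 0 → 0 < ‖κ‖ := fun κ hκ =>
    norm_pos_iff.2 (hπ.ne_zero (det_map_ne z) ((hπ.ne κ).1 fun h0 => hκ (by rw [h0, mul_zero])))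
  refine Real.log_injOn_pos (hpos μ hμ) (hpos ν hν) ?_
  by_contra h0
  obtain ⟨f, hf⟩ := Module.Projective.exists_dual_eq_one ℚ (sub_ne_zero.2 h0)
  have h1 := h.spec_const hz hπ (fun κ => f (Real.log ‖κ‖)) (fun φ κ => by rw [hiso])
    (fun c hc => by
      obtain ⟨t, ht, x, hx⟩ := hc
      have h2 : ∏ r, (c r : Ω) = 1 := by
        by_contra h2
        exact hx (hπ.ev_eq_zero_of_mon (map_mem_mon _ z.2) ht (fun r => c r) h2 x)
      rw [← map_sum, ← Real.log_prod fun r _ =>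
        norm_ne_zero_iff.2 (hπ.ne_zero (det_map_ne z) (c r).2), ← norm_prod, h2, norm_one,
        Real.log_one, map_zero]) hμ hν
  rw [map_sub, h1, sub_self] at hf
  exact zero_ne_one hf

/-- On every summand the eigenvalues have the same absolute value. -/
theorem MaxG.norm_eig (h : S.MaxG e k) (hiso : ∀ (φ : Ω ≃ₐ[F] Ω) x, ‖φ x‖ = ‖x‖) {z : S.mon F}
    (hz : z ∈ S.Zc e) {σ : Finset Ω} {π : Ω → Matrix n n Ω}
    (hπ : IsSpec ((z : Matrix n n F).map (algebraMap F Ω)) σ π) {i : I} {μ : Ω}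
    (hμ : (e i).map (algebraMap F Ω) * π μ ≠ 0) :
    ‖μ‖ ^ (e i).rank = ‖dl (e i) (z : Matrix n n F)‖ := by
  have : CharZero Ω := charZero_of_injective_algebraMap (algebraMap F Ω).injective
  set E := (e i).map (algebraMap F Ω) with hE
  have hzE : Commute ((z : Matrix n n F).map (algebraMap F Ω)) E := (commute_map _).2 (hz i)
  have hEE : E * E = E := (dec_map (algebraMap F Ω) h.dec).idem i
  have hc : ∀ ν, Commute (π ν) E := fun ν => hπ.comm ν _ hzE
  have hm : ∀ ν κ, E * π ν * (E * π κ) = E * (π ν * π κ) := fun ν κ => by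
    rw [(hc ν).mul_mul_mul_comm, hEE]
  have hid : ∀ ν, E * π ν * (E * π ν) = E * π ν := fun ν => by rw [hm, hπ.idem]
  have hs : ∑ ν ∈ σ, E * π ν = E := by rw [← Finset.mul_sum, hπ.sum, mul_one]
  have hcz : ∀ ν, Commute ((z : Matrix n n F).map (algebraMap F Ω)) (E * π ν) := fun ν =>
    hzE.mul_right (hπ.comm_self ν).symm
  have h1 := dl_sum σ (P := fun ν => E * π ν) (fun ν κ h1 => by rw [hm, hπ.orth _ _ h1, mul_zero])
    hcz
  have h2 := rank_sum σ hid (by rw [hs, hEE])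
  rw [hs] at h1 h2
  rw [← norm_algebraMap' Ω (dl _ _), ← dl_map, ← hE, h1, norm_prod,
    ← rank_map (algebraMap F Ω) (h.dec.idem i), ← hE, h2, ← Finset.prod_pow_eq_pow_sum]
  refine Finset.prod_congr rfl fun ν hν => ?_
  by_cases h0 : E * π ν = 0
  · rw [h0, dl_zero, rank_zero, pow_zero, norm_one]
  · rw [dl_eig (hid ν) (hcz ν) (hπ.ne_zero (det_map_ne z) hν), norm_pow,
      h.norm_eq hiso hz hπ hμ h0]
    rw [← (hc ν).eq, ← mul_assoc]
    exact Commute.isNilpotent_mul_right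
      ((hzE.sub_left (commute_smul_one ν E)).mul_left (hc ν)) (hπ.nil ν)

theorem MaxG.norm_eig_one (h : S.MaxG e k) (hiso : ∀ (φ : Ω ≃ₐ[F] Ω) x, ‖φ x‖ = ‖x‖)
    {z : S.mon F} (hz : z ∈ S.Z0 h.dec) {μ : Ω}
    (hμ : ((z : Matrix n n F).map (algebraMap F Ω)).charpoly.IsRoot μ) [IsAlgClosed Ω] :
    ‖μ‖ = 1 := by
  obtain ⟨σ, π, hπ⟩ := exists_spec ((z : Matrix n n F).map (algebraMap F Ω))
  obtain ⟨i, hi⟩ : ∃ i, (e i).map (algebraMap F Ω) * π μ ≠ 0 := by
    by_contra h0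
    push Not at h0
    refine (hπ.ne μ).2 (hπ.isRoot.2 hμ) ?_
    rw [← one_mul (π μ), ← (dec_map (algebraMap F Ω) h.dec).sum, Finset.sum_mul]
    exact Finset.sum_eq_zero fun i _ => h0 i
  have h1 := h.norm_eig hiso hz.1 hπ hi
  rw [hz.2 i] at h1
  exact (pow_eq_one_iff_of_nonneg (norm_nonneg _) (rank_ne_zero (h.ne i))).1 h1

variable (Ω) in
theorem MaxG.rel_log [IsAlgClosed Ω] (h : S.MaxG e k) (hiso : ∀ (φ : Ω ≃ₐ[F] Ω) x, ‖φ x‖ = ‖x‖)
    {z : S.mon F} (hz : z ∈ S.Zc e) {a : ℕ} {c : Fin a → I} (hc : S.Rel e c) :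
    ∑ r, Real.log ‖dl (e (c r)) (z : Matrix n n F)‖ / (e (c r)).rank = 0 := by
  have : CharZero Ω := charZero_of_injective_algebraMap (algebraMap F Ω).injective
  obtain ⟨σ, π, hπ⟩ := exists_spec ((z : Matrix n n F).map (algebraMap F Ω))
  obtain ⟨t, ht, x, hx⟩ := (rel_map (algebraMap F Ω)).2 hc
  have h1 := ml_expand (ev t Ω) (fun μ : σ => π μ) (fun _ _ => 1)
    fun r => (e (c r)).map (algebraMap F Ω) *ᵥ x r
  simp only [one_smul, (dec_spec hπ).sum, one_mulVec, Finset.prod_const_one, one_mul] at h1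
  rw [h1] at hx
  obtain ⟨μ, -, hμ⟩ := Finset.exists_ne_zero_of_sum_ne_zero hx
  have h2 : ∏ r, (μ r : Ω) = 1 := by
    by_contra h2
    exact hμ (hπ.ev_eq_zero_of_mon (map_mem_mon _ z.2) ht (fun r => μ r) h2 _)
  have h3 : ∀ r, Real.log ‖dl (e (c r)) (z : Matrix n n F)‖ / (e (c r)).rank =
      Real.log ‖(μ r : Ω)‖ := fun r => by
    rw [← h.norm_eig hiso hz hπ (μ := μ r), Real.log_pow, mul_div_cancel_left₀]
    · exact_mod_cast rank_ne_zero (h.ne _)
    · intro h0
      refine hμ ((ev t Ω).map_coord_zero r ?_)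
      rw [mulVec_mulVec, (hπ.comm _ _ ((commute_map _).2 (hz (c r)))).eq, h0, zero_mulVec]
  simp only [h3]
  rw [← Real.log_prod fun r _ => norm_ne_zero_iff.2 (hπ.ne_zero (det_map_ne z) (μ r).2),
    ← norm_prod, h2, norm_one, Real.log_one]

end norm

end Sys

theorem iso_complex (φ : ℂ ≃ₐ[ℝ] ℂ) (x : ℂ) : ‖φ x‖ = ‖x‖ := by
  rcases Complex.real_algHom_eq_id_or_conj φ.toAlgHom with h | h
  · exact congrArg norm (DFunLike.congr_fun h x)
  · exact (congrArg norm (DFunLike.congr_fun h x)).trans (Complex.norm_conj x)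

theorem iso_padic (p : ℕ) [Fact p.Prime] (φ : PadicAlgCl p ≃ₐ[ℚ_[p]] PadicAlgCl p)
    (x : PadicAlgCl p) : ‖φ x‖ = ‖x‖ :=
  (spectralNorm_eq_of_equiv φ x).symm

end Vale.Agent.P011Z
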