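import Vale.Agent.P011Z.MainF
import Vale.Agent.P011Z.FinDefs
import Vale.Agent.P011Z.ModA.Pad
import Vale.Agent.P011Z.ModA.Csp

/-!
The unitary groups over number fields.
-/

namespace Vale.Agent.P011Z

open Vale.Agent.P011.H925.Full

variable {k K A Ω : Type} [Field k] [Field K] [Algebra k K] [StarRing K] [Ring A] [StarRing A]
  [Algebra k A] [Algebra K A] [IsScalarTower k K A] [StarModule K A] [Field Ω] [Algebra K Ω] {n : ℕ}

/-- A nonarchimedean place of a number field lies over a prime. -/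
theorem exists_prime_below [NumberField k] (v : AG k K A) : ∃ q : Nat.Primes, ∀ ε : ℝ, 0 < ε →
    ∃ η : ℝ, 0 < η ∧ ∀ t : ℚ, ‖(t : ℚ_[(q : ℕ)])‖ ≤ η → v.abv (t : k) ≤ ε := ModA.prime_below v

/-- The set `A(G)` is finite. -/
theorem finite_AG [NumberField k] (h : Out k K A n) : Finite (AG k K A) := ModA.finite_ag h

namespace ModA

open Matrix Module Algebra

theorem numberField [NumberField k] (hf : ∀ x : K, star x = x ↔ x ∈ Set.range (algebraMap k K))
    (hd : ∃ d : K, star d ≠ d) : NumberField K := by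
  classical
  have : CharZero K := charZero_of_injective_algebraMap (algebraMap k K).injective
  obtain ⟨d, hd⟩ := hd
  have h0 : star d - d ≠ 0 := sub_ne_zero.2 hd
  have : Module.Finite k K := by
    refine ⟨⟨{1, (star d - d)⁻¹}, eq_top_iff.2 fun x _ => ?_⟩⟩
    obtain ⟨a, ha⟩ := (hf (x + star x)).1 (by rw [star_add, star_star, add_comm])
    obtain ⟨c, hc⟩ := (hf ((star d - d) * (x - star x))).1 (by
      rw [star_mul', star_sub, star_sub, star_star, star_star]; ring)
    rw [Finset.coe_pair, Submodule.mem_span_pair]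
    refine ⟨a / 2, c / 2, ?_⟩
    rw [Algebra.smul_def, Algebra.smul_def, map_div₀, map_div₀, ha, hc, map_ofNat]
    field_simp
    ring
  exact NumberField.of_module_finite k K

omit [Algebra k A] [IsScalarTower k K A] in
theorem finite_cover [IsSimpleRing A] [CharZero K] {N : ℕ} (b : Basis (Fin N) K A) (hn : n ≠ 0)
    (f : A →ₐ[K] Matrix (Fin n) (Fin n) Ω)
    (hd : ∀ x, algebraMap K Ω (leftMulMatrix b x).det = (f x).det ^ n) :
    ∃ S : Finset (Matrix (Fin N) (Fin N) K), ∀ y ∈ (sys b).mon, ∃ a ∈ S, ∃ g : GK f,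
      y = a * leftMulMatrix b g.1.1 := by
  classical
  have hc : ∀ z : Ω, ∃ u : unitary A, (∃ u' : unitary A, (f u').det = z) → (f u).det = z :=
    fun z => by
      by_cases h : ∃ u' : unitary A, (f u').det = z
      · exact ⟨h.choose, fun _ => h.choose_spec⟩
      · exact ⟨1, fun h' => absurd h' h⟩
  choose c hc using hc
  refine ⟨(Polynomial.nthRootsFinset n (1 : Ω)).image fun z => leftMulMatrix b (c z).1,
    fun y hy => ?_⟩
  obtain ⟨u, hu, rfl, h1⟩ := of_mem_mon b hy
  have h2 := hd u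
  rw [h1, map_one] at h2
  have h3 := hc (f u).det ⟨⟨u, hu⟩, rfl⟩
  set v := c (f u).det
  have h4 : v.1 * (v⁻¹ * ⟨u, hu⟩ : unitary A).1 = u :=
    congrArg Subtype.val (mul_inv_cancel_left v ⟨u, hu⟩)
  refine ⟨_, Finset.mem_image_of_mem _
    ((Polynomial.mem_nthRootsFinset (Nat.pos_of_ne_zero hn) 1).2 h2.symm), ⟨v⁻¹ * ⟨u, hu⟩, ?_⟩,
    by rw [← map_mul, h4]⟩
  have h5 := congrArg (fun x => (f x).det) h4
  simp only [map_mul, det_mul] at h5
  have h6 : (f u).det ≠ 0 := fun e => by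
    rw [e, zero_pow hn] at h2
    exact one_ne_zero h2
  rw [h3] at h5
  exact mul_left_cancel₀ h6 (h5.trans (mul_one _).symm)

end ModA

open ModA Matrix Module Algebra in
theorem finiteIndex_nf [NumberField k] (h : Out k K A n) (f : A →ₐ[K] Matrix (Fin n) (Fin n) Ω)
    {δ : GK f →* HA k K A n} (hd : ∀ g, Diag g.1.1 (δ g)) (hQ : Q1 δ) (N : Subgroup (GK f))
    [N.Normal] (hN : ¬ N ≤ Subgroup.center (GK f)) : N.FiniteIndex := by
  classical
  have := numberField h.fixed h.star_ne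
  have := h.central
  have := h.simple
  have hn : n ≠ 0 := by have := h.le; omega
  have : FiniteDimensional K A := Module.finite_of_finrank_pos (by rw [h.rank]; positivity)
  let b : Basis (Fin (n ^ 2)) K A := Module.finBasisOfFinrankEq K A h.rank
  have hc : Fintype.card (Fin (n ^ 2)) = n ^ 2 := Fintype.card_fin _
  have hf : Spl (algebraMap K Ω) (f : A →+* Matrix (Fin n) (Fin n) Ω) := fun c x =>
    (map_smul f c x).trans (algebraMap_smul Ω c (f x)).symm
  obtain ⟨b0, hb0⟩ := hf.exists_basis b hn hc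
  have hdet : ∀ x, algebraMap K Ω (leftMulMatrix b x).det = (f x).det ^ n := hf.det hb0
  have hs := hf.tr_star b hn hc
  have inj := leftMulMatrix_injective b
  obtain ⟨TA, hTA⟩ := csp h f hd hQ
  obtain ⟨E, _, _, _, g0, hg0⟩ := exists_finite_split f b
  have : NumberField E := NumberField.of_module_finite K E
  obtain ⟨p, hp, h5, hE⟩ := exists_split E TA
  obtain ⟨hK, hext⟩ := hE.tower (F := K)
  obtain ⟨F, r, hF, hFd, hrd, hr⟩ := exists_compat (A := A) (Ω := ℚ_[(p : ℕ)]) h.star_ne h.le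
    fun τ => by
      obtain ⟨τ', rfl⟩ := hext τ
      exact ⟨_, hg0.comp τ'⟩
  choose bf hbf using fun τ => (hF τ).exists_basis b hn hc
  let ι : GK f →* Matrix (Fin (n ^ 2)) (Fin (n ^ 2)) K :=
    ((leftMulMatrix b : A →* _).comp (unitary A).subtype).comp (GK f).subtype
  have hι : ∀ g, ι g = leftMulMatrix b g.1.1 := fun g => rfl
  let β := Module.finBasis ℚ K
  refine (sys b).main ι (fun g g' e => Subtype.ext (Subtype.ext (inj e))) (fun g => ?_)
    (finite_cover b hn f hdet) (fun g hg => ?_) (stable b h.aniso) TA β (fun H hH => ?_) p hp h5 hK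
    (fun τ => prime (hF τ) (hbf τ) hn hs h.star_ne) (fun τ => lrep (bf τ) (r τ))
    (pres hF hbf hFd hrd fun τ => (hr τ).det) (fun τ => (hr τ).rep3 _) (fun τ w hw h1 => ?_) N ?_
  · refine lmm_mem_mon b g.1.2.1 ((algebraMap K Ω).injective ?_)
    have h1 : (f g.1.1).det = 1 := g.2
    exact (hdet g.1.1).trans (by rw [h1, one_pow, map_one])
  · rw [hι, ← map_one (leftMulMatrix b), ← map_sub] at hg
    exact Subtype.ext (Subtype.ext (eq_one_of_nil h.aniso g.1.2.1
      ((IsNilpotent.map_iff inj).1 hg)))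
  · obtain ⟨ε, hε, h1⟩ := hTA (Fin (n ^ 2) × Fin (n ^ 2) × Fin (finrank ℚ K))
      (fun q => (β q.2.2 * b.repr 1 q.2.1) • b q.1) H hH
    refine ⟨ε, hε, fun g hg => h1 g (fun q => β.repr ((ι g - 1) q.1 q.2.1) q.2.2)
      (fun q hq j => hg q hq _ _ _) ?_⟩
    have h2 := el_lmm b (g.1.1 - 1) (b.equivFun 1)
    rw [LinearEquiv.symm_apply_apply, mul_one, map_sub, map_one, ← hι] at h2
    rw [← h2, Basis.equivFun_symm_apply, Fintype.sum_prod_type]
    refine Finset.sum_congr rfl fun i _ => ?_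
    rw [Fintype.sum_prod_type, mulVec, dotProduct, Finset.sum_smul]
    refine Finset.sum_congr rfl fun j _ => ?_
    conv_lhs => rw [← β.sum_repr ((ι g - 1) i j), Finset.sum_mul, Finset.sum_smul]
    refine Finset.sum_congr rfl fun l _ => ?_
    rw [← algebraMap_smul K (_ : k), map_ratCast, smul_smul, Rat.smul_def, mul_assoc, Basis.equivFun_apply]
  · obtain ⟨Z, hZ, h2⟩ := (hr τ).noncomm hw fun e => by simp [e] at h1
    refine ⟨_, (mem_lieE (hF τ) (hbf τ) hn hs h.star_ne).2 ⟨Z, hZ, rfl⟩, fun e => h2 ?_⟩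
    refine leftMulMatrix_injective (bf τ) ?_
    rw [map_mul, map_mul]
    exact e
  · by_contra hcon
    refine hN fun x hx => Subgroup.mem_center_iff.2 fun y => Subtype.ext (Subtype.ext ?_)
    have h1 : ∀ z : A, star z = -z → tr b z = 0 → x.1.1 * z = z * x.1.1 := fun z h2 h3 => by
      by_contra h4
      refine hcon ⟨x, hx, _, lmm_mem_lie b h2 h3, fun e => h4 (inj ?_)⟩
      rw [map_mul, map_mul]
      exact e
    have h0 : tr b 1 ≠ 0 := by
      rw [tr_one, hc]
      exact Nat.cast_ne_zero.2 (pow_ne_zero 2 hn)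
    obtain ⟨y₁, y₂, c₁, c₂, s₁, s₂, t₁, t₂, e⟩ := exists_skew b hs h.star_ne
      (y := y.1.1 - (tr b y.1.1 / tr b 1) • 1)
      (by rw [map_sub, map_smul, smul_eq_mul, div_mul_cancel₀ _ h0, sub_self])
    change y.1.1 * x.1.1 = x.1.1 * y.1.1
    rw [sub_eq_iff_eq_add.1 e]
    simp only [add_mul, mul_add, smul_mul_assoc, mul_smul_comm, h1 _ s₁ t₁, h1 _ s₂ t₂, one_mul,
      mul_one]

theorem mp_of_q1 {G H : Type} [Group G] [Group H] [TopologicalSpace H] {δ : G →* H} (hQ : Q1 δ)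
    (h : ∀ N : Subgroup G, N.Normal → ¬ N ≤ Subgroup.center G → N.FiniteIndex) : MP δ := by
  intro N hn hN
  obtain ⟨W, h1, h2, h3⟩ := hQ.2 N (h N hn hN).index_ne_zero
  exact ⟨W, h3 hn, h1, h2⟩

end Vale.Agent.P011Z
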