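import Vale.Agent.P011Z.Spec
import Vale.Agent.P011Z.Open
import Vale.Agent.P011Z.Cong
import Vale.Agent.P011Z.RC.Span
import Vale.Agent.P011Z.RC.Weak

/-!
Rational curves through the identity.
-/

open Matrix Topology Polynomial Filter

namespace Vale.Agent.P011Z

namespace Sys

open Crv

variable {n : Type} [Fintype n] [DecidableEq n] {S : Sys n}

omit [Fintype n] [DecidableEq n] in
theorem map_cast_smul {F : Type} [Field F] [CharZero F] (c : ℚ) (X : Matrix n n ℚ) :
    (c • X).map ((↑) : ℚ → F) = (c : F) • X.map ((↑) : ℚ → F) :=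
  Matrix.map_smul' _ _ _ Rat.cast_mul

omit [Fintype n] [DecidableEq n] in
theorem map_cast_add {F : Type} [Field F] [CharZero F] (X Y : Matrix n n ℚ) :
    (X + Y).map ((↑) : ℚ → F) = X.map ((↑) : ℚ → F) + Y.map ((↑) : ℚ → F) :=
  Matrix.map_add _ Rat.cast_add _ _

/-- A spanning set of the rational Lie algebra spans the Lie algebra over `F`. -/
theorem lie_le_span {F : Type} [Field F] [CharZero F] {A : Set (Matrix n n ℚ)}
    (h : S.lie ℚ ≤ Submodule.span ℚ A) :
    S.lie F ≤ Submodule.span F ((fun X : Matrix n n ℚ => X.map ((↑) : ℚ → F)) '' A) := by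
  rw [lie_eq_span (Rat.castHom F), Submodule.span_le]
  rintro _ ⟨X, hX, rfl⟩
  have h1 := h hX
  clear hX
  change X.map ((↑) : ℚ → F) ∈ Submodule.span F _
  induction h1 using Submodule.span_induction with
  | mem Y hY => exact Submodule.subset_span ⟨Y, hY, rfl⟩
  | zero =>
    rw [Matrix.map_zero _ Rat.cast_zero]
    exact zero_mem _
  | add Y Z _ _ hY hZ =>
    rw [map_cast_add]
    exact add_mem hY hZ
  | smul c Y _ hY =>
    rw [map_cast_smul]
    exact Submodule.smul_mem _ _ hY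

theorem Curve.bracket_mem {Λ : Subgroup (S.mon ℚ)} {P : Matrix n n ℚ[X]} {q : ℚ[X]}
    {X : Matrix n n ℚ} (hc : Curve Λ P q X) {F : Type} [Field F] [CharZero F]
    {I : Submodule F (Matrix n n F)}
    (hΛ : ∀ g ∈ Λ, ∀ Y ∈ I,
      (S.up F g : Matrix n n F) * Y * (((S.up F g)⁻¹ : S.mon F) : Matrix n n F) ∈ I)
    {Y : Matrix n n F} (hY : Y ∈ I) :
    X.map ((↑) : ℚ → F) * Y - Y * X.map ((↑) : ℚ → F) ∈ I := by
  have h1 : ∀ (Q : Matrix n n ℚ[X]) (u : ℚ),
      (Q.map (Polynomial.map (Rat.castHom F))).map (eval (u : F)) =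
        (Q.map (eval u)).map ((↑) : ℚ → F) := fun Q u => by
    ext i j
    exact (evAt_eq F _ _).symm.trans (evAt_cast F u _)
  have h2 : ∀ Q : Matrix n n ℚ[X],
      ((Q.map (Polynomial.map (Rat.castHom F))).map fun f => f.coeff 1) =
        (Q.map fun f => f.coeff 1).map ((↑) : ℚ → F) := fun Q => by
    ext i j
    exact coeff_map _ _
  have h3 := coeff_mem F I (P.map (Polynomial.map (Rat.castHom F)) * Y.map C *
      (Curve.invP S P).map (Polynomial.map (Rat.castHom F)))
    (((infinite_ne hc.q0).image (Rat.cast_injective (α := F)).injOn).mono ?_) 1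
  · have h0 := h1 P 0
    have h0' := h1 (Curve.invP S P) 0
    rw [Rat.cast_zero, hc.P0, Matrix.map_one _ Rat.cast_zero Rat.cast_one] at h0
    rw [Rat.cast_zero, hc.inv.P0, Matrix.map_one _ Rat.cast_zero Rat.cast_one] at h0'
    rw [coeff_mul', coeff_mul', eval_mul', eval_C', coeff_C', h0, h0', h2, h2,
      eq_add_of_sub_eq hc.tan.symm, eq_add_of_sub_eq hc.inv.tan.symm, map_cast_add, map_cast_add,
      map_cast_smul, Matrix.map_one _ Rat.cast_zero Rat.cast_one,
      Matrix.map_neg _ Rat.cast_neg] at h3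
    have h4 := sub_mem h3 (I.smul_mem (2 * ((q.coeff 1 : ℚ) : F)) hY)
    refine (congrArg (· ∈ I) ?_).mp h4
    simp only [one_mul, mul_one, mul_zero, zero_add, mul_add, add_mul, mul_neg, mul_smul_comm,
      smul_mul_assoc, two_mul, add_smul]
    abel
  · rintro _ ⟨u, hu, rfl⟩
    obtain ⟨g, hg, e⟩ := hc.mem u hu
    have h4 := I.smul_mem (((q.eval u : ℚ) : F) * ((q.eval u : ℚ) : F)) (hΛ g hg Y hY)
    have hu' : ((q.eval u : ℚ) : F) ≠ 0 := Rat.cast_ne_zero.2 hu
    rw [← map_inv, coe_up, coe_up, Curve.coe_inv_eq e, e, map_cast_smul, map_cast_smul,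
      smul_mul_assoc, smul_mul_smul_comm, smul_smul, Rat.cast_inv, ← mul_inv,
      mul_inv_cancel₀ (mul_ne_zero hu' hu'), one_smul] at h4
    rw [Set.mem_ofPred_eq, eval_mul', eval_mul', eval_C', h1, h1]
    exact h4

/-- An invariant subspace is an ideal. -/
theorem ideal_of_inv (h : S.NoNil) (Λ : Subgroup (S.mon ℚ)) [Λ.FiniteIndex] {F : Type} [Field F]
    [CharZero F] {I : Submodule F (Matrix n n F)} (hI : I ≤ S.lie F)
    (hΛ : ∀ g ∈ Λ, ∀ Y ∈ I,
      (S.up F g : Matrix n n F) * Y * (((S.up F g)⁻¹ : S.mon F) : Matrix n n F) ∈ I) :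
    S.IsIdeal F I := by
  refine ⟨hI, fun X hX Y hY => ?_⟩
  have h1 := lie_le_span (span_curves' h Λ) hX
  clear hX
  induction h1 using Submodule.span_induction with
  | mem Z hZ =>
    obtain ⟨Z, ⟨P, q, hc⟩, rfl⟩ := hZ
    exact hc.bracket_mem hΛ hY
  | zero => simp
  | add Z W _ _ hZ hW =>
    rw [add_mul, mul_add, add_sub_add_comm]
    exact add_mem hZ hW
  | smul c Z _ hZ =>
    rw [smul_mul_assoc, mul_smul_comm, ← smul_sub]
    exact I.smul_mem c hZ

theorem open_of_rat {N : Subgroup (S.mon ℚ)} {d : ℕ} {P : Fin d → Matrix n n ℚ[X]}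
    {q : Fin d → ℚ[X]} {X : Fin d → Matrix n n ℚ} (hc : ∀ i, Curve N (P i) (q i) (X i))
    (hs : S.lie ℚ ≤ Submodule.span ℚ (Set.range X)) (F : Type) [NontriviallyNormedField F]
    [CharZero F] [CompleteSpace F] :
    ∀ᶠ g : S.mon F in 𝓝 1, ∃ t : Fin d → F, (∀ i j, evAt F (t i) (q j) ≠ 0) ∧
      (g : Matrix n n F) = (List.ofFn fun i => val F (P i) (q i) (t i)).prod := by
  refine open_of_curves (S := S) (fun i => (hc i).strict (F := F)) (fun i => (hc i).val_zero F)
    (fun i => (hc i).eventually_ne.mono fun t ht => (hc i).val_mem ht) ?_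
    (eventually_all.2 fun j => (hc j).eventually_ne)
  refine (lie_le_span hs).trans (Submodule.span_mono ?_)
  rintro _ ⟨_, ⟨i, rfl⟩, rfl⟩
  exact ⟨i, rfl⟩

theorem nhds_of_span (N : Subgroup (S.mon ℚ))
    (h : S.lie ℚ ≤ Submodule.span ℚ {X | ∃ P q, Curve N P q X}) (T : Finset Nat.Primes) :
    ((N.map (S.diag T)).topologicalClosure : Set (S.GT T)) ∈ 𝓝 (1 : S.GT T) := by
  obtain ⟨s, hs1, hs2⟩ := (Submodule.fg_span_iff_fg_span_finset_subset _).1
    (IsNoetherian.noetherian (Submodule.span ℚ {X : Matrix n n ℚ | ∃ P q, Curve N P q X}))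
  choose P q hc using fun i : Fin s.card => hs1 (s.equivFin.symm i).2
  have hs : S.lie ℚ ≤ Submodule.span ℚ
      (Set.range fun i : Fin s.card => (s.equivFin.symm i : Matrix n n ℚ)) := by
    refine h.trans (hs2.le.trans (Submodule.span_mono fun Y hY => ⟨s.equivFin ⟨Y, hY⟩, ?_⟩))
    beta_reduce
    rw [Equiv.symm_apply_apply]
  let ι : S.GT T →* Matrix n n ℝ × ((p : T) → Matrix n n ℚ_[(p.1 : ℕ)]) :=
    (S.mon ℝ).subtype.prodMap (MonoidHom.pi fun p : T =>
      (S.mon ℚ_[(p.1 : ℕ)]).subtype.comp (Pi.evalMonoidHom _ p))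
  have hι : IsInducing ι :=
    IsInducing.subtypeVal.prodMap (IsInducing.piMap fun _ : T => IsInducing.subtypeVal)
  let H := ((N.map (S.diag T)).toSubmonoid.map ι).topologicalClosure
  let f : Fin s.card → ℝ × ((p : T) → ℚ_[(p.1 : ℕ)]) →
      Matrix n n ℝ × ((p : T) → Matrix n n ℚ_[(p.1 : ℕ)]) := fun i z =>
    (val ℝ (P i) (q i) z.1, fun p => val _ (P i) (q i) (z.2 p))
  have hf : ∀ i z, evAt ℝ z.1 (q i) ≠ 0 → (∀ p, evAt _ (z.2 p) (q i) ≠ 0) → f i z ∈ H := by
    intro i z hz hz'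
    have h1 : ContinuousAt (f i) z :=
      ((continuousAt_val (P i) hz).comp continuousAt_fst).prodMk (continuousAt_pi.2 fun p =>
        ContinuousAt.comp (f := fun z : ℝ × ((p : T) → ℚ_[(p.1 : ℕ)]) => z.2 p)
          (continuousAt_val (P i) (hz' p)) ((continuous_apply p).comp continuous_snd).continuousAt)
    have h2 : IsOpen {z : ℝ × ((p : T) → ℚ_[(p.1 : ℕ)]) | evAt ℝ z.1 (q i) ≠ 0} :=
      isOpen_ne_fun ((continuous_evAt (q i)).comp continuous_fst) continuous_const
    refine closure_mono ?_ (mem_closure_image h1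
      (Dense.open_subset_closure_inter (weak_approx T) h2 hz))
    rintro _ ⟨_, ⟨hu, u, rfl⟩, rfl⟩
    rw [Set.mem_ofPred_eq, evAt_cast, Rat.cast_ne_zero] at hu
    obtain ⟨g, hg, e⟩ := (hc i).mem u hu
    refine ⟨S.diag T g, ⟨g, hg, rfl⟩, Prod.ext ?_ (funext fun p => ?_)⟩
    · exact (congrArg (fun M : Matrix n n ℚ => M.map _) e).trans (val_cast ℝ _ _ u).symm
    · exact (congrArg (fun M : Matrix n n ℚ => M.map _) e).trans
        (val_cast ℚ_[(p.1 : ℕ)] _ _ u).symm
  have h1 := (continuous_fst.tendsto (1 : S.GT T)).eventually (open_of_rat hc hs ℝ)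
  have h2 := eventually_all.2 fun p : T =>
    (((continuous_apply p).comp continuous_snd).tendsto (1 : S.GT T)).eventually
      (open_of_rat hc hs ℚ_[(p.1 : ℕ)])
  filter_upwards [h1, h2] with g hg hg'
  obtain ⟨t, ht, e⟩ := hg
  choose u hu e' using hg'
  have h3 : (List.ofFn fun i => f i (t i, fun p => u p i)).prod ∈ H := by
    refine list_prod_mem fun y hy => ?_
    obtain ⟨i, rfl⟩ := List.mem_ofFn.1 hy
    exact hf i _ (ht i i) fun p => hu p i i
  have h4 : (List.ofFn fun i => f i (t i, fun p => u p i)).prod = ι g := by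
    refine Prod.ext ?_ (funext fun p => ?_)
    · refine (map_list_prod (MonoidHom.fst (Matrix n n ℝ) ((p : T) → Matrix n n ℚ_[(p.1 : ℕ)]))
        _).trans ?_
      rw [List.map_ofFn]
      exact e.symm
    · refine (map_list_prod ((Pi.evalMonoidHom (fun p : T => Matrix n n ℚ_[(p.1 : ℕ)]) p).comp
        (MonoidHom.snd (Matrix n n ℝ) _)) _).trans ?_
      rw [List.map_ofFn]
      exact (e' p).symm
  rw [h4] at h3
  rw [Subgroup.topologicalClosure_coe, hι.closure_eq_preimage_closure_image]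
  exact h3

/-- The closure of a noncentral normal subgroup is open. -/
theorem nhds_of_normal (h : S.NoNil) (hP : S.Prime) (Λ : Subgroup (S.mon ℚ)) [Λ.FiniteIndex]
    {N : Subgroup (S.mon ℚ)} (hn : ∀ g ∈ Λ, ∀ x ∈ N, g * x * g⁻¹ ∈ N)
    (hx : ∃ x ∈ N, ¬ S.Cent ℚ (x : Matrix n n ℚ)) (T : Finset Nat.Primes) :
    ((N.map (S.diag T)).topologicalClosure : Set (S.GT T)) ∈ 𝓝 (1 : S.GT T) := by
  refine nhds_of_span N (ideal_eq_lie hP (trNd_of_noNil h) (ideal_of_inv h Λ ?_ ?_) ?_).ge T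
  · exact Submodule.span_le.2 fun _ ⟨_, _, hc⟩ => hc.mem_lie
  · intro g hg Y hY
    have h1 : S.up ℚ g = g := Subtype.ext (by
      ext i j
      exact Rat.cast_id _)
    rw [h1]
    induction hY using Submodule.span_induction with
    | mem Z hZ =>
      obtain ⟨P, q, hc⟩ := hZ
      exact Submodule.subset_span ⟨_, _, hc.conj g (hn g hg)⟩
    | zero => simp
    | add Z W _ _ hZ hW =>
      rw [mul_add, add_mul]
      exact add_mem hZ hW
    | smul c Z _ hZ =>
      rw [mul_smul_comm, smul_mul_assoc]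
      exact Submodule.smul_mem _ c hZ
  · intro h0
    obtain ⟨x, hx, hx'⟩ := hx
    refine hx' fun X hX => ?_
    have h1 := span_curves' h Λ hX
    clear hX
    induction h1 using Submodule.span_induction with
    | mem Z hZ =>
      obtain ⟨P, q, hc⟩ := hZ
      have h2 : (x : Matrix n n ℚ) * Z * ((x⁻¹ : S.mon ℚ) : Matrix n n ℚ) - Z ∈
          Submodule.span ℚ {X | ∃ P q, Curve N P q X} := by
        refine Submodule.subset_span (hc.comm x fun g hg => ?_)
        have h3 := mul_mem hx (hn g hg _ (inv_mem hx))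
        simpa only [mul_assoc] using h3
      rw [h0, Submodule.mem_bot, sub_eq_zero] at h2
      rw [← h2, mul_assoc _ _ (x : Matrix n n ℚ), coe_inv_mul, mul_one, h2]
    | zero => simp
    | add Z W _ _ hZ hW => rw [mul_add, add_mul, hZ, hW]
    | smul c Z _ hZ => rw [mul_smul_comm, smul_mul_assoc, hZ]

end Sys

end Vale.Agent.P011Z
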