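import Vale.Agent.P011Z.Fund

/-!
The amenability half of the normal subgroup theorem.
-/

open Topology MeasureTheory Filter

namespace Vale.Agent.P011Z

variable {G : Type} [Group G] [TopologicalSpace G] [IsTopologicalGroup G] [T2Space G]
  [LocallyCompactSpace G] [SecondCountableTopology G]

namespace RW

section defs

variable {G : Type} [Group G] [MeasurableSpace G]

/-- measurable and bounded by one -/
def Good (f : G → ℝ) : Prop := Measurable f ∧ ∀ x, |f x| ≤ 1

/-- right convolution -/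
noncomputable def T (κ : Measure G) (f : G → ℝ) (x : G) : ℝ := ∫ g, f (x * g) ∂κ

/-- the translates of the measure depend continuously on the point, in total variation -/
def Reg [TopologicalSpace G] (ν : Measure G) : Prop :=
  ∀ ε : ℝ, 0 < ε → ∀ᶠ y in 𝓝 (1 : G), ∀ f, Good f → |T ν f y - T ν f 1| < ε

omit [Group G] in
theorem Good.int {f : G → ℝ} (hf : Good f) (κ : Measure G) [IsFiniteMeasure κ] :
    Integrable f κ := .of_bound hf.1.aestronglyMeasurable 1 (.of_forall hf.2)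

variable [MeasurableMul₂ G] {f : G → ℝ}

theorem Good.left (hf : Good f) (x : G) : Good fun g => f (x * g) :=
  ⟨hf.1.comp (measurable_const_mul x), fun _ => hf.2 _⟩

theorem Good.t (hf : Good f) (κ : Measure G) [IsProbabilityMeasure κ] : Good (T κ f) :=
  ⟨(hf.1.comp measurable_mul).stronglyMeasurable.integral_prod_right'.measurable, fun x => by
    simpa [T] using norm_integral_le_of_norm_le_const (μ := κ) (f := fun g => f (x * g)) (C := 1)
      (.of_forall (hf.left x).2)⟩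

omit [MeasurableMul₂ G] in
theorem T_left (κ : Measure G) (f : G → ℝ) (x y : G) :
    T κ (fun g => f (x * g)) y = T κ f (x * y) := by simp only [T, mul_assoc]

theorem T_lim (κ : Measure G) [IsFiniteMeasure κ] {F : ℕ → G → ℝ} (hF : ∀ j, Good (F j))
    (h : ∀ x, Tendsto (F · x) atTop (𝓝 (f x))) (x : G) :
    Tendsto (fun j => T κ (F j) x) atTop (𝓝 (T κ f x)) :=
  tendsto_integral_of_dominated_convergence (fun _ => 1)
    (fun j => ((hF j).left x).1.aestronglyMeasurable) (integrable_const _)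
    (fun j => .of_forall ((hF j).left x).2) (.of_forall fun _ => h _)

omit [Group G] [MeasurableMul₂ G] in
theorem Good.lim {F : ℕ → G → ℝ} (hF : ∀ j, Good (F j))
    (h : ∀ x, Tendsto (F · x) atTop (𝓝 (f x))) : Good f :=
  ⟨measurable_of_tendsto_metrizable (fun j => (hF j).1) (tendsto_pi_nhds.2 h),
    fun x => le_of_tendsto' (h x).abs fun j => (hF j).2 x⟩

/-- the Cesaro averages of the convolution powers -/
theorem exists_avg (ν : Measure G) [IsProbabilityMeasure ν] (k : ℕ) :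
    ∃ κ : Measure G, IsProbabilityMeasure κ ∧ ∀ f, Good f → ∀ x,
      |T ν (T κ f) x - T κ f x| ≤ 2 / (k + 1) := by
  obtain ⟨p, hp, hs⟩ : ∃ p : ℕ → Measure G, (∀ j, IsProbabilityMeasure (p j)) ∧
      ∀ j, p (j + 1) = ν ∗ₘ p j := by
    let q : ℕ → {μ : Measure G // IsProbabilityMeasure μ} := fun j =>
      Nat.rec ⟨.dirac 1, inferInstance⟩ (fun _ μ => ⟨ν ∗ₘ μ.1, have := μ.2; inferInstance⟩) j
    exact ⟨fun j => (q j).1, fun j => (q j).2, fun _ => rfl⟩
  have hk : (0 : ℝ) < k + 1 := by positivity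
  refine ⟨((k + 1 : ℕ) : ENNReal)⁻¹ • ∑ j ∈ Finset.range (k + 1), p j, ⟨?_⟩, fun f hf x => ?_⟩
  · rw [Measure.smul_apply, Measure.finsetSum_apply]
    simp only [measure_univ, Finset.sum_const, Finset.card_range, nsmul_one, smul_eq_mul]
    exact ENNReal.inv_mul_cancel (by simp) (by simp)
  have e1 : T (((k + 1 : ℕ) : ENNReal)⁻¹ • ∑ j ∈ Finset.range (k + 1), p j) f =
      fun x => (k + 1 : ℝ)⁻¹ * ∑ j ∈ Finset.range (k + 1), T (p j) f x := by
    funext x
    rw [T, integral_smul_measure, integral_finsetSum_measure fun j _ => (hf.left x).int _,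
      ENNReal.toReal_inv, ENNReal.toReal_natCast, Nat.cast_succ]
    rfl
  have e2 : ∀ j, T ν (T (p j) f) x = T (p (j + 1)) f x := fun j => by
    rw [hs]
    refine Eq.trans ?_ (integral_mconv ((hf.left x).int (ν ∗ₘ p j))).symm
    simp only [T, mul_assoc]
  rw [e1, T, integral_const_mul, integral_finsetSum _ fun j _ => ((hf.t (p j)).left x).int ν,
    ← mul_sub, ← Finset.sum_sub_distrib]
  change |_ * ∑ j ∈ _, (T ν (T (p j) f) x - _)| ≤ _
  simp only [e2]
  rw [Finset.sum_range_sub (fun j => T (p j) f x), abs_mul, abs_of_pos (inv_pos.2 hk),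
    inv_mul_eq_div]
  gcongr
  linarith [abs_sub (T (p (k + 1)) f x) (T (p 0) f x), (hf.t (p (k + 1))).2 x, (hf.t (p 0)).2 x]

end defs

variable [MeasurableSpace G] [BorelSpace G]

omit [T2Space G] in
theorem exists_reg : ∃ ν : Measure G, IsProbabilityMeasure ν ∧ ν.IsOpenPosMeasure ∧ Reg ν := by
  let m : Measure G := Measure.haar
  refine ⟨m.toFinite, inferInstance, (absolutelyContinuous_toFinite m).isOpenPosMeasure,
    fun ε hε => ?_⟩
  have hi : Integrable (fun x => (m.toFinite.rnDeriv m x).toReal) m :=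
    Measure.integrable_toReal_rnDeriv
  have he : ∀ f : G → ℝ, ∫ x, (m.toFinite.rnDeriv m x).toReal * f x ∂m = ∫ x, f x ∂m.toFinite :=
    fun f => integral_toReal_rnDeriv_mul (toFinite_absolutelyContinuous m)
  obtain ⟨ρ, hρ⟩ : ∃ ρ : G → ℝ, ∀ x, (m.toFinite.rnDeriv m x).toReal = ρ x := ⟨_, fun _ => rfl⟩
  simp only [hρ] at hi he
  have : Fact ((1 : ENNReal) ≠ ⊤) := ⟨ENNReal.one_ne_top⟩
  have hc : Continuous fun y : G => DomMulAct.mk y⁻¹ • hi.toL1 ρ :=
    (DomMulAct.continuous_mk.comp continuous_inv).smul continuous_const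
  have h1 := Metric.tendsto_nhds.1 (hc.tendsto' 1 (hi.toL1 ρ) (by simp)) ε hε
  filter_upwards [h1] with y hy f hf
  have h2 : dist (DomMulAct.mk y⁻¹ • hi.toL1 ρ) (hi.toL1 ρ) = ∫ x, |ρ (y⁻¹ * x) - ρ x| ∂m := by
    rw [L1.dist_eq_integral_dist]
    refine integral_congr_ae ?_
    filter_upwards [DomMulAct.smul_Lp_ae_eq (DomMulAct.mk y⁻¹) (hi.toL1 ρ), hi.coeFn_toL1,
      (measurePreserving_mul_left m y⁻¹).quasiMeasurePreserving.ae_eq_comp hi.coeFn_toL1]
      with x a1 a2 a3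
    rw [a1, a2, Real.dist_eq]
    exact congrArg (|· - ρ x|) a3
  have h3 : T m.toFinite f y = ∫ x, ρ (y⁻¹ * x) * f x ∂m := by
    rw [T, ← he, ← integral_mul_left_eq_self _ y⁻¹]
    simp only [mul_inv_cancel_left]
  have hi' : Integrable (fun x => ρ (y⁻¹ * x)) m := hi.comp_mul_left _
  have h4 : ∀ {σ : G → ℝ}, Integrable σ m → Integrable (fun x => σ x * f x) m := fun h =>
    h.mul_bdd hf.1.aestronglyMeasurable (.of_forall hf.2)
  rw [h3, T, ← he]
  simp only [one_mul]
  rw [← integral_sub (h4 hi') (h4 hi)]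
  refine lt_of_le_of_lt (norm_integral_le_of_norm_le (f := fun x => ρ (y⁻¹ * x) * f x - ρ x * f x)
    (g := fun x => |ρ (y⁻¹ * x) - ρ x|) (hi'.sub hi).abs (.of_forall fun x => ?_)) (h2 ▸ hy)
  rw [← sub_mul, Real.norm_eq_abs, abs_mul]
  exact mul_le_of_le_one_right (abs_nonneg _) (hf.2 x)

variable {ν : Measure G} [IsProbabilityMeasure ν]

omit [T2Space G] [LocallyCompactSpace G] [IsProbabilityMeasure ν] in
theorem Reg.equi (h : Reg ν) {ι : Type} {F : ι → G → ℝ} (hF : ∀ j, Good (F j)) :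
    Equicontinuous fun j => T ν (F j) := by
  intro x
  refine Metric.equicontinuousAt_iff_right.2 fun ε hε => ?_
  have t : Tendsto (fun y => x⁻¹ * y) (𝓝 x) (𝓝 1) :=
    (continuous_const_mul x⁻¹).tendsto' x 1 (inv_mul_cancel x)
  filter_upwards [t.eventually (h ε hε)] with y hy j
  have := hy _ ((hF j).left x)
  rwa [T_left, T_left, mul_one, mul_inv_cancel_left, abs_sub_comm] at this

omit [T2Space G] [LocallyCompactSpace G] in
theorem Reg.subseq (h : Reg ν) {F : ℕ → G → ℝ} (hF : ∀ j, Good (F j)) :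
    ∃ (f : G → ℝ) (φ : ℕ → ℕ), StrictMono φ ∧
      ∀ x, Tendsto (fun j => T ν (F (φ j)) x) atTop (𝓝 (f x)) := by
  obtain ⟨f, -, hf⟩ := (isCompact_univ_pi fun _ : G => isCompact_Icc (a := (-1 : ℝ))
    (b := 1)).exists_mapClusterPt_of_frequently (l := atTop) (f := fun j => T ν (F j))
    (.of_forall fun j x _ => abs_le.1 (((hF j).t ν).2 x))
  obtain ⟨U, hU, hU'⟩ := mapClusterPt_iff_ultrafilter.1 hf
  have hc : Continuous f := hU'.continuous_of_equicontinuous (h.equi hF)
  obtain ⟨φ, hφ, ht⟩ := (hf.continuousAt_comp (f := fun (u : G → ℝ) (i : ℕ) =>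
    u (TopologicalSpace.denseSeq G i))
    (continuous_pi fun _ => continuous_apply _).continuousAt).tendsto_subseq
  refine ⟨f, φ, hφ, fun x => ?_⟩
  exact (TopologicalSpace.denseRange_denseSeq G).induction_on x
    ((h.equi fun j => hF (φ j)).isClosed_setOfPred_tendsto hc) fun i => tendsto_pi_nhds.1 ht i

omit [T2Space G] [LocallyCompactSpace G] [SecondCountableTopology G] [BorelSpace G] in
theorem maxp [ν.IsOpenPosMeasure] {u : G → ℝ} (hu : Continuous u) {c : G}
    (hi : Integrable (fun g => u (c * g)) ν) (hM : ∀ x, u x ≤ u c) (h : T ν u c = u c) (x : G) :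
    u x = u c := by
  by_contra hx
  have h1 := integral_pos_of_integrable_nonneg_nonzero (μ := ν) (f := fun g => u c - u (c * g))
    (x := c⁻¹ * x) (by fun_prop) ((integrable_const _).sub hi) (fun g => sub_nonneg.2 (hM _))
    (by rw [mul_inv_cancel_left]; exact sub_ne_zero.2 (Ne.symm hx))
  rw [integral_sub (integrable_const _) hi] at h1
  simp only [integral_const, probReal_univ, one_smul] at h1
  exact (sub_pos.1 h1).ne h

omit [T2Space G] [LocallyCompactSpace G] in
theorem step [ν.IsOpenPosMeasure] (hν : Reg ν) {h : G → ℝ} (hg : Good h) (hh : T ν h = h)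
    {Δ : Subgroup G} (hΔ : Coc Δ) (n : G) (hn : ∀ γ ∈ Δ, ∀ x, h (n * (γ * x)) = h (γ * (n * x)))
    (x : G) : h (n * x) ≤ h x := by
  obtain ⟨C, hC, hΔ⟩ := hΔ
  have hb : BddAbove (Set.range fun x => h (n * x) - h x) :=
    ⟨2, by rintro _ ⟨x, rfl⟩; linarith [abs_le.1 (hg.2 (n * x)), abs_le.1 (hg.2 x)]⟩
  obtain ⟨a, -, ha, ha'⟩ := exists_seq_tendsto_sSup (Set.range_nonempty _) hb
  have hM : ∀ x, h (n * x) - h x ≤ _ := fun x => le_csSup hb ⟨x, rfl⟩
  generalize sSup (Set.range fun x => h (n * x) - h x) = M at ha hM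
  choose y hy using ha'
  choose γ hγ c hc e using fun j => hΔ (y j)
  obtain ⟨c₀, -, φ, hφ, hc₀⟩ := hC.tendsto_subseq hc
  have hF : ∀ j, Good fun g => h (γ j * g) := fun j => hg.left _
  have e1 : ∀ j, T ν (fun g => h (γ j * g)) = fun g => h (γ j * g) := fun j =>
    funext fun z => by rw [T_left, hh]
  obtain ⟨f, ψ, hψ, hf⟩ := hν.subseq fun j => hF (φ j)
  have he := hν.equi fun j => hF (φ (ψ j))
  simp only [e1] at hf he
  have hfg : Good f := Good.lim (fun j => hF _) hf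
  have hff : ∀ z, T ν f z = f z := fun z => tendsto_nhds_unique (T_lim ν (fun j => hF _) hf z)
    (by simpa only [e1] using hf z)
  have hfc : Continuous f := (tendsto_pi_nhds.2 hf).continuous_of_equicontinuous he
  have t1 : ∀ z, Tendsto (fun j => h (γ (φ (ψ j)) * (z * c (φ (ψ j))))) atTop (𝓝 (f (z * c₀))) := by
    intro z
    refine (hf (z * c₀)).congr_dist (Metric.tendsto_nhds.2 fun ε hε => ?_)
    filter_upwards [((hc₀.comp hψ.tendsto_atTop).const_mul z).eventually
      (Metric.equicontinuousAt_iff_right.1 (he (z * c₀)) ε hε)] with j hj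
    simpa using hj j
  have h1 : f (n * c₀) - f c₀ = M := by
    refine tendsto_nhds_unique ?_ (ha.comp (hφ.comp hψ).tendsto_atTop)
    refine ((t1 n).sub (by simpa using t1 1)).congr fun j => ?_
    simp only [Function.comp, ← hy, e, hn _ (hγ _)]
  have h2 : ∀ z, f (n * z) - f z ≤ M := fun z =>
    le_of_tendsto' ((hf _).sub (hf _)) fun j => by rw [← hn _ (hγ _)]; exact hM _
  have i1 := ((hfg.left n).left c₀).int ν
  have i2 := (hfg.left c₀).int ν
  have h3 := maxp (ν := ν) (u := fun z => f (n * z) - f z) (by fun_prop) (i1.sub i2)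
    (fun z => (h2 z).trans h1.ge) (by
      rw [T, integral_sub i1 i2, ← hff, ← hff c₀]
      simp only [T, mul_assoc])
  have h4 : ∀ k : ℕ, f (n ^ k) = f 1 + k * M := by
    intro k
    induction k with
    | zero => simp
    | succ k ih =>
      have := (h3 (n ^ k)).trans h1
      rw [pow_succ']
      push_cast
      linarith
  by_contra hx
  have hM0 : 0 < M := by linarith [hM x]
  obtain ⟨k, hk⟩ := exists_nat_gt (2 / M)
  rw [div_lt_iff₀ hM0] at hk
  linarith [h4 k, abs_le.1 (hfg.2 (n ^ k)), abs_le.1 (hfg.2 1)]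

omit [T2Space G] [LocallyCompactSpace G] in
theorem liouville [ν.IsOpenPosMeasure] (hν : Reg ν) {Γ N : Subgroup G} (hc : Coc Γ)
    (hN : N.topologicalClosure.FiniteIndex) (hn : ∀ γ ∈ Γ, ∀ x ∈ N, γ * x * γ⁻¹ ∈ N)
    (hcom : ∀ x ∈ N, (Γ.comap (MulAut.conj x).toMonoidHom).relIndex Γ ≠ 0)
    {h : G → ℝ} (hg : Good h) (hh : T ν h = h) (hi : ∀ γ ∈ Γ, γ ∈ N → ∀ x, h (γ * x) = h x)
    (x y : G) : h x = h y := by
  have h1 : ∀ n ∈ N, ∀ x, h (n * x) ≤ h x := by
    intro n hn'
    refine step hν hg hh (hc.of_relIndex (Γ' := Γ.comap (MulAut.conj n).toMonoidHom ⊓ Γ)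
      (by rw [Subgroup.inf_relIndex_right]; exact hcom n hn')) n fun γ hγ x => ?_
    have a1 : n * γ * n⁻¹ ∈ Γ := hγ.1
    have a2 := N.mul_mem hn' (hn γ hγ.2 _ (N.inv_mem hn'))
    rw [← hi _ (Γ.mul_mem a1 (Γ.inv_mem hγ.2)) (by simpa only [mul_assoc] using a2) (γ * (n * x))]
    simp only [mul_assoc, inv_mul_cancel_left]
  have hco : Continuous h := hh ▸ (hν.equi fun _ : Unit => hg).continuous ()
  have h2 : ∀ x, ∀ n ∈ N.topologicalClosure, h (n * x) = h x := fun x _ hm =>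
    closure_minimal (s := (N : Set G)) (t := {n | h (n * x) = h x})
      (fun n hn' => le_antisymm (h1 n hn' x) (by simpa using h1 _ (N.inv_mem hn') (n * x)))
      (isClosed_eq (by fun_prop) continuous_const) hm
  obtain ⟨q, hq⟩ := Finite.exists_max fun q : G ⧸ N.topologicalClosure => h (q.out)⁻¹
  have h3 := maxp (ν := ν) hco ((hg.left (q.out)⁻¹).int ν) (fun z => by
    obtain ⟨t, ht⟩ := QuotientGroup.mk_out_eq_mul N.topologicalClosure z⁻¹
    have := hq (z⁻¹ : G)
    rwa [ht, mul_inv_rev, inv_inv, h2 _ _ (Subgroup.inv_mem _ t.2)] at this) (congrFun hh _)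
  rw [h3 x, h3 y]

omit [Group G] [IsTopologicalGroup G] [T2Space G] [LocallyCompactSpace G]
  [SecondCountableTopology G] [TopologicalSpace G] [BorelSpace G] in
theorem law {Q : Type} [Countable Q] {q : G → Q} (hq : ∀ s, MeasurableSet {x | q x = s})
    (κ : Measure G) [IsFiniteMeasure κ] {φ : Q → ℝ} (hφ : ∀ s, |φ s| ≤ 1) :
    Good (fun x => φ (q x)) ∧
      HasSum (fun s => φ s * κ.real {x | q x = s}) (∫ x, φ (q x) ∂κ) := by
  have hg : Good fun x => φ (q x) := by
    refine ⟨fun t _ => ?_, fun x => hφ _⟩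
    have e : (fun x => φ (q x)) ⁻¹' t = ⋃ s ∈ φ ⁻¹' t, {x | q x = s} := by
      ext x
      simp
    rw [e]
    exact .biUnion (Set.to_countable _) fun s _ => hq s
  have h := hasSum_integral_iUnion hq (fun s t hst => Set.disjoint_left.2 fun x a b =>
    hst (a.symm.trans b)) (hg.int κ).integrableOn
  rw [Set.iUnion_eq_univ_iff.2 fun x => ⟨q x, rfl⟩, setIntegral_univ] at h
  refine ⟨hg, h.congr_fun fun s => ?_⟩
  rw [setIntegral_congr_fun (hq s) (g := fun _ => φ s) fun x hx => congrArg φ hx,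
    setIntegral_const, smul_eq_mul, mul_comm]

omit [T2Space G] [LocallyCompactSpace G] in
theorem avg (hν : Reg ν) {Λ : Set G} (hL : ∀ h, Good h → T ν h = h →
      (∀ γ ∈ Λ, ∀ x, h (γ * x) = h x) → ∀ x y, h x = h y) {F : ℕ → G → ℝ} (hF : ∀ k, Good (F k))
    (hi : ∀ k, ∀ γ ∈ Λ, ∀ x, F k (γ * x) = F k x)
    (h : ∀ k x, |T ν (F k) x - F k x| ≤ 2 / (k + 1)) (x y : G) :
    Tendsto (fun k => F k x - F k y) atTop (𝓝 0) := by
  refine tendsto_of_subseq_tendsto fun ns hns => ?_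
  obtain ⟨f, φ, hφ, hf⟩ := hν.subseq fun j => hF (ns j)
  have t0 := (tendsto_one_div_add_atTop_nhds_zero_nat (𝕜 := ℝ)).const_mul 2
  have t : ∀ z, Tendsto (fun j => F (ns (φ j)) z) atTop (𝓝 (f z)) := fun z =>
    (hf z).congr_dist (squeeze_zero (fun _ => dist_nonneg) (fun j => h _ z)
      (by simpa only [mul_one_div, mul_zero, Function.comp_def] using t0.comp (hns.comp hφ.tendsto_atTop)))
  have := (t x).sub (t y)
  rw [hL f (.lim (fun _ => hF _) t)
    (funext fun z => tendsto_nhds_unique (T_lim ν (fun _ => hF _) t z) (hf z))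
    (fun γ hγ z => tendsto_nhds_unique (t _) (by simpa only [hi _ γ hγ] using t z)) x y,
    sub_self] at this
  exact ⟨φ, this⟩

end RW

open RW in
/-- Almost invariant probability vectors on the quotient of `Γ` by `Γ ⊓ N`. -/
theorem reiter (Γ N : Subgroup G) [DiscreteTopology Γ] (hc : Coc Γ)
    (hN : N.topologicalClosure.FiniteIndex) (hn : ∀ γ ∈ Γ, ∀ x ∈ N, γ * x * γ⁻¹ ∈ N)
    (hcom : ∀ x ∈ N, (Γ.comap (MulAut.conj x).toMonoidHom).relIndex Γ ≠ 0)
    (Φ : Finset Γ) {ε : ℝ} (hε : 0 < ε) :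
    ∃ p : Γ ⧸ N.subgroupOf Γ → ℝ, (∀ s, 0 ≤ p s) ∧ HasSum p 1 ∧
      ∀ γ ∈ Φ, ∑' s, |p (γ • s) - p s| ≤ ε := by
  borelize G
  obtain ⟨ν, h1, h2, hν⟩ := exists_reg (G := G)
  obtain ⟨r, hm, hr, -⟩ := exists_retr Γ hc
  have : Countable Γ := countable_of_Lindelof_of_discrete
  have : Countable (Γ ⧸ N.subgroupOf Γ) := QuotientGroup.mk_surjective.countable
  obtain ⟨q, hq, hq1, hq2⟩ : ∃ q : G → Γ ⧸ N.subgroupOf Γ, (∀ s, MeasurableSet {x | q x = s}) ∧
      (∀ (γ : Γ) x, q (γ * x) = γ • q x) ∧ ∀ γ ∈ Γ, γ ∈ N → ∀ x, q (γ * x) = q x := by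
    refine ⟨fun x => r x, fun s => ?_, fun γ x => by simp only [hr]; rfl, fun γ a b x => ?_⟩
    · have e : {x | ((r x : Γ) : Γ ⧸ N.subgroupOf Γ) = s} =
          ⋃ γ ∈ {γ : Γ | (γ : Γ ⧸ N.subgroupOf Γ) = s}, {x | r x = γ} := by
        ext x
        simp
      rw [e]
      exact .biUnion (Set.to_countable _) fun γ _ => hm γ
    · refine (QuotientGroup.eq.2 ?_).symm
      rw [hr ⟨γ, a⟩, Subgroup.mem_subgroupOf]
      simpa [mul_assoc] using hn _ (r x)⁻¹.2 γ b
  choose κ hκ hκ' using exists_avg ν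
  have key : ∀ γ : Γ, Tendsto (fun k => ∑' s, |(κ k).real {x | q x = γ • s} -
      (κ k).real {x | q x = s}|) atTop (𝓝 0) := by
    intro γ
    obtain ⟨φ, hφ, hφ'⟩ : ∃ φ : ℕ → Γ ⧸ N.subgroupOf Γ → ℝ, (∀ k s, |φ k s| ≤ 1) ∧ ∀ k s,
        |(κ k).real {x | q x = γ • s} - (κ k).real {x | q x = s}| =
          φ k s * (κ k).real {x | q x = γ • s} - φ k s * (κ k).real {x | q x = s} := by
      refine ⟨fun k s => if (κ k).real {x | q x = s} ≤ (κ k).real {x | q x = γ • s} then 1 else -1,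
        fun k s => by dsimp only; split_ifs <;> simp, fun k s => ?_⟩
      dsimp only
      split_ifs with h
      · rw [abs_of_nonneg (sub_nonneg.2 h), one_mul, one_mul]
      · rw [abs_of_neg (sub_neg.2 (not_le.1 h))]
        ring
    have e : ∀ s, {x | q ((γ⁻¹ : Γ) * x) = s} = {x | q x = γ • s} := fun s =>
      Set.ext fun x => by simp only [Set.mem_ofPred_eq, hq1, inv_smul_eq_iff]
    refine (avg hν (Λ := {γ | γ ∈ Γ ∧ γ ∈ N})
      (fun h a b c => liouville hν hc hN hn hcom a b fun γ u v => c γ ⟨u, v⟩)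
      (fun k => (law hq (κ k) (hφ k)).1.t (κ k))
      (fun k γ hγ x => by simp only [T, mul_assoc, hq2 γ hγ.1 hγ.2])
      (fun k => hκ' k _ (law hq (κ k) (hφ k)).1) (γ⁻¹ : Γ) 1).congr fun k => ?_
    have a1 := (law (q := fun x => q ((γ⁻¹ : Γ) * x)) (fun s => e s ▸ hq _) (κ k) (hφ k)).2
    simp only [e] at a1
    simp only [hφ', (a1.sub (law hq (κ k) (hφ k)).2).tsum_eq, T, one_mul]
  obtain ⟨k, hk⟩ := ((Φ.eventually_all).2 fun γ _ => (key γ).eventually_le_const hε).exists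
  refine ⟨fun s => (κ k).real {x | q x = s}, fun _ => measureReal_nonneg, ?_, hk⟩
  simpa using (law hq (κ k) (φ := fun _ => 1) (by simp)).2

end Vale.Agent.P011Z
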