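import Vale.Agent.P011Z.RC
import Vale.Agent.P011Z.SAP.Tan

/-!
Strong approximation: the finite places.
-/

open Matrix Topology Filter
open scoped Matrix.Norms.Elementwise

namespace Vale.Agent.P011Z

namespace SP

variable {n : Type} [Fintype n] [DecidableEq n] {S : Sys n}

theorem padic_dense (p : ℕ) [Fact p.Prime] (u : ℚ_[p]) (hu : ‖u‖ ≤ 1) (ε : ℝ) (hε : 0 < ε) :
    ∃ m : ℕ, ‖(m : ℚ_[p]) - u‖ ≤ ε := by
  obtain ⟨v, rfl⟩ : ∃ v : ℤ_[p], (v : ℚ_[p]) = u := ⟨⟨u, hu⟩, rfl⟩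
  obtain ⟨m, hm⟩ := PadicInt.denseRange_natCast.exists_dist_lt v hε
  rw [dist_comm, dist_eq_norm, PadicInt.norm_def] at hm
  exact ⟨m, by simpa using hm.le⟩

theorem exists_crt (T : Finset Nat.Primes) (q : T) (i : ℕ) :
    ∃ u : ℕ, ∀ l : T, l ≠ q → (l.1 : ℕ) ^ i ∣ (q.1 : ℕ) ^ i * u + 1 := by
  classical
  set b := ∏ l ∈ Finset.univ.erase q, (l.1 : ℕ) ^ i with hb
  have h1 : Nat.Coprime ((q.1 : ℕ) ^ i) b :=
    Nat.Coprime.prod_right fun l hl => Nat.Coprime.pow _ _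
      ((Nat.coprime_primes q.1.2 l.1.2).2 fun h =>
        Finset.ne_of_mem_erase hl (Subtype.ext (Subtype.ext h.symm)))
  have h2 : b ≠ 0 := Finset.prod_ne_zero_iff.2 fun l _ => pow_ne_zero _ l.1.2.ne_zero
  obtain ⟨u, -, hu⟩ := Nat.exists_mul_mod_eq_of_coprime (b - 1) h1 h2
  refine ⟨u, fun l hl => (Finset.dvd_prod_of_mem (fun l : T => (l.1 : ℕ) ^ i)
    (Finset.mem_erase.2 ⟨hl, Finset.mem_univ _⟩)).trans ?_⟩
  have h3 : (q.1 : ℕ) ^ i * u + 1 ≡ b - 1 + 1 [MOD b] := Nat.ModEq.add_right 1 hu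
  rw [Nat.sub_add_cancel (Nat.one_le_iff_ne_zero.2 h2)] at h3
  exact (Nat.modEq_zero_iff_dvd.1 (h3.trans (Nat.modEq_zero_iff_dvd.2 dvd_rfl)))

theorem tendsto_pow_one {p : ℕ} [Fact p.Prime] {g : S.mon ℚ_[p]}
    (h : ‖(g : Matrix n n ℚ_[p]) - 1‖ ≤ ‖(p : ℚ_[p])‖) {m : ℕ → ℕ} (hm : ∀ i, p ^ i ∣ m i) :
    Tendsto (fun i => g ^ m i) atTop (𝓝 1) := by
  have h1 := Padic.norm_p_lt_one (p := p)
  refine tendsto_subtype_rng.2 (tendsto_iff_norm_sub_tendsto_zero.2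
    (squeeze_zero (fun _ => norm_nonneg _) (fun i => ?_)
      (tendsto_pow_atTop_nhds_zero_of_lt_one (norm_nonneg _) h1)))
  obtain ⟨u, hu⟩ := hm i
  rw [SubmonoidClass.coe_pow, hu, pow_mul]
  exact pow_le ((pow_pow h le_rfl i).trans (mul_le_of_le_one_right (by positivity) h1.le))
    (pow_le_one₀ (norm_nonneg _) h1.le) u

variable (S) in
/-- The inclusion of a factor. -/
noncomputable def inc {T : Finset Nat.Primes} (q : T) : S.mon ℚ_[(q.1 : ℕ)] →* S.GT T :=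
  (MonoidHom.inr _ _).comp (MonoidHom.mulSingle (fun l : T => S.mon ℚ_[(l.1 : ℕ)]) q)

theorem inc_apply {T : Finset Nat.Primes} (q : T) (g : S.mon ℚ_[(q.1 : ℕ)]) :
    inc S q g = (1, Pi.mulSingle q g) := rfl

theorem continuous_inc {T : Finset Nat.Primes} (q : T) : Continuous (inc S q) :=
  continuous_const.prodMk (continuous_mulSingle (A := fun l : T => S.mon ℚ_[(l.1 : ℕ)]) q)

theorem conj_inc {T : Finset Nat.Primes} (q : T) (a : S.GT T) (g : S.mon ℚ_[(q.1 : ℕ)]) :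
    a * inc S q g * a⁻¹ = inc S q (a.2 q * g * (a.2 q)⁻¹) := by
  refine Prod.ext (by simp [inc_apply]) (funext fun l => ?_)
  rcases eq_or_ne l q with rfl | hl
  · simp [inc_apply]
  · simp [inc_apply, hl]

theorem inc_mem {T : Finset Nat.Primes} {H : Subgroup (S.GT T)} (hH : IsClosed (H : Set (S.GT T)))
    {a : (l : T) → S.mon ℚ_[(l.1 : ℕ)]} (ha : ((1, a) : S.GT T) ∈ H)
    (h : ∀ l : T, ‖(a l : Matrix n n ℚ_[(l.1 : ℕ)]) - 1‖ ≤ ‖((l.1 : ℕ) : ℚ_[(l.1 : ℕ)])‖) (q : T) :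
    inc S q (a q) ∈ H := by
  choose u hu using exists_crt T q
  refine hH.mem_of_tendsto (f := fun i => ((1, a) : S.GT T) ^ ((q.1 : ℕ) ^ i * u i + 1))
    (b := atTop) ?_ (Eventually.of_forall fun i => pow_mem ha _)
  simp only [Prod.pow_mk, one_pow, inc_apply]
  refine tendsto_const_nhds.prodMk_nhds (tendsto_pi_nhds.2 fun l => ?_)
  rcases eq_or_ne l q with rfl | hl
  · have h1 := (tendsto_pow_one (h l) (m := fun i => (l.1 : ℕ) ^ i * u i)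
      fun i => dvd_mul_right _ _).mul_const (a l)
    simpa [pow_succ] using h1
  · have h1 := tendsto_pow_one (h l) fun i => hu i l hl
    simpa [hl] using h1

theorem exists_conj_pow (T : Finset Nat.Primes) (Δ : Subgroup (S.mon ℚ)) (x : S.mon ℚ)
    (hc : (Δ.comap (MulAut.conj x).toMonoidHom).relIndex Δ ≠ 0) : ∃ N : ℕ, N ≠ 0 ∧
      ∀ g ∈ (Δ.map (S.diag T)).topologicalClosure,
        S.diag T x * g ^ N * (S.diag T x)⁻¹ ∈ (Δ.map (S.diag T)).topologicalClosure := by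
  obtain ⟨N, hN, h⟩ : ∃ N : ℕ, N ≠ 0 ∧ ∀ δ ∈ Δ, x * δ ^ N * x⁻¹ ∈ Δ :=
    ⟨_, Nat.factorial_ne_zero _, fun δ hδ => (Subgroup.pow_mem_of_relIndex_ne_zero_of_dvd hc hδ
      fun m hm hm' => Nat.dvd_factorial hm hm').1⟩
  refine ⟨N, hN, fun g hg => ?_⟩
  refine map_mem_closure (f := fun g : S.GT T => S.diag T x * g ^ N * (S.diag T x)⁻¹)
    (s := (Δ.map (S.diag T) : Set (S.GT T))) (t := (Δ.map (S.diag T) : Set (S.GT T)))
    ((continuous_const.mul (continuous_pow N)).mul continuous_const) hg fun a ha => ?_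
  obtain ⟨δ, hδ, rfl⟩ := Subgroup.mem_map.1 ha
  exact Subgroup.mem_map.2 ⟨_, h δ hδ, by rw [map_mul, map_mul, map_pow, map_inv]⟩

end SP

namespace Sys

open SP

variable {n : Type} [Fintype n] [DecidableEq n] {S : Sys n}

theorem sa_padic (hN : S.NoNil) (hP : S.Prime) (T : Finset Nat.Primes) (Δ : Subgroup (S.mon ℚ))
    (hc : ∀ x : S.mon ℚ, (Δ.comap (MulAut.conj x).toMonoidHom).relIndex Δ ≠ 0)
    (hγ : ∀ W ∈ 𝓝 (1 : S.GT T), ∃ γ ∈ Δ, S.diag T γ ∈ W ∧ ¬ S.Cent ℚ (γ : Matrix n n ℚ))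
    (hR : ∀ᶠ g in 𝓝 (1 : S.mon ℝ), ((g, 1) : S.GT T) ∈ (Δ.map (S.diag T)).topologicalClosure)
    (q : T) : ∀ᶠ g in 𝓝 (1 : S.mon ℚ_[(q.1 : ℕ)]),
      ((1, Pi.mulSingle q g) : S.GT T) ∈ (Δ.map (S.diag T)).topologicalClosure := by
  set H := (Δ.map (S.diag T)).topologicalClosure with hH
  have hHc : IsClosed (H : Set (S.GT T)) := Subgroup.isClosed_topologicalClosure _
  let K := H.comap (inc S q)
  have hKc : IsClosed (K : Set (S.mon ℚ_[(q.1 : ℕ)])) := hHc.preimage (continuous_inc q)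
  have h1 : S.IsIdeal _ (tan K) := by
    refine ideal_of_inv hN ⊤ (tan_le K) fun x _ Y hY => ?_
    obtain ⟨N, hN0, h2⟩ := exists_conj_pow T Δ x (hc x)
    refine conj_mem_tan _ hN0 (fun g hg => ?_) hY
    have h3 := h2 _ hg
    rw [← map_pow, conj_inc] at h3
    exact h3
  have hl0 : ∀ l : T, 0 < ‖((l.1 : ℕ) : ℚ_[(l.1 : ℕ)])‖ := fun l =>
    norm_pos_iff.2 (Nat.cast_ne_zero.2 l.1.2.ne_zero)
  obtain ⟨ε, hε, hε'⟩ := CG.exists_pos_le _ hl0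
  obtain ⟨W, hW, h2⟩ := S.exists_nhds T hR (half_pos hε)
  obtain ⟨γ, hγΔ, hγW, hγc⟩ := hγ W hW
  obtain ⟨h3, h4⟩ := h2 γ hγW
  have h5 : ∀ l : T, ‖((S.diag T γ).2 l : Matrix n n ℚ_[(l.1 : ℕ)]) - 1‖ <
      ‖((l.1 : ℕ) : ℚ_[(l.1 : ℕ)])‖ := fun l =>
    ((norm_le_iff (half_pos hε).le).2 (CG.bd_sub_one_iff.1 (h4 l.1 l.2))).trans_lt
      ((half_lt_self hε).trans_le (hε' l))
  have h6 : ((1, (S.diag T γ).2) : S.GT T) ∈ H := by
    have h7 := mul_mem (inv_mem h3)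
      (Subgroup.le_topologicalClosure _ (Subgroup.mem_map_of_mem (S.diag T) hγΔ))
    have e : ((S.up ℝ γ, 1) : S.GT T)⁻¹ * S.diag T γ = (1, (S.diag T γ).2) :=
      Prod.ext (by simp [diag_fst]) (by simp)
    rwa [e] at h7
  have h7 : S.up _ γ ∈ K := inc_mem hHc h6 (fun l => (h5 l).le) q
  obtain ⟨X, hX, hX'⟩ := exists_lg Padic.norm_p_lt_one (h5 q)
  have h8 : X ∈ tan K := lg_mem_tan Padic.norm_p_lt_one (padic_dense _) h7 (h5 q) hX
  have h9 := trNd_of_noNil hN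
  have h10 := trNd_map (Rat.castHom ℚ_[(q.1 : ℕ)]) h9
  have h11 : S.perp (tan K) = ⊥ := by
    by_contra h12
    exact hγc (cent_of_ideal hP h9 (perp_ideal h1) h12 γ fun Y hY =>
      hX' Y (perp_comm h10 h1 h8 hY))
  exact nhds_of_tan hKc (eq_lie_of_perp h10 h1.1 h11).ge

end Sys

end Vale.Agent.P011Z
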