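import Vale.Agent.P011Z.SAR
import Vale.Agent.P011Z.SAP
import Vale.Agent.P011Z.Coc
import Vale.Agent.P011Z.Cell

/-!
Strong approximation.
-/

open Matrix Topology Filter

namespace Vale.Agent.P011Z

namespace Sys

variable {n : Type} [Fintype n] [DecidableEq n] {S : Sys n}

/-- The powers of an expanding element leave every compact set modulo the centraliser. -/
theorem eventually_pow_ne {F : Type} [NontriviallyNormedField F] [CharZero F] {a : S.mon F}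
    {X : Matrix n n F} (hX : X ∈ S.lie F) (hX0 : X ≠ 0) {c : F} (hc : 1 < ‖c‖)
    (ha : (a : Matrix n n F) * X * ((a⁻¹ : S.mon F) : Matrix n n F) = c • X)
    {K : Set (S.mon F)} (hK : IsCompact K) (g : S.mon F) :
    ∀ᶠ m : ℕ in atTop, ∀ k ∈ K, ∀ z : S.mon F, S.Cent F z → a ^ m ≠ g * z * k := by
  have h1 : ∀ m : ℕ, ((a ^ m : S.mon F) : Matrix n n F) * X *
      (((a ^ m)⁻¹ : S.mon F) : Matrix n n F) = c ^ m • X := by
    intro m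
    induction m with
    | zero => simp
    | succ m ih =>
      rw [pow_succ', _root_.mul_inv_rev, Submonoid.coe_mul, Submonoid.coe_mul, pow_succ, mul_smul,
        ← ha, ← Matrix.smul_mul, ← Matrix.mul_smul, ← ih]
      simp only [Matrix.mul_assoc]
  obtain ⟨i, j, hij⟩ : ∃ i j, X i j ≠ 0 := by
    by_contra h
    push Not at h
    exact hX0 (Matrix.ext h)
  obtain ⟨B, hB⟩ := hK.exists_bound_of_continuousOn
    (f := fun k : S.mon F => (((g * k : S.mon F) : Matrix n n F) * X *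
      (((g * k)⁻¹ : S.mon F) : Matrix n n F)) i j)
    (Continuous.continuousOn (Continuous.matrix_elem (by fun_prop) i j))
  have h2 := (tendsto_pow_atTop_atTop_of_one_lt hc).atTop_mul_const (norm_pos_iff.2 hij)
  filter_upwards [h2.eventually_gt_atTop B] with m hm k hk z hz e
  have h3 := hB k hk
  have h4 : ((g * k : S.mon F) : Matrix n n F) * X * (((g * k)⁻¹ : S.mon F) : Matrix n n F) =
      c ^ m • X := by
    have h5 : (z : Matrix n n F) * ((k : Matrix n n F) * X * ((k⁻¹ : S.mon F) : Matrix n n F)) *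
        ((z⁻¹ : S.mon F) : Matrix n n F) =
        (k : Matrix n n F) * X * ((k⁻¹ : S.mon F) : Matrix n n F) := by
      rw [hz _ (conj_mem k hX), Matrix.mul_assoc, coe_mul_inv, Matrix.mul_one]
    rw [← h1, e, _root_.mul_inv_rev, _root_.mul_inv_rev, _root_.mul_inv_rev]
    simp only [Submonoid.coe_mul]
    calc _ = (g : Matrix n n F) * ((k : Matrix n n F) * X * ((k⁻¹ : S.mon F) : Matrix n n F)) *
          ((g⁻¹ : S.mon F) : Matrix n n F) := by simp only [Matrix.mul_assoc]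
      _ = _ := by
        rw [← h5]
        simp only [Matrix.mul_assoc]
  rw [h4, Matrix.smul_apply, smul_eq_mul, norm_mul, norm_pow] at h3
  exact absurd hm (not_lt.2 h3)

theorem exists_expanding (h0 : S.lie ℚ ≠ ⊥) (p : Nat.Primes)
    {s : S.mon ℚ_[(p : ℕ)]} (hs : S.Hyp ℚ_[(p : ℕ)] ((p : ℕ) : ℚ_[(p : ℕ)]) s) :
    ∃ a : S.mon ℚ_[(p : ℕ)], ∃ X ∈ S.lie ℚ_[(p : ℕ)], X ≠ 0 ∧ ∃ c : ℚ_[(p : ℕ)], 1 < ‖c‖ ∧
      (a : Matrix n n ℚ_[(p : ℕ)]) * X * ((a⁻¹ : S.mon ℚ_[(p : ℕ)]) : Matrix n n ℚ_[(p : ℕ)]) =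
        c • X := by
  have hw : ((p : ℕ) : ℚ_[(p : ℕ)]) ≠ 0 := Nat.cast_ne_zero.2 p.2.ne_zero
  have hw1 : ‖((p : ℕ) : ℚ_[(p : ℕ)])‖ < 1 := Padic.norm_p_lt_one
  have h1 : S.lie ℚ_[(p : ℕ)] ≠ ⊥ := by
    obtain ⟨X, hX, hX0⟩ := (Submodule.ne_bot_iff _).1 h0
    refine (Submodule.ne_bot_iff _).2 ⟨_, map_mem_lie (Rat.castHom _) hX, fun h => hX0 ?_⟩
    ext i j
    simpa using congrFun (congrFun h i) j
  obtain ⟨X, hX, hX0, d, hd, e⟩ := Hyp.exists_eig hw hw1 hs h1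
  have hn : 0 < ‖((p : ℕ) : ℚ_[(p : ℕ)])‖ := norm_pos_iff.2 hw
  rcases lt_or_gt_of_ne hd with hd | hd
  · refine ⟨s, X, hX, hX0, _, ?_, e⟩
    rw [norm_zpow]
    exact one_lt_zpow_of_neg₀ hn hw1 hd
  · refine ⟨s⁻¹, X, hX, hX0, ((p : ℕ) : ℚ_[(p : ℕ)]) ^ (-d), ?_, ?_⟩
    · rw [norm_zpow]
      exact one_lt_zpow_of_neg₀ hn hw1 (neg_neg_of_pos hd)
    · have h2 : X = ((p : ℕ) : ℚ_[(p : ℕ)]) ^ (-d) • ((s : Matrix n n ℚ_[(p : ℕ)]) * X *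
          ((s⁻¹ : S.mon ℚ_[(p : ℕ)]) : Matrix n n ℚ_[(p : ℕ)])) := by
        rw [e, smul_smul, ← zpow_add₀ hw, neg_add_cancel, zpow_zero, one_smul]
      conv_lhs => rw [h2]
      rw [inv_inv, Matrix.mul_smul, Matrix.smul_mul, ← Matrix.mul_assoc, ← Matrix.mul_assoc,
        coe_inv_mul, Matrix.one_mul, Matrix.mul_assoc, coe_inv_mul, Matrix.mul_one]

/-- Two members of a sequence in a compact set are close. -/
theorem exists_close {G : Type} [Group G] [TopologicalSpace G] [IsTopologicalGroup G] {D : Set G}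
    (hD : IsCompact D) {u : ℕ → G} (hu : ∀ m, u m ∈ D) {W : Set G} (hW : W ∈ 𝓝 (1 : G))
    {P : ℕ → ℕ → Prop} (hP : ∀ m0, ∀ᶠ m in atTop, P m0 m) :
    ∃ m0 m, (u m0)⁻¹ * u m ∈ W ∧ P m0 m := by
  obtain ⟨y, -, hy⟩ := hD.exists_mapClusterPt (f := atTop) (u := u)
    (le_principal_iff.2 (mem_map.2 (Eventually.of_forall hu)))
  have h2 : (fun u : G × G => u.1⁻¹ * u.2) ⁻¹' W ∈ 𝓝 y ×ˢ 𝓝 y := by
    rw [← nhds_prod_eq]
    refine ContinuousAt.preimage_mem_nhds (by fun_prop) ?_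
    rwa [inv_mul_cancel]
  obtain ⟨V, hV, hVW⟩ := mem_prod_self_iff.1 h2
  have h3 := mapClusterPt_iff_frequently.1 hy V hV
  obtain ⟨m0, hm0⟩ := h3.exists
  obtain ⟨m, hm, hm2⟩ := (h3.and_eventually (hP m0)).exists
  exact ⟨m0, m, hVW (Set.mk_mem_prod hm0 hm), hm2⟩

/-- Cocompactness at the places infinity and `p`. -/
theorem exists_dec (hN : S.NoNil) (hS : S.Stable) (p : Nat.Primes) {Δ : Subgroup (S.mon ℚ)}
    (hΔ : Δ.relIndex (S.Gam {p}) ≠ 0) :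
    ∃ (C : Set (S.mon ℝ)) (D : Set (S.mon ℚ_[(p : ℕ)])), IsCompact C ∧ IsCompact D ∧
      ∀ g : S.mon ℚ_[(p : ℕ)], ∃ γ ∈ Δ, γ ∈ S.Gam {p} ∧ S.up ℝ γ ∈ C ∧
        ∃ k ∈ D, g = S.up ℚ_[(p : ℕ)] γ * k := by
  obtain ⟨C, hC, hco⟩ : Coc ((Δ ⊓ S.Gam {p}).map (S.diag {p})) := by
    refine (coc_Gam hN hS (trNd_of_noNil hN) {p}).of_relIndex ?_
    rwa [Subgroup.relIndex_map_map_of_injective _ _ (S.diag_injective _),
      Subgroup.inf_relIndex_right]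
  let q0 : ({p} : Finset Nat.Primes) := ⟨p, Finset.mem_singleton_self p⟩
  let pr : S.GT {p} → S.mon ℚ_[(p : ℕ)] := fun u => u.2 q0
  have hpr : Continuous pr := (continuous_apply q0).comp continuous_snd
  refine ⟨(Prod.fst '' C)⁻¹, pr '' C, (hC.image continuous_fst).inv, hC.image hpr, fun g => ?_⟩
  obtain ⟨_, ⟨γ, hγ, rfl⟩, k, hk, e⟩ := hco (1, Pi.mulSingle q0 g)
  refine ⟨γ, hγ.1, hγ.2, ⟨k, hk, ?_⟩, pr k, ⟨k, hk, rfl⟩, ?_⟩
  · exact eq_inv_of_mul_eq_one_right (congrArg Prod.fst e).symm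
  · exact (Pi.mulSingle_eq_same (M := fun q : ({p} : Finset Nat.Primes) => S.mon ℚ_[(q.1 : ℕ)]) q0
      g).symm.trans (congrFun (congrArg Prod.snd e) q0)

theorem exists_near_one (hN : S.NoNil) (hS : S.Stable) (h0 : S.lie ℚ ≠ ⊥) (p : Nat.Primes)
    {s : S.mon ℚ_[(p : ℕ)]} (hs : S.Hyp ℚ_[(p : ℕ)] ((p : ℕ) : ℚ_[(p : ℕ)]) s)
    {T : Finset Nat.Primes} (hp : p ∉ T) {Δ : Subgroup (S.mon ℚ)}
    (hΔ : Δ.relIndex (S.Gam {p}) ≠ 0) {W : Set (S.GT T)} (hW : W ∈ 𝓝 (1 : S.GT T)) :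
    ∃ γ ∈ Δ, γ ∈ S.Gam {p} ∧ S.diag T γ ∈ W ∧ ¬ S.Cent ℚ (γ : Matrix n n ℚ) := by
  obtain ⟨a, X, hX, hX0, c, hc, ha⟩ := exists_expanding h0 p hs
  obtain ⟨C, D, hC, hD, hco⟩ := exists_dec hN hS p hΔ
  choose γ hγ1 hγ2 hγ3 k hk e using fun m : ℕ => hco (a ^ m)
  choose K hK1 hK2 hK3 using fun q : T => S.exists_intG q.1
  obtain ⟨m0, m, h1, h2⟩ := exists_close (hC.prod (isCompact_univ_pi hK1))
    (u := fun m => S.diag T (γ m)) (fun m => ⟨hγ3 m, fun q _ => (hK3 q _).2 (hγ2 m q.1 fun h =>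
      hp (Finset.mem_singleton.1 h ▸ q.2))⟩) hW
    fun m0 => eventually_pow_ne hX hX0 hc ha hD (S.up ℚ_[(p : ℕ)] (γ m0))
  refine ⟨(γ m0)⁻¹ * γ m, Δ.mul_mem (Δ.inv_mem (hγ1 m0)) (hγ1 m),
    (S.Gam {p}).mul_mem ((S.Gam {p}).inv_mem (hγ2 m0)) (hγ2 m), ?_, fun h => ?_⟩
  · rw [map_mul, map_inv]
    exact h1
  · refine h2 (k m) (hk m) (S.up ℚ_[(p : ℕ)] ((γ m0)⁻¹ * γ m)) (cent_up h) ?_
    rw [← (S.up ℚ_[(p : ℕ)]).map_mul, mul_inv_cancel_left]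
    exact e m

theorem sa (hN : S.NoNil) (hS : S.Stable) (hP : S.Prime) (h0 : S.lie ℚ ≠ ⊥) (p : Nat.Primes)
    {s : S.mon ℚ_[(p : ℕ)]} (hs : S.Hyp ℚ_[(p : ℕ)] ((p : ℕ) : ℚ_[(p : ℕ)]) s)
    {T : Finset Nat.Primes} (hp : p ∉ T) {Δ : Subgroup (S.mon ℚ)}
    (hΔ : Δ.relIndex (S.Gam {p}) ≠ 0) :
    ((Δ.map (S.diag T)).topologicalClosure : Set (S.GT T)) ∈ 𝓝 (1 : S.GT T) := by
  classical
  have hc : ∀ x : S.mon ℚ, ((Δ ⊓ S.Gam {p}).comap (MulAut.conj x).toMonoidHom).relIndex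
      (Δ ⊓ S.Gam {p}) ≠ 0 := by
    intro x
    have h1 : (Δ ⊓ S.Gam {p}).relIndex (S.Gam {p}) ≠ 0 := by rwa [Subgroup.inf_relIndex_right]
    have h2 := Subgroup.relIndex_ne_zero_trans
      (Subgroup.relIndex_comap_ne_zero (MulAut.conj x).toMonoidHom h1) (S.comm_Gam {p} x)
    exact fun h => h2 (Subgroup.relIndex_eq_zero_of_le_right inf_le_right h)
  have hγ : ∀ W ∈ 𝓝 (1 : S.GT T), ∃ γ ∈ Δ ⊓ S.Gam {p}, S.diag T γ ∈ W ∧
      ¬ S.Cent ℚ (γ : Matrix n n ℚ) := by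
    intro W hW
    obtain ⟨γ, h1, h2, h3⟩ := exists_near_one hN hS h0 p hs hp hΔ hW
    exact ⟨γ, ⟨h1, h2⟩, h3⟩
  have hR := sa_real hN hP T _ hc hγ
  have hQ := sa_padic hN hP T _ hc hγ hR
  have hle : ((Δ ⊓ S.Gam {p}).map (S.diag T)).topologicalClosure ≤
      (Δ.map (S.diag T)).topologicalClosure :=
    Subgroup.topologicalClosure_mono (Subgroup.map_mono inf_le_left)
  refine mem_of_superset (prod_mem_nhds hR (set_pi_mem_nhds Set.finite_univ fun q _ => hQ q)) ?_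
  rintro ⟨g, k⟩ ⟨hg, hk⟩
  have h1 : k ∈ ((Δ ⊓ S.Gam {p}).map (S.diag T)).topologicalClosure.comap
      (MonoidHom.inr (S.mon ℝ) ((q : T) → S.mon ℚ_[(q.1 : ℕ)])) := by
    rw [← Finset.noncommProd_mulSingle k]
    exact Subgroup.noncommProd_mem _ _ fun q _ => hk q trivial
  have h2 := ((Δ ⊓ S.Gam {p}).map (S.diag T)).topologicalClosure.mul_mem
    (x := (g, 1)) (y := (1, k)) hg h1
  rw [Prod.mk_mul_mk, mul_one, one_mul] at h2
  exact hle h2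

end Sys

end Vale.Agent.P011Z
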