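import Vale.Agent.P011Z.RC
import Vale.Agent.P011Z.SAR.Exp

/-!
Strong approximation: the real place.
-/

open Matrix Topology Filter

namespace Vale.Agent.P011Z

namespace SAR

variable {n : Type} [Fintype n] [DecidableEq n] {S : Sys n}

/-- Coordinates of the second kind along `X`, of the first kind along `C`. -/
theorem exists_coord {d : ℕ} (X : Fin d → S.lie ℝ) (C : Submodule ℝ (n → n → ℝ))
    (hC : ∀ Y ∈ C, Matrix.of Y ∈ S.lie ℝ)
    (hs : ∀ Z ∈ S.lie ℝ, ∃ t : Fin d → ℝ, ∃ Y ∈ C, Z = ∑ i, t i • (X i).1 + Matrix.of Y)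
    {V : Set C} (hV : V ∈ 𝓝 (0 : C)) :
    ∀ᶠ g : S.mon ℝ in 𝓝 1, ∃ t : Fin d → ℝ, ∃ Y ∈ V,
      g = (List.ofFn fun i => exG (t i • X i)).prod * exG ⟨Matrix.of Y.1, hC _ Y.2⟩ := by
  let L : Fin d → ((Fin d → ℝ) × C) →L[ℝ] (n → n → ℝ) := fun i =>
    (ContinuousLinearMap.toSpanSingleton ℝ (Matrix.of.symm (X i).1 : n → n → ℝ)).comp
      ((ContinuousLinearMap.proj i : (Fin d → ℝ) →L[ℝ] ℝ).comp (ContinuousLinearMap.fst ℝ _ _))
  let M : ((Fin d → ℝ) × C) →L[ℝ] (n → n → ℝ) := C.subtypeL.comp (ContinuousLinearMap.snd ℝ _ _)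
  have h0 : ∀ K : ((Fin d → ℝ) × C) →L[ℝ] (n → n → ℝ),
      HasStrictFDerivAt (fun x => exP (K x)) K 0 := by
    intro K
    have h1 : HasStrictFDerivAt (exP : (n → n → ℝ) → n → n → ℝ) (ContinuousLinearMap.id ℝ _)
        (K 0) := by
      rw [map_zero]
      exact strict_exP
    exact h1.comp 0 K.hasStrictFDerivAt
  have h1 : ∀ K : ((Fin d → ℝ) × C) →L[ℝ] (n → n → ℝ), Matrix.of (exP (K 0)) = 1 := by
    intro K
    rw [map_zero, of_exP]
    exact NormedSpace.exp_zero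
  have h00 : Matrix.of (exP (0 : n → n → ℝ)) = 1 := by
    rw [of_exP]
    exact NormedSpace.exp_zero
  have h2 := Opn.strict_prod (f := fun i x => exP (L i x)) (fun i => h0 (L i)) fun i => h1 (L i)
  have h3 := Opn.strict_mul h2 (h0 M) (by simp [h00]) (h1 M)
  have h4 : ∀ x : (Fin d → ℝ) × C,
      (((List.ofFn fun i => exG (x.1 i • X i)).prod * exG ⟨Matrix.of x.2.1, hC _ x.2.2⟩ :
        S.mon ℝ) : Matrix n n ℝ) =
      (List.ofFn fun i => Matrix.of (exP (L i x))).prod * Matrix.of (exP (M x)) := by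
    intro x
    rw [Submonoid.coe_mul, SubmonoidClass.coe_list_prod, List.map_ofFn]
    rfl
  have h5 := Sys.open_of_surj (S := S) h3 (by simp [h00]) (Eventually.of_forall fun x => by
    simp only [Equiv.apply_symm_apply]
    rw [← h4]
    exact Subtype.property _) (fun Z hZ => by
      obtain ⟨t, Y, hY, rfl⟩ := hs Z hZ
      refine ⟨(t, ⟨Y, hY⟩), ?_⟩
      ext i j
      simp [L, M, Matrix.sum_apply])
    (V := Prod.snd ⁻¹' V) (continuous_snd.continuousAt.preimage_mem_nhds hV)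
  filter_upwards [h5] with g hg
  obtain ⟨x, hx, hg⟩ := hg
  refine ⟨x.1, x.2, hx, Subtype.ext ?_⟩
  rw [hg, h4]
  simp only [Equiv.apply_symm_apply]

/-- The one parameter groups which lie in `H`. -/
def hh {T : Finset Nat.Primes} (H : Subgroup (S.GT T)) : Set (Matrix n n ℝ) :=
  {Z | ∃ X : S.lie ℝ, X.1 = Z ∧ ∀ t : ℝ, ((exG (t • X), 1) : S.GT T) ∈ H}

theorem span_hh_le {T : Finset Nat.Primes} (H : Subgroup (S.GT T)) :
    Submodule.span ℝ (hh H) ≤ S.lie ℝ :=
  Submodule.span_le.2 fun _ ⟨X, hX, _⟩ => hX ▸ X.2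

/-- The elements of a closed subgroup which are close to one centralise whatever the one
parameter groups centralise. -/
theorem exists_nhds_comm {T : Finset Nat.Primes} {H : Subgroup (S.GT T)}
    (hH : IsClosed (H : Set (S.GT T))) : ∀ᶠ y in 𝓝 (1 : S.GT T), y ∈ H →
      ∀ Z : Matrix n n ℝ, (∀ X ∈ hh H, X * Z = Z * X) →
        (y.1 : Matrix n n ℝ) * Z = Z * (y.1 : Matrix n n ℝ) := by
  obtain ⟨s, hs1, hs2⟩ := (Submodule.fg_span_iff_fg_span_finset_subset _).1
    (IsNoetherian.noetherian (Submodule.span ℝ (hh H)))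
  choose X hX hXH using fun i : Fin s.card => hs1 (s.equivFin.symm i).2
  obtain ⟨C0, hC0⟩ := (Submodule.span ℝ (hh H)).exists_isCompl
  let C : Submodule ℝ (n → n → ℝ) := (C0 ⊓ S.lie ℝ).comap (Matrix.ofLinearEquiv ℝ).toLinearMap
  have hC : ∀ Y ∈ C, Matrix.of Y ∈ S.lie ℝ := fun Y hY => hY.2
  have hs : ∀ Z ∈ S.lie ℝ, ∃ t : Fin s.card → ℝ, ∃ Y ∈ C,
      Z = ∑ i, t i • (X i).1 + Matrix.of Y := by
    intro Z hZ
    obtain ⟨A, hA, B, hB, rfl⟩ := Submodule.mem_sup.1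
      (show Z ∈ Submodule.span ℝ (hh H) ⊔ C0 by rw [hC0.sup_eq_top]; trivial)
    have h1 : A ∈ Submodule.span ℝ (Set.range fun i => (X i).1) := by
      refine (hs2.le.trans (Submodule.span_mono fun Y hY => ?_)) hA
      refine ⟨s.equivFin ⟨Y, hY⟩, ?_⟩
      beta_reduce
      rw [hX, Equiv.symm_apply_apply]
    obtain ⟨t, rfl⟩ := (Submodule.mem_span_range_iff_exists_fun ℝ).1 h1
    refine ⟨t, Matrix.of.symm B, ⟨hB, ?_⟩, rfl⟩
    have h2 := sub_mem hZ (span_hh_le H hA)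
    rwa [add_sub_cancel_left] at h2
  have hprod : ∀ t : Fin s.card → ℝ,
      (((List.ofFn fun i => exG (t i • X i)).prod, 1) : S.GT T) ∈ H := by
    intro t
    have h1 : (List.ofFn fun i => exG (t i • X i)).prod ∈ H.comap (MonoidHom.inl (S.mon ℝ) _) := by
      refine list_prod_mem fun g hg => ?_
      obtain ⟨i, rfl⟩ := List.mem_ofFn.1 hg
      exact hXH i _
    exact h1
  by_contra hcon
  rw [not_eventually] at hcon
  let ι : Type := {p : ((q : T) → S.mon ℚ_[(q.1 : ℕ)]) × C //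
    p.2 ≠ 0 ∧ ((exG ⟨Matrix.of p.2.1, hC _ p.2.2⟩, p.1) : S.GT T) ∈ H}
  have hne : (comap (Subtype.val : ι → _) (𝓝 (1, 0))).NeBot := by
    refine comap_neBot fun W hW => ?_
    obtain ⟨U, hU, V, hV, hUV⟩ := mem_nhds_prod_iff.1 hW
    have h1 := (continuous_fst.tendsto (1 : S.GT T)).eventually (exists_coord X C hC hs hV)
    have h2 := (continuous_snd.tendsto (1 : S.GT T)).eventually hU
    obtain ⟨y, hy, ⟨t, Y, hY, hy1⟩, hy2⟩ := (hcon.and_eventually (h1.and h2)).exists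
    push Not at hy
    obtain ⟨hyH, Z, hZ, hyZ⟩ := hy
    refine ⟨⟨(y.2, Y), fun h0 => hyZ ?_, ?_⟩, hUV ⟨hy2, hY⟩⟩
    · have h3 : exG ⟨Matrix.of Y.1, hC _ Y.2⟩ = 1 := by
        refine Subtype.ext ?_
        simp only at h0
        rw [coe_exG, h0]
        exact NormedSpace.exp_zero
      rw [hy1, h3, mul_one, SubmonoidClass.coe_list_prod]
      refine Commute.list_prod_left _ _ fun g hg => ?_
      rw [List.map_ofFn] at hg
      obtain ⟨i, rfl⟩ := List.mem_ofFn.1 hg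
      exact Commute.exp_left (Commute.smul_left (hZ _ ⟨X i, rfl, hXH i⟩) _)
    · have h3 := H.mul_mem (H.inv_mem (hprod t)) hyH
      have h4 : (((List.ofFn fun i => exG (t i • X i)).prod, 1) : S.GT T)⁻¹ * y =
          (exG ⟨Matrix.of Y.1, hC _ Y.2⟩, y.2) := by
        refine Prod.ext ?_ ?_
        · rw [Prod.fst_mul, Prod.fst_inv, hy1, inv_mul_cancel_left]
        · rw [Prod.snd_mul, Prod.snd_inv, inv_one, one_mul]
      rwa [h4] at h3
  let l := Ultrafilter.of (comap (Subtype.val : ι → _) (𝓝 (1, 0)))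
  have hl : Tendsto (Subtype.val : ι → _) l (𝓝 (1, 0)) :=
    tendsto_comap.mono_left (Ultrafilter.of_le _)
  have hpos : ∀ p : ι, 0 < ‖p.1.2‖ := fun p => norm_pos_iff.2 p.2.1
  have : ProperSpace C := FiniteDimensional.proper_real C
  obtain ⟨Y0, hY0, hlim⟩ := (isCompact_sphere (0 : C) 1).ultrafilter_le_nhds
    (l.map fun p : ι => ‖p.1.2‖⁻¹ • p.1.2) (by
      rw [Ultrafilter.coe_map, le_principal_iff, mem_map]
      refine Eventually.of_forall fun p => ?_
      show ‖p.1.2‖⁻¹ • p.1.2 ∈ Metric.sphere (0 : C) 1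
      rw [mem_sphere_zero_iff_norm, norm_smul, norm_inv, norm_norm, inv_mul_cancel₀ (hpos p).ne'])
  rw [Ultrafilter.coe_map] at hlim
  let j : C → S.lie ℝ := fun Y => ⟨Matrix.of Y.1, hC _ Y.2⟩
  have hj : Continuous j := continuous_subtype_val.subtype_mk _
  have hk : Tendsto (fun p : ι => p.1.1) l (𝓝 1) := (continuous_fst.tendsto _).comp hl
  have hk2 : Tendsto (fun p : ι => p.1.2) l (𝓝 0) := (continuous_snd.tendsto _).comp hl
  have hk3 : Tendsto (fun p : ι => ‖p.1.2‖) l (𝓝 0) := by simpa using hk2.norm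
  have h1 := fun t => lim_mem (l := (l : Filter ι)) hH (Y := fun p : ι => j p.1.2)
    (k := fun p => p.1.1) (fun p => p.2.2) hpos hk3 hk (Y0 := j Y0) ((hj.tendsto _).comp hlim) t
  have h2 : Matrix.of Y0.1 ∈ Submodule.span ℝ (hh H) ⊓ C0 :=
    ⟨Submodule.subset_span ⟨j Y0, rfl, h1⟩, Y0.2.1⟩
  rw [hC0.inf_eq_bot, Submodule.mem_bot] at h2
  have h3 : Y0 = 0 := Subtype.ext (Matrix.of.injective h2)
  rw [h3] at hY0
  simp at hY0

end SAR

namespace Sys

open SAR

variable {n : Type} [Fintype n] [DecidableEq n] {S : Sys n}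

/-- `Δ` is commensurated by the rational points and contains noncentral elements which tend to
one. Then the closure contains a neighbourhood of one at the real place. -/
theorem sa_real (hN : S.NoNil) (hP : S.Prime) (T : Finset Nat.Primes) (Δ : Subgroup (S.mon ℚ))
    (hc : ∀ x : S.mon ℚ, (Δ.comap (MulAut.conj x).toMonoidHom).relIndex Δ ≠ 0)
    (hγ : ∀ W ∈ 𝓝 (1 : S.GT T), ∃ γ ∈ Δ, S.diag T γ ∈ W ∧ ¬ S.Cent ℚ (γ : Matrix n n ℚ)) :
    ∀ᶠ g in 𝓝 (1 : S.mon ℝ), ((g, 1) : S.GT T) ∈ (Δ.map (S.diag T)).topologicalClosure := by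
  set H := (Δ.map (S.diag T)).topologicalClosure with hHd
  have hH : IsClosed (H : Set (S.GT T)) := Subgroup.isClosed_topologicalClosure _
  have hT := trNd_of_noNil hN
  have hTR : S.TrNd ℝ := trNd_map (Rat.castHom ℝ) hT
  have hJ : S.IsIdeal ℝ (Submodule.span ℝ (hh H)) := by
    refine ideal_of_inv hN ⊤ (span_hh_le H) fun x _ Y hY => ?_
    obtain ⟨N, hN0, hN⟩ := exists_pow_conj (S.diag T) (hc x)
    have hN' : (N : ℝ) ≠ 0 := by exact_mod_cast hN0.ne'
    induction hY using Submodule.span_induction with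
    | mem Z hZ =>
      obtain ⟨X, rfl, hX⟩ := hZ
      refine Submodule.subset_span ⟨⟨_, conj_mem (S.up ℝ x) X.2⟩, rfl, fun t => ?_⟩
      have h1 := hN _ (hX (t / N))
      have h2 : exG ((t / N) • X) ^ N = exG (t • X) := by
        rw [← zpow_natCast, ← exG_zsmul, smul_smul, Int.cast_natCast, mul_div_cancel₀ _ hN']
      have h3 : exG (t • ⟨_, conj_mem (S.up ℝ x) X.2⟩) =
          S.up ℝ x * exG (t • X) * (S.up ℝ x)⁻¹ := by
        rw [← exG_conj]
        congr 1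
        refine Subtype.ext ?_
        simp only [SetLike.val_smul, Matrix.mul_smul, Matrix.smul_mul]
      have h4 : S.diag T x * ((exG ((t / N) • X), 1) : S.GT T) ^ N * (S.diag T x)⁻¹ =
          (exG (t • ⟨_, conj_mem (S.up ℝ x) X.2⟩), 1) := by
        rw [Prod.pow_mk, h2, h3, one_pow]
        refine Prod.ext rfl ?_
        rw [Prod.snd_mul, Prod.snd_mul, Prod.snd_inv, mul_one, mul_inv_cancel]
      rwa [h4] at h1
    | zero => simp
    | add Y Z _ _ h1 h2 =>
      rw [Matrix.mul_add, Matrix.add_mul]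
      exact add_mem h1 h2
    | smul c Y _ h1 =>
      rw [Matrix.mul_smul, Matrix.smul_mul]
      exact Submodule.smul_mem _ _ h1
  have hperp : S.perp (Submodule.span ℝ (hh H)) = ⊥ := by
    by_contra h0
    obtain ⟨γ, h1, h2, h3⟩ := hγ _ (exists_nhds_comm hH)
    refine h3 (cent_of_ideal hP hT (perp_ideal hJ) h0 γ fun Y hY => ?_)
    exact h2 (Subgroup.le_topologicalClosure _ ⟨γ, h1, rfl⟩) Y fun X hX =>
      perp_comm hTR hJ (Submodule.subset_span hX) hY
  have hJ2 := eq_lie_of_perp hTR hJ.1 hperp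
  have hcl : IsClosed ((H.comap (MonoidHom.inl (S.mon ℝ) ((q : T) → S.mon ℚ_[(q.1 : ℕ)])) :
      Subgroup (S.mon ℝ)) : Set (S.mon ℝ)) :=
    hH.preimage (f := fun g : S.mon ℝ => ((g, 1) : S.GT T)) (continuous_id.prodMk continuous_const)
  refine nhds_of_curves _ hcl ?_
  rw [← hJ2]
  refine Submodule.span_mono ?_
  rintro _ ⟨X, rfl, hX⟩
  refine ⟨fun u => exP (u • Matrix.of.symm X.1), Matrix.of.symm X.1, rfl, ?_, ?_,
    Eventually.of_forall fun t => subset_closure ⟨exG (t • X), hX t, rfl⟩⟩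
  · have h1 : HasStrictFDerivAt (exP : (n → n → ℝ) → n → n → ℝ) (ContinuousLinearMap.id ℝ _)
        ((0 : ℝ) • Matrix.of.symm X.1) := by
      rw [zero_smul]
      exact strict_exP
    have h2 : HasStrictDerivAt (fun u : ℝ => u • (Matrix.of.symm X.1 : n → n → ℝ))
        (Matrix.of.symm X.1) 0 := by
      simpa using (hasStrictDerivAt_id (0 : ℝ)).smul_const (Matrix.of.symm X.1 : n → n → ℝ)
    exact h1.comp_hasStrictDerivAt 0 h2
  · beta_reduce
    rw [zero_smul, of_exP]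
    exact NormedSpace.exp_zero

end Sys

end Vale.Agent.P011Z
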