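import Vale.Agent.P011Z.SUn.Plane

/-!
The special unitary group of an anisotropic hermitian form of rank at least three over a quadratic
extension of a number field has no proper subgroup of finite index.
-/

open Module NumberField IsDedekindDomain

namespace Vale.Agent.P011Z

open Vale.Agent.P011 Vale.Agent.P011.Arith.Lan

namespace SUn

open Vale.Agent.P011.Arith Vale.Agent.P011.MPQ

variable {E L V : Type} [Field E] [NumberField E] [Field L] [StarRing L] [Algebra E L]
  [AddCommGroup V] [Module L V] {d : Eˣ} {θ : L} {b : V → V → L}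

theorem ram_finite (a c : Eˣ) : {w : HeightOneSpectrum (𝓞 E) | Ram a c w}.Finite := by
  obtain ⟨s, hs, h⟩ := exists_ram_nat a c
  exact (finite_ne_one (Units.mk0 (s : E) (Nat.cast_ne_zero.mpr hs))).subset
    fun v hv => (h v hv).ne

/-- A binary form represents the elements with suitable signs. -/
theorem represent (h : Quad d θ) (hb : Herm b) (ha : ∀ x, b x x = 0 → x = 0) {z w : V}
    (ho : b z w = 0) (hz : z ≠ 0) (hw : w ≠ 0) {A C γ : Eˣ} (hA : algebraMap E L A = b z z)
    (hC : algebraMap E L C = b w w) (hγ : ∀ φ : E →+* ℝ, 0 < φ γ * φ C) :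
    ∃ s t : L, s * star s * b z z + t * star t * b w w = algebraMap E L γ := by
  obtain ⟨x1, x2, y1, y2, z1, z2, hne, hsum⟩ := Sch.ternary_isotropic d A C (-γ) (fun φ _ => by
    have h1 := hγ φ
    rw [Units.val_neg, map_neg]
    constructor
    · rintro ⟨-, h2, h3⟩
      nlinarith
    · rintro ⟨-, h2, h3⟩
      nlinarith)
  have h1 := congrArg (algebraMap E L) hsum
  rw [map_add, map_add, map_mul, map_mul, map_mul, ← h.norm, ← h.norm, ← h.norm, hA, hC, map_zero,
    Units.val_neg, map_neg] at h1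
  have h2 : algebraMap E L z1 + algebraMap E L z2 * θ ≠ 0 := by
    intro h0
    obtain ⟨h3, h4⟩ := coords_zero h h0
    have h5 : (algebraMap E L x1 + algebraMap E L x2 * θ) • z +
        (algebraMap E L y1 + algebraMap E L y2 * θ) • w = 0 := by
      apply ha
      simp only [hb.add_left, hb.add_right, hb.smul_left, hb.smul_right, ho, orth_symm hb ho]
      rw [h0] at h1
      linear_combination h1
    have h6 := congrArg (fun v => b v z) h5
    have h7 := congrArg (fun v => b v w) h5
    simp only [hb.add_left, hb.smul_left, ho, orth_symm hb ho, hb.zero_left, mul_zero, add_zero,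
      zero_add] at h6 h7
    obtain ⟨h8, h9⟩ := coords_zero h ((mul_eq_zero.mp h6).resolve_right fun h0 => hz (ha _ h0))
    obtain ⟨h10, h11⟩ := coords_zero h ((mul_eq_zero.mp h7).resolve_right fun h0 => hw (ha _ h0))
    exact hne (by rw [h3, h4, h8, h9, h10, h11])
  have h3 := star_ne_zero.mpr h2
  generalize algebraMap E L x1 + algebraMap E L x2 * θ = X at h1
  generalize algebraMap E L y1 + algebraMap E L y2 * θ = Y at h1
  generalize algebraMap E L z1 + algebraMap E L z2 * θ = Z at h1 h2 h3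
  refine ⟨X / Z, Y / Z, ?_⟩
  rw [star_div₀, star_div₀]
  field_simp
  linear_combination h1

theorem not_ram {w : HeightOneSpectrum (𝓞 E)} {β x a : Eˣ} (hx : x ∈ LS (w.valuation E))
    (e : β = x / a ^ 2) : ¬ Ram d β w := by
  intro hr
  apply hr
  refine Subgroup.mem_sup_right ?_
  obtain ⟨y, hy⟩ := hx
  refine ⟨y / a, ?_⟩
  have e1 : (β : E) / ((y / a : Eˣ) : E) ^ 2 = (x : E) / (y : E) ^ 2 := by
    have h1 := y.ne_zero
    have h2 := a.ne_zero
    rw [e]
    push_cast
    field_simp
  rwa [e1]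

/-- The main step: quasi-reflections along orthogonal vectors. -/
theorem main_step (h : Quad d θ) (hb : Herm b) (ha : ∀ x, b x x = 0 → x = 0)
    (hV : 3 ≤ finrank L V) {e : ℕ} (he : 0 < e) (N : Subgroup (SUb b)) (hN : N.Normal)
    (hi : N.index ≠ 0) (hexp : ∀ g : SUb b, g ^ e ∈ N) {y z : V} (hy : y ≠ 0) (hz : z ≠ 0)
    (ho : b y z = 0) {c : Lˣ} (hc : (c : L) * star (c : L) = 1) :
    tau hb y c * (tau hb z c)⁻¹ ∈ N.map (SUb b).subtype := by
  have hfin : Module.Finite L V := Module.finite_of_finrank_pos (by omega)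
  obtain ⟨w0, hw0, hwy, hwz⟩ := exists_orth hb hV y z
  have hyw := orth_symm hb hwy
  have hzw := orth_symm hb hwz
  have hzy := orth_symm hb ho
  have unit : ∀ x : V, x ≠ 0 → ∃ A : Eˣ, algebraMap E L A = b x x := by
    intro x hx
    obtain ⟨A, hA⟩ := h.fix _ (hb.symm x x)
    refine ⟨Units.mk0 A ?_, hA⟩
    rintro rfl
    rw [map_zero] at hA
    exact hx (ha _ hA.symm)
  obtain ⟨A, hA⟩ := unit y hy
  obtain ⟨B, hB⟩ := unit z hz
  obtain ⟨C, hC⟩ := unit w0 hw0
  have hA0 : algebraMap E L A ≠ 0 := (map_ne_zero _).mpr A.ne_zero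
  have hB0 : algebraMap E L B ≠ 0 := (map_ne_zero _).mpr B.ne_zero
  have hC0 : algebraMap E L C ≠ 0 := (map_ne_zero _).mpr C.ne_zero
  -- the plane spanned by `y`, `z`
  obtain ⟨g1, hg1, H1⟩ := plane (β := -B / A) h hb ha he N hN hi hexp hy hz ho (by
    rw [← hA, ← hB, ← map_mul, ← map_neg]
    congr 1
    push_cast
    field_simp) hz (s := 0) (t := 1) (by rw [zero_smul, one_smul, zero_add])
  have hS1 := ram_finite d (-B / A)
  -- the value `γ`
  obtain ⟨γ, hγ1, hγ2⟩ := weak_approx hS1.toFinset (fun _ => (-(A * B * C))⁻¹)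
    (fun φ => if 0 < φ C then 1 else -1)
  have hγ3 : ∀ φ : E →+* ℝ, 0 < φ γ * φ C := by
    intro φ
    have h1 := hγ2 φ
    have h2 : φ C ≠ 0 := (map_ne_zero φ).mpr C.ne_zero
    split_ifs at h1 with h3
    · simp only [Units.val_one, Int.cast_one, one_mul] at h1
      exact mul_pos h1 h3
    · simp only [Units.val_neg, Units.val_one, Int.cast_neg, Int.cast_one] at h1
      exact mul_pos_of_neg_of_neg (by linarith) (lt_of_le_of_ne (not_lt.mp h3) h2)
  have hγ0 : algebraMap E L γ ≠ 0 := (map_ne_zero _).mpr γ.ne_zero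
  obtain ⟨s, t, hst⟩ := represent h hb ha hzw hz hw0 hB hC hγ3
  obtain ⟨s', t', hst'⟩ := represent h hb ha hyw hy hw0 hA hC hγ3
  rw [← hB, ← hC] at hst
  rw [← hA, ← hC] at hst'
  set y2 : V := (-(algebraMap E L C * star t)) • z + (algebraMap E L B * star s) • w0 with hy2
  set z2 : V := (-(algebraMap E L C * star t')) • y + (algebraMap E L A * star s') • w0 with hz2
  have q1 : b y2 y2 = algebraMap E L B * algebraMap E L C * algebraMap E L γ := by
    simp only [hy2, hb.add_left, hb.add_right, hb.smul_left, hb.smul_right, hzw, hwz, star_neg,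
      star_mul', star_star, h.star_alg, ← hB, ← hC]
    linear_combination (algebraMap E L B * algebraMap E L C) * hst
  have q2 : b z2 z2 = algebraMap E L A * algebraMap E L C * algebraMap E L γ := by
    simp only [hz2, hb.add_left, hb.add_right, hb.smul_left, hb.smul_right, hyw, hwy, star_neg,
      star_mul', star_star, h.star_alg, ← hA, ← hC]
    linear_combination (algebraMap E L A * algebraMap E L C) * hst'
  have q1' : b y2 y2 ≠ 0 := by
    rw [q1]
    exact mul_ne_zero (mul_ne_zero hB0 hC0) hγ0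
  have q2' : b z2 z2 ≠ 0 := by
    rw [q2]
    exact mul_ne_zero (mul_ne_zero hA0 hC0) hγ0
  have hy20 : y2 ≠ 0 := fun h0 => q1' (by rw [h0, hb.zero_left])
  have hz20 : z2 ≠ 0 := fun h0 => q2' (by rw [h0, hb.zero_left])
  have o1 : b y y2 = 0 := by
    rw [hy2, hb.add_right, hb.smul_right, hb.smul_right, ho, hyw, mul_zero, mul_zero, add_zero]
  have o2 : b z z2 = 0 := by
    rw [hz2, hb.add_right, hb.smul_right, hb.smul_right, hzy, hzw, mul_zero, mul_zero, add_zero]
  -- the common vector
  obtain ⟨B', D', hBD, hBD'⟩ : ∃ B' D' : L, (B' ≠ 0 ∨ D' ≠ 0) ∧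
      B' * (algebraMap E L B * star s) = D' * (algebraMap E L A * star s') := by
    by_cases h1 : star s = 0
    · exact ⟨1, 0, Or.inl one_ne_zero, by rw [h1]; ring⟩
    · exact ⟨algebraMap E L A * star s', algebraMap E L B * star s, Or.inr (mul_ne_zero hB0 h1),
        mul_comm _ _⟩
  set u : V := (D' * -(algebraMap E L C * star t')) • y + B' • y2 with hu
  have hu' : u = (B' * -(algebraMap E L C * star t)) • z + D' • z2 := by
    rw [hu, hy2, hz2, smul_add, smul_add, smul_smul, smul_smul, smul_smul, smul_smul, hBD']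
    abel
  have hu0 : u ≠ 0 := by
    intro h0
    rcases hBD with h1 | h1
    · have h2 : b u y2 = 0 := by rw [h0, hb.zero_left]
      rw [hu, hb.add_left, hb.smul_left, hb.smul_left, o1, mul_zero, zero_add] at h2
      exact mul_ne_zero h1 q1' h2
    · have h2 : b u z2 = 0 := by rw [h0, hb.zero_left]
      rw [hu', hb.add_left, hb.smul_left, hb.smul_left, o2, mul_zero, zero_add] at h2
      exact mul_ne_zero h1 q2' h2
  obtain ⟨g2, hg2, H2⟩ := plane (β := -(B * C * γ) / A) h hb ha he N hN hi hexp hy hy20 o1 (by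
    rw [q1, ← hA, ← map_mul, ← map_mul, ← map_mul, ← map_neg]
    congr 1
    push_cast
    field_simp) hu0 hu
  obtain ⟨g3, hg3, H3⟩ := plane (β := -(A * C * γ) / B) h hb ha he N hN hi hexp hz hz20 o2 (by
    rw [q2, ← hB, ← map_mul, ← map_mul, ← map_mul, ← map_neg]
    congr 1
    push_cast
    field_simp) hu0 hu'
  obtain ⟨c1, c2, ν1, ν2, rfl, hc1, hc2, hν1, hν2, hs1, hs2⟩ := split h hS1
    ((ram_finite d (-(B * C * γ) / A)).union (ram_finite d (-(A * C * γ) / B))) (fun w hw hw1 => by
      have h1 := hγ1 w (hS1.mem_toFinset.mpr hw1)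
      rcases hw with hw | hw
      · refine not_ram h1 (a := A) (Units.ext ?_) hw
        have := A.ne_zero
        have := B.ne_zero
        have := C.ne_zero
        push_cast
        field_simp
      · refine not_ram h1 (a := B) (Units.ext ?_) hw
        have := A.ne_zero
        have := B.ne_zero
        have := C.ne_zero
        push_cast
        field_simp) g1 (fun w => min (g2 w) (g3 w)) hg1
    (fun w => (lt_min (zero_lt_iff.mpr (hg2 w)) (zero_lt_iff.mpr (hg3 w))).ne') hc
  have m1 := H1 c1 ν1 hc1 hν1 hs1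
  have m2 := H2 c2 ν2 hc2 hν2 fun w hw => (hs2 w (Or.inl hw)).trans_le (min_le_left _ _)
  have m3 := H3 c2 ν2 hc2 hν2 fun w hw => (hs2 w (Or.inr hw)).trans_le (min_le_right _ _)
  have m4 := Subgroup.mul_mem _ (Subgroup.mul_mem _ m2 (Subgroup.inv_mem _ m3)) m1
  have e : tau hb y c2 * (tau hb u c2)⁻¹ * (tau hb z c2 * (tau hb u c2)⁻¹)⁻¹ *
      (tau hb y c1 * (tau hb z c1)⁻¹) = tau hb y (c1 * c2) * (tau hb z (c1 * c2))⁻¹ := by
    have h1 := (tau_comm hb ho c1 c2).inv_right.eq
    rw [mul_comm c1 c2, map_mul (tau hb y), mul_comm c2 c1, map_mul (tau hb z), mul_inv_rev,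
      mul_inv_rev, inv_inv, mul_assoc (tau hb y c2), inv_mul_cancel_left, mul_assoc, mul_assoc,
      ← mul_assoc (tau hb z c2)⁻¹, ← h1, mul_assoc]
  rwa [e] at m4

end SUn

theorem sub_top {E L V : Type} [Field E] [NumberField E] [Field L] [StarRing L] [Algebra E L]
    [AddCommGroup V] [Module L V] {d : Eˣ} {θ : L} (h : Quad d θ) {b : V → V → L} (hb : Herm b)
    (ha : ∀ x, b x x = 0 → x = 0) (hV : 3 ≤ finrank L V) (N : Subgroup (SUb b))
    (hN : N.index ≠ 0) : N = ⊤ := by
  have hfin : Module.Finite L V := Module.finite_of_finrank_pos (by omega)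
  have hfi : N.FiniteIndex := ⟨hN⟩
  have hi : N.normalCore.index ≠ 0 := Subgroup.FiniteIndex.index_ne_zero
  have key := SUn.generate hb ha (N.normalCore.map (SUb b).subtype) (Subgroup.map_subtype_le _)
    (fun y z hy hz c hc => by
      obtain ⟨w, hw, hwy, hwz⟩ := SUn.exists_orth hb hV y z
      have m1 := SUn.main_step h hb ha hV (Nat.pos_of_ne_zero hi) N.normalCore inferInstance hi
        N.normalCore.pow_index_mem hy hw (SUn.orth_symm hb hwy) hc
      have m2 := SUn.main_step h hb ha hV (Nat.pos_of_ne_zero hi) N.normalCore inferInstance hi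
        N.normalCore.pow_index_mem hz hw (SUn.orth_symm hb hwz) hc
      have m3 := Subgroup.mul_mem _ m1 (Subgroup.inv_mem _ m2)
      have e : SUn.tau hb y c * (SUn.tau hb w c)⁻¹ * (SUn.tau hb z c * (SUn.tau hb w c)⁻¹)⁻¹ =
          SUn.tau hb y c * (SUn.tau hb z c)⁻¹ := by group
      rwa [e] at m3) (Module.nontrivial_of_finrank_pos (R := L) (by omega))
  refine eq_top_iff.mpr fun g _ => N.normalCore_le ?_
  obtain ⟨g', hg', e⟩ := key g.2
  rwa [← Subtype.ext e]

end Vale.Agent.P011Z
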