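import Vale.Agent.P011Z.Basic

/-!
Spectral projections of a matrix over an algebraically closed field, and weights.
-/

open Matrix

namespace Vale.Agent.P011Z

variable {n : Type} [Fintype n] [DecidableEq n] {Ω : Type} [Field Ω]

/-- `π` is the family of the projections to the generalised eigenspaces of `Y`; `σ` is the set of
the eigenvalues. -/
structure IsSpec (Y : Matrix n n Ω) (σ : Finset Ω) (π : Ω → Matrix n n Ω) : Prop where
  sum : ∑ μ ∈ σ, π μ = 1
  idem : ∀ μ, π μ * π μ = π μ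
  orth : ∀ μ ν, μ ≠ ν → π μ * π ν = 0
  ne : ∀ μ, π μ ≠ 0 ↔ μ ∈ σ
  comm : ∀ μ y, Commute Y y → Commute (π μ) y
  nil : ∀ μ, IsNilpotent ((Y - μ • (1 : Matrix n n Ω)) * π μ)

open Polynomial in
/-- The polynomial form of the spectral decomposition. -/
theorem exists_spec_poly [IsAlgClosed Ω] (p : Polynomial Ω) (hp : p.Monic) :
    ∃ (σ : Finset Ω) (e : Ω → Polynomial Ω), (∀ μ ∉ σ, e μ = 0) ∧ p ∣ ∑ μ ∈ σ, e μ - 1 ∧
      (∀ μ ν, μ ≠ ν → p ∣ e μ * e ν) ∧ ∀ μ, ∃ m : ℕ, p ∣ ((X - C μ) * e μ) ^ m := by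
  classical
  set σ := p.roots.toFinset with hσ
  set f : Ω → Polynomial Ω := fun μ => (X - C μ) ^ p.roots.count μ with hf
  have hprod : p = ∏ μ ∈ σ, f μ := by
    conv_lhs => rw [(IsAlgClosed.splits p).eq_prod_roots_of_monic hp]
    rw [Finset.prod_multiset_map_count]
  have hcop : ∀ μ ν, μ ≠ ν → IsCoprime (f μ) (f ν) := fun μ ν h =>
    (isCoprime_X_sub_C_of_isUnit_sub (sub_ne_zero_of_ne h).isUnit).pow
  set P : Ω → Polynomial Ω := fun μ => ∏ ν ∈ σ.erase μ, f ν with hP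
  have hcP : ∀ μ, IsCoprime (f μ) (P μ) := fun μ =>
    IsCoprime.prod_right fun ν hν => hcop μ ν (Finset.ne_of_mem_erase hν).symm
  choose a b hab using hcP
  have hfP : ∀ μ ∈ σ, f μ * P μ = p := fun μ hμ => by
    rw [hprod, hP]
    exact Finset.mul_prod_erase σ f hμ
  have hdv : ∀ μ ν, ν ∈ σ → μ ≠ ν → f ν ∣ P μ := fun μ ν hν h =>
    Finset.dvd_prod_of_mem f (Finset.mem_erase.2 ⟨h.symm, hν⟩)
  refine ⟨σ, fun μ => if μ ∈ σ then b μ * P μ else 0, fun μ hμ => if_neg hμ, ?_, ?_, ?_⟩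
  · conv_lhs => rw [hprod]
    refine Finset.prod_dvd_of_coprime (fun μ _ ν _ h => hcop μ ν h) fun ν hν => ?_
    rw [← Finset.add_sum_erase σ _ hν, if_pos hν]
    have e1 : b ν * P ν + ∑ μ ∈ σ.erase ν, (if μ ∈ σ then b μ * P μ else 0) - 1 =
        ∑ μ ∈ σ.erase ν, (if μ ∈ σ then b μ * P μ else 0) - a ν * f ν := by
      rw [← hab ν]
      ring
    rw [e1]
    refine dvd_sub (Finset.dvd_sum fun μ hμ => ?_) (dvd_mul_left _ _)
    rw [if_pos (Finset.mem_of_mem_erase hμ)]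
    exact (hdv μ ν hν (Finset.ne_of_mem_erase hμ)).mul_left _
  · intro μ ν h
    by_cases hμ : μ ∈ σ
    · by_cases hν : ν ∈ σ
      · simp only [if_pos hμ, if_pos hν]
        rw [← hfP ν hν]
        exact mul_dvd_mul ((hdv μ ν hν h).mul_left _) (dvd_mul_left _ _)
      · simp [hν]
    · simp [hμ]
  · intro μ
    by_cases hμ : μ ∈ σ
    · refine ⟨p.roots.count μ + 1, ?_⟩
      simp only [if_pos hμ]
      rw [mul_pow]
      refine (hfP μ hμ).symm.dvd.trans (mul_dvd_mul ?_ ?_)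
      · exact pow_dvd_pow _ (Nat.le_succ _)
      · exact (dvd_mul_left _ _).trans (dvd_pow_self _ (Nat.succ_ne_zero _))
    · exact ⟨1, by simp [hμ]⟩

theorem exists_spec [IsAlgClosed Ω] (Y : Matrix n n Ω) : ∃ σ π, IsSpec Y σ π := by
  classical
  obtain ⟨σ, e, h0, h1, h2, h3⟩ := exists_spec_poly Y.charpoly Y.charpoly_monic
  have hz : ∀ q, Y.charpoly ∣ q → Polynomial.aeval Y q = 0 := by
    rintro q ⟨c, rfl⟩
    rw [map_mul, Matrix.aeval_self_charpoly, zero_mul]
  have hs : ∑ μ ∈ σ, Polynomial.aeval Y (e μ) = 1 := by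
    have h := hz _ h1
    rw [map_sub, map_sum, map_one] at h
    exact sub_eq_zero.1 h
  have ho : ∀ μ ν, μ ≠ ν → Polynomial.aeval Y (e μ) * Polynomial.aeval Y (e ν) = 0 :=
    fun μ ν h => by rw [← map_mul, hz _ (h2 μ ν h)]
  refine ⟨σ.filter fun μ => Polynomial.aeval Y (e μ) ≠ 0, fun μ => Polynomial.aeval Y (e μ),
    ?_, ?_, ho, ?_, ?_, ?_⟩
  · rw [Finset.sum_filter_ne_zero, hs]
  · intro μ
    by_cases hμ : μ ∈ σ
    · conv_rhs => rw [← mul_one (Polynomial.aeval Y (e μ)), ← hs, Finset.mul_sum]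
      rw [Finset.sum_eq_single μ (fun ν _ hν => ho μ ν hν.symm) (fun h => (h hμ).elim)]
    · simp [h0 μ hμ]
  · intro μ
    rw [Finset.mem_filter]
    refine ⟨fun h => ⟨?_, h⟩, fun h => h.2⟩
    by_contra hμ
    exact h (by simp [h0 μ hμ])
  · intro μ y hy
    induction e μ using Polynomial.induction_on' with
    | add p q hp hq =>
      rw [map_add]
      exact hp.add_left hq
    | monomial k c =>
      rw [Polynomial.aeval_monomial]
      exact Commute.mul_left (Algebra.commutes c y) (hy.pow_left k)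
  · intro μ
    obtain ⟨m, hm⟩ := h3 μ
    refine ⟨m, ?_⟩
    have h := hz _ hm
    rw [map_pow, map_mul, map_sub, Polynomial.aeval_X, Polynomial.aeval_C,
      Algebra.algebraMap_eq_smul_one] at h
    exact h

theorem commute_smul_one (μ : Ω) (y : Matrix n n Ω) : Commute (μ • (1 : Matrix n n Ω)) y :=
  (Commute.one_left y).smul_left μ

namespace IsSpec

variable {Y : Matrix n n Ω} {σ σ' : Finset Ω} {π π' : Ω → Matrix n n Ω}

theorem eq_zero (h : IsSpec Y σ π) {μ : Ω} (hμ : μ ∉ σ) : π μ = 0 := by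
  by_contra h0
  exact hμ ((h.ne μ).1 h0)

theorem comm_self (h : IsSpec Y σ π) (μ : Ω) : Commute (π μ) Y := h.comm μ Y (Commute.refl Y)

theorem comm_sub (h : IsSpec Y σ π) (μ ν : Ω) :
    Commute (π μ) (Y - ν • (1 : Matrix n n Ω)) :=
  (h.comm_self μ).sub_right (commute_smul_one ν _).symm

theorem comm_sub_sub (Y : Matrix n n Ω) (μ ν : Ω) :
    Commute (Y - μ • (1 : Matrix n n Ω)) (Y - ν • (1 : Matrix n n Ω)) :=
  ((Commute.refl Y).sub_right (commute_smul_one ν _).symm).sub_left (commute_smul_one μ _)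

theorem mul_eq_zero (h : IsSpec Y σ π) (h' : IsSpec Y σ' π') {μ ν : Ω} (hμ : μ ≠ ν) :
    π μ * π' ν = 0 := by
  have hc : Commute (π μ) (π' ν) := h.comm μ _ (h'.comm_self ν).symm
  have hid : IsIdempotentElem (π μ * π' ν) :=
    IsIdempotentElem.mul_of_commute hc (h.idem μ) (h'.idem ν)
  have h1 : IsNilpotent ((Y - μ • (1 : Matrix n n Ω)) * (π μ * π' ν)) := by
    rw [← mul_assoc]
    exact Commute.isNilpotent_mul_right ((h'.comm_sub ν μ).symm.mul_left hc) (h.nil μ)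
  have h2 : IsNilpotent ((Y - ν • (1 : Matrix n n Ω)) * (π μ * π' ν)) := by
    rw [hc.eq, ← mul_assoc]
    exact Commute.isNilpotent_mul_right ((h.comm_sub μ ν).symm.mul_left hc.symm) (h'.nil ν)
  have hp : ∀ κ : Ω, Commute (π μ * π' ν) (Y - κ • (1 : Matrix n n Ω)) := fun κ =>
    (h.comm_sub μ κ).mul_left (h'.comm_sub ν κ)
  have h3 := Commute.isNilpotent_sub
    (((comm_sub_sub Y μ ν).mul_right (hp μ).symm).mul_left
      ((hp ν).mul_right (Commute.refl _))) h1 h2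
  have e : (Y - μ • (1 : Matrix n n Ω)) * (π μ * π' ν) - (Y - ν • (1 : Matrix n n Ω)) *
      (π μ * π' ν) = (ν - μ) • (π μ * π' ν) := by
    simp only [sub_mul, smul_mul_assoc, one_mul, sub_smul]
    abel
  rw [e] at h3
  have h4 := h3.smul (ν - μ)⁻¹
  rw [smul_smul, inv_mul_cancel₀ (sub_ne_zero.2 hμ.symm), one_smul] at h4
  exact hid.eq_zero_of_isNilpotent h4

theorem unique (h : IsSpec Y σ π) (h' : IsSpec Y σ' π') : π = π' := by
  funext μ
  have h1 : π μ = π μ * π' μ := by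
    conv_lhs => rw [← mul_one (π μ), ← h'.sum, Finset.mul_sum]
    exact Finset.sum_eq_single μ (fun ν _ hν => h.mul_eq_zero h' hν.symm)
      (fun hμ => by rw [h'.eq_zero hμ, mul_zero])
  have h2 : π' μ = π μ * π' μ := by
    conv_lhs => rw [← one_mul (π' μ), ← h.sum, Finset.sum_mul]
    exact Finset.sum_eq_single μ (fun ν _ hν => h.mul_eq_zero h' hν)
      (fun hμ => by rw [h.eq_zero hμ, zero_mul])
  exact h1.trans h2.symm

theorem map (h : IsSpec Y σ π) (φ : Ω ≃+* Ω) :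
    IsSpec (Y.map φ) (σ.map φ.toEquiv.toEmbedding) fun ν => (π (φ.symm ν)).map φ := by
  let Φ : Matrix n n Ω ≃+* Matrix n n Ω := φ.mapMatrix
  have hΦ : ∀ M : Matrix n n Ω, M.map φ = Φ M := fun M => rfl
  simp only [hΦ]
  refine ⟨?_, fun μ => ?_, fun μ ν hμ => ?_, fun μ => ?_, fun μ y hy => ?_, fun μ => ?_⟩
  · rw [Finset.sum_map]
    have e : ∀ μ, φ.symm (φ.toEquiv.toEmbedding μ) = μ := fun μ => φ.symm_apply_apply μ
    simp only [e]
    rw [← map_sum, h.sum, map_one]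
  · rw [← map_mul, h.idem]
  · rw [← map_mul, h.orth _ _ (φ.symm.injective.ne hμ), map_zero]
  · rw [map_ne_zero_iff _ Φ.injective, h.ne, Finset.mem_map_equiv]
    rfl
  · obtain ⟨z, rfl⟩ := Φ.surjective y
    have hz : Commute Y z := Φ.injective (by rw [map_mul, map_mul]; exact hy)
    exact (h.comm _ z hz).map Φ
  · have h1 := (h.nil (φ.symm μ)).map Φ
    have e : Φ ((φ.symm μ) • (1 : Matrix n n Ω)) = μ • (1 : Matrix n n Ω) := by
      ext i j
      rw [← hΦ]
      by_cases hij : i = j <;> simp [hij, one_apply]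
    rwa [map_mul, map_sub, e] at h1

/-- Compatibility with automorphisms of the field which fix the matrix. -/
theorem map_eq (h : IsSpec Y σ π) (φ : Ω ≃+* Ω) (hY : Y.map φ = Y) (μ : Ω) :
    (π μ).map φ = π (φ μ) := by
  have h1 := h.map φ
  rw [hY] at h1
  have h2 := congrFun (h1.unique h) (φ μ)
  simpa using h2

theorem trace_pow (h : IsSpec Y σ π) (k : ℕ) :
    (Y ^ k).trace = ∑ μ ∈ σ, μ ^ k * (π μ).trace := by
  conv_lhs => rw [← mul_one (Y ^ k), ← h.sum, Finset.mul_sum, trace_sum]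
  refine Finset.sum_congr rfl fun μ _ => ?_
  have hc : Commute Y (μ • (1 : Matrix n n Ω)) := (commute_smul_one μ Y).symm
  have h1 := hc.geom_sum₂_mul k
  set G := ∑ i ∈ Finset.range k, Y ^ i * (μ • (1 : Matrix n n Ω)) ^ (k - 1 - i) with hG
  have hGc : ∀ y, Commute Y y → Commute G y := fun y hy =>
    Commute.sum_left _ _ _ fun i _ => (hy.pow_left i).mul_left ((commute_smul_one μ y).pow_left _)
  have h2 : IsNilpotent (G * ((Y - μ • (1 : Matrix n n Ω)) * π μ)) :=
    Commute.isNilpotent_mul_left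
      (hGc _ (((Commute.refl Y).sub_right hc).mul_right (h.comm_self μ).symm)) (h.nil μ)
  rw [← mul_assoc, h1] at h2
  have h3 := (Matrix.isNilpotent_trace_of_isNilpotent h2).eq_zero
  rw [sub_mul, trace_sub, smul_pow, one_pow, smul_mul_assoc, one_mul, trace_smul,
    smul_eq_mul] at h3
  exact sub_eq_zero.1 h3

/-- The trace of a nonzero projection is a positive integer. -/
theorem trace_nat (h : IsSpec Y σ π) (μ : Ω) :
    ∃ m : ℕ, (π μ).trace = m ∧ (μ ∈ σ → 0 < m) := by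
  have hid : IsIdempotentElem (Matrix.toLin' (π μ)) := by
    change Matrix.toLin' (π μ) ∘ₗ Matrix.toLin' (π μ) = _
    rw [← Matrix.toLin'_mul, h.idem]
  refine ⟨Module.finrank Ω (LinearMap.range (Matrix.toLin' (π μ))), ?_, fun hμ => ?_⟩
  · rw [← (LinearMap.IsIdempotentElem.isProj_range _ hid).trace, Matrix.trace_toLin'_eq]
  · rw [Nat.pos_iff_ne_zero]
    intro h0
    rw [Submodule.finrank_eq_zero, LinearMap.range_eq_bot] at h0
    exact (h.ne μ).2 hμ ((map_eq_zero_iff _ Matrix.toLin'.injective).1 h0)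

theorem isNilpotent_sub (h : IsSpec Y σ π) : IsNilpotent (Y - ∑ μ ∈ σ, μ • π μ) := by
  have e : Y - ∑ μ ∈ σ, μ • π μ = ∑ μ ∈ σ, (Y - μ • (1 : Matrix n n Ω)) * π μ := by
    simp only [sub_mul, smul_mul_assoc, one_mul, Finset.sum_sub_distrib]
    rw [← Finset.mul_sum, h.sum, mul_one]
  rw [e]
  refine Commute.isNilpotent_sum (fun μ _ => h.nil μ) fun μ ν _ _ => ?_
  exact ((comm_sub_sub Y μ ν).mul_right (h.comm_sub ν μ).symm).mul_left
    ((h.comm_sub μ ν).mul_right (h.comm μ _ (h.comm_self ν).symm))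

theorem not_isUnit (h : IsSpec Y σ π) {μ : Ω} (hμ : μ ∈ σ) :
    ¬ IsUnit (Y - μ • (1 : Matrix n n Ω)) := by
  intro hu
  have h1 : IsNilpotent (π μ) :=
    (Commute.isNilpotent_mul_left_iff (h.comm_sub μ μ).symm
      (IsUnit.mem_nonZeroDivisors hu).1).1 (h.nil μ)
  exact (h.ne μ).2 hμ (IsIdempotentElem.eq_zero_of_isNilpotent (h.idem μ) h1)

theorem ne_zero (h : IsSpec Y σ π) (hY : Y.det ≠ 0) {μ : Ω} (hμ : μ ∈ σ) : μ ≠ 0 := by
  rintro rfl
  refine h.not_isUnit hμ ?_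
  rw [zero_smul, sub_zero, isUnit_iff_isUnit_det]
  exact hY.isUnit

theorem isUnit_sub (h : IsSpec Y σ π) {μ : Ω} (hμ : μ ∉ σ) :
    IsUnit (Y - μ • (1 : Matrix n n Ω)) := by
  have hu : IsUnit (∑ ν ∈ σ, (ν - μ) • π ν) := by
    refine IsUnit.of_mul_eq_one (∑ ν ∈ σ, (ν - μ)⁻¹ • π ν) ?_
    rw [Finset.sum_mul, ← h.sum]
    refine Finset.sum_congr rfl fun ν hν => ?_
    rw [Finset.mul_sum, Finset.sum_eq_single ν]
    · rw [smul_mul_smul_comm, h.idem, mul_inv_cancel₀, one_smul]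
      exact sub_ne_zero.2 fun e => hμ (e ▸ hν)
    · intro κ _ hκ
      rw [smul_mul_smul_comm, h.orth _ _ hκ.symm, smul_zero]
    · exact fun h' => (h' hν).elim
  have e : Y - μ • (1 : Matrix n n Ω) = (Y - ∑ ν ∈ σ, ν • π ν) + ∑ ν ∈ σ, (ν - μ) • π ν := by
    simp only [sub_smul, Finset.sum_sub_distrib]
    rw [← Finset.smul_sum, h.sum]
    abel
  rw [e]
  refine h.isNilpotent_sub.isUnit_add_right_of_commute hu ?_
  refine Commute.sum_right _ _ _ fun ν _ => Commute.smul_right ?_ _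
  refine (h.comm_self ν).symm.sub_left (Commute.sum_left _ _ _ fun κ _ => ?_)
  exact (h.comm κ _ (h.comm_self ν).symm).smul_left _

theorem isRoot (h : IsSpec Y σ π) {μ : Ω} : μ ∈ σ ↔ Y.charpoly.IsRoot μ := by
  have e : Y.charpoly.IsRoot μ ↔ ¬ IsUnit (Y - μ • (1 : Matrix n n Ω)) := by
    rw [Polynomial.IsRoot, Matrix.eval_charpoly, ← IsUnit.neg_iff, neg_sub,
      isUnit_iff_isUnit_det, isUnit_iff_ne_zero, not_not]
    have e2 : (Matrix.scalar n μ : Matrix n n Ω) = μ • (1 : Matrix n n Ω) := by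
      rw [scalar_apply, smul_one_eq_diagonal]
    rw [e2]
  rw [e]
  exact ⟨h.not_isUnit, fun h1 => by_contra fun hμ => h1 (h.isUnit_sub hμ)⟩

theorem exists_pow_mulVec (h : IsSpec Y σ π) (μ : Ω) :
    ∃ k : ℕ, ∀ v : n → Ω, (Y - μ • (1 : Matrix n n Ω)) ^ k *ᵥ (π μ *ᵥ v) = 0 := by
  obtain ⟨k, hk⟩ := h.nil μ
  refine ⟨k + 1, fun v => ?_⟩
  have h1 : ((Y - μ • (1 : Matrix n n Ω)) * π μ) ^ (k + 1) = 0 := by rw [pow_succ, hk, zero_mul]
  rw [(h.comm_sub μ μ).symm.mul_pow, IsIdempotentElem.pow_succ_eq k (h.idem μ)] at h1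
  rw [mulVec_mulVec, h1, zero_mulVec]

/-- The induction on the filtration by the kernels of the powers. -/
theorem ml_induction {a : ℕ} (m : MultilinearMap Ω (fun _ : Fin a => n → Ω) Ω)
    (N : Fin a → Matrix n n Ω)
    (hstep : ∀ x : Fin a → n → Ω, (∀ s : Finset (Fin a), s.Nonempty → ∀ c : Fin a → Ω,
      m (s.piecewise (fun r => N r *ᵥ x r) fun r => c r • x r) = 0) → m x = 0) :
    ∀ (K : ℕ) (k : Fin a → ℕ), ∑ r, k r = K → ∀ x : Fin a → n → Ω,
      (∀ r, N r ^ k r *ᵥ x r = 0) → m x = 0 := by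
  intro K
  induction K using Nat.strong_induction_on with
  | _ K ih =>
    intro k hk x hx
    by_cases h0 : ∃ r, k r = 0
    · obtain ⟨r, hr⟩ := h0
      have h1 := hx r
      rw [hr, pow_zero, one_mulVec] at h1
      exact m.map_coord_zero r h1
    push Not at h0
    refine hstep x fun s hs c => ?_
    refine ih (∑ r, if r ∈ s then k r - 1 else k r) ?_ _ rfl _ fun r => ?_
    · rw [← hk]
      obtain ⟨r, hr⟩ := hs
      refine Finset.sum_lt_sum (fun i _ => ?_) ⟨r, Finset.mem_univ r, ?_⟩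
      · split_ifs <;> omega
      · rw [if_pos hr]
        have := h0 r
        omega
    · by_cases hr : r ∈ s
      · rw [if_pos hr, Finset.piecewise_eq_of_mem _ _ _ hr, mulVec_mulVec, ← pow_succ,
          Nat.sub_add_cancel (Nat.pos_of_ne_zero (h0 r)), hx]
      · rw [if_neg hr, Finset.piecewise_eq_of_notMem _ _ _ hr, mulVec_smul, hx, smul_zero]

theorem mulVec_split (Y : Matrix n n Ω) (μ : Ω) (v : n → Ω) :
    Y *ᵥ v = (Y - μ • (1 : Matrix n n Ω)) *ᵥ v + μ • v := by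
  rw [sub_mulVec, smul_mulVec, one_mulVec, sub_add_cancel]

variable {S : Sys n}

/-- Weights for an element of the group. -/
theorem ev_eq_zero_of_mon (h : IsSpec Y σ π) (hY : Y ∈ S.mon Ω) {τ : Tn n} (hτ : τ ∈ S.T)
    (μ : Fin τ.1 → Ω) (hμ : ∏ r, μ r ≠ 1) (x : Fin τ.1 → n → Ω) :
    ev τ.2 Ω (fun r => π (μ r) *ᵥ x r) = 0 := by
  choose k hk using fun r => h.exists_pow_mulVec (μ r)
  refine ml_induction (ev τ.2 Ω) (fun r => Y - μ r • (1 : Matrix n n Ω)) ?_ _ k rfl _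
    fun r => hk r _
  intro y hy
  have h1 := hY τ hτ y
  have e : (fun r => Y *ᵥ y r) =
      (fun r => (Y - μ r • (1 : Matrix n n Ω)) *ᵥ y r) + fun r => μ r • y r :=
    funext fun r => mulVec_split Y (μ r) (y r)
  rw [e, MultilinearMap.map_add_univ, Finset.sum_eq_single ∅
    (fun s _ hs => hy s (Finset.nonempty_iff_ne_empty.2 hs) μ) (by simp),
    Finset.piecewise_empty, MultilinearMap.map_smul_univ, smul_eq_mul] at h1
  have h2 : (∏ r, μ r - 1) * ev τ.2 Ω y = 0 := by rw [sub_mul, h1, one_mul, sub_self]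
  exact (_root_.mul_eq_zero.1 h2).resolve_left (sub_ne_zero.2 hμ)

/-- Weights for an element of the Lie algebra. -/
theorem ev_eq_zero_of_lie (h : IsSpec Y σ π) (hY : Y ∈ S.lie Ω) {τ : Tn n} (hτ : τ ∈ S.T)
    (μ : Fin τ.1 → Ω) (hμ : ∑ r, μ r ≠ 0) (x : Fin τ.1 → n → Ω) :
    ev τ.2 Ω (fun r => π (μ r) *ᵥ x r) = 0 := by
  choose k hk using fun r => h.exists_pow_mulVec (μ r)
  refine ml_induction (ev τ.2 Ω) (fun r => Y - μ r • (1 : Matrix n n Ω)) ?_ _ k rfl _
    fun r => hk r _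
  intro y hy
  have h1 := hY τ hτ y
  have e : ∀ r, ev τ.2 Ω (Function.update y r (Y *ᵥ y r)) = μ r * ev τ.2 Ω y := by
    intro r
    rw [mulVec_split Y (μ r) (y r), MultilinearMap.map_update_add,
      MultilinearMap.map_update_smul, Function.update_eq_self, smul_eq_mul]
    have h2 := hy {r} (Finset.singleton_nonempty r) fun _ => 1
    rw [Finset.piecewise_singleton] at h2
    simp only [one_smul] at h2
    rw [h2, zero_add]
  simp only [e] at h1
  rw [← Finset.sum_mul] at h1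
  exact (_root_.mul_eq_zero.1 h1).resolve_left hμ

end IsSpec

/-- A finite family of orthogonal idempotents with sum one. -/
structure IsDec {F I : Type} [Field F] [Fintype I] (e : I → Matrix n n F) : Prop where
  sum : ∑ i, e i = 1
  idem : ∀ i, e i * e i = e i
  orth : ∀ i j, i ≠ j → e i * e j = 0

/-- The index map `c` is relevant: some tensor does not vanish on the product of the summands. -/
def Sys.Rel (S : Sys n) {F I : Type} [Field F] (e : I → Matrix n n F) {a : ℕ} (c : Fin a → I) :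
    Prop :=
  ∃ t : (Fin a → n) → ℚ, (⟨a, t⟩ : Tn n) ∈ S.T ∧ ∃ x : Fin a → n → F,
    ev t F (fun r => e (c r) *ᵥ x r) ≠ 0

section dec

variable {S : Sys n} {F I : Type} [Field F] [Fintype I] {e : I → Matrix n n F}

omit [DecidableEq n] in
/-- Expansion of a multilinear form on weighted sums. -/
theorem ml_expand {a : ℕ} (m : MultilinearMap F (fun _ : Fin a => n → F) F)
    (e : I → Matrix n n F) (w : Fin a → I → F) (x : Fin a → n → F) :
    m (fun r => (∑ i, w r i • e i) *ᵥ x r) =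
      ∑ c : Fin a → I, (∏ r, w r (c r)) * m fun r => e (c r) *ᵥ x r := by
  simp only [sum_mulVec, smul_mulVec]
  rw [m.map_sum fun r i => w r i • e i *ᵥ x r]
  refine Finset.sum_congr rfl fun c _ => ?_
  rw [MultilinearMap.map_smul_univ, smul_eq_mul]

theorem IsDec.sum_mul (he : IsDec e) (w : I → F) (j : I) : (∑ i, w i • e i) * e j = w j • e j := by
  rw [Finset.sum_mul, Finset.sum_eq_single j]
  · rw [smul_mul_assoc, he.idem]
  · intro i _ hi
    rw [smul_mul_assoc, he.orth _ _ hi, smul_zero]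
  · simp

theorem IsDec.sum_mem_mon (he : IsDec e) (w : I → F)
    (hw : ∀ {a : ℕ} (c : Fin a → I), S.Rel e c → ∏ r, w (c r) = 1) :
    ∑ i, w i • e i ∈ S.mon F := by
  intro τ hτ x
  have h1 := ml_expand (ev τ.2 F) e (fun _ _ => 1) x
  simp only [one_smul, he.sum, one_mulVec, Finset.prod_const_one, one_mul] at h1
  rw [ml_expand (ev τ.2 F) e (fun _ => w) x]
  refine Eq.trans (Finset.sum_congr rfl fun c _ => ?_) h1.symm
  by_cases h0 : ev τ.2 F (fun r => e (c r) *ᵥ x r) = 0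
  · rw [h0, mul_zero]
  · rw [hw c ⟨τ.2, hτ, x, h0⟩, one_mul]

theorem IsDec.sum_mem_lie (he : IsDec e) (w : I → F)
    (hw : ∀ {a : ℕ} (c : Fin a → I), S.Rel e c → ∑ r, w (c r) = 0) :
    ∑ i, w i • e i ∈ S.lie F := by
  intro τ hτ x
  have h1 : ∀ r, ev τ.2 F (Function.update x r ((∑ i, w i • e i) *ᵥ x r)) =
      ∑ c : Fin τ.1 → I, w (c r) * ev τ.2 F fun r' => e (c r') *ᵥ x r' := by
    intro r
    have h2 := ml_expand (ev τ.2 F) e (fun r' i => if r' = r then w i else 1) x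
    simp only [Finset.prod_ite_eq', Finset.mem_univ, if_true] at h2
    rw [← h2]
    congr 1
    funext r'
    by_cases hr : r' = r
    · subst hr
      simp
    · simp [hr, he.sum]
  simp only [h1]
  rw [Finset.sum_comm]
  refine Finset.sum_eq_zero fun c _ => ?_
  rw [← Finset.sum_mul]
  by_cases h0 : ev τ.2 F (fun r => e (c r) *ᵥ x r) = 0
  · rw [h0, mul_zero]
  · rw [hw c ⟨τ.2, hτ, x, h0⟩, zero_mul]

theorem IsDec.prod_eq_one (he : IsDec e) {w : I → F} (hw : ∑ i, w i • e i ∈ S.mon F)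
    {a : ℕ} {c : Fin a → I} (hc : S.Rel e c) : ∏ r, w (c r) = 1 := by
  obtain ⟨t, ht, x, hx⟩ := hc
  have h1 := hw ⟨a, t⟩ ht fun r => e (c r) *ᵥ x r
  simp only [mulVec_mulVec, he.sum_mul, smul_mulVec] at h1
  rw [MultilinearMap.map_smul_univ, smul_eq_mul] at h1
  exact mul_right_cancel₀ hx (h1.trans (one_mul _).symm)

theorem IsDec.sum_eq_zero (he : IsDec e) {w : I → F} (hw : ∑ i, w i • e i ∈ S.lie F)
    {a : ℕ} {c : Fin a → I} (hc : S.Rel e c) : ∑ r, w (c r) = 0 := by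
  obtain ⟨t, ht, x, hx⟩ := hc
  have h1 := hw ⟨a, t⟩ ht fun r => e (c r) *ᵥ x r
  have h2 : ∀ r, ev t F (Function.update (fun r => e (c r) *ᵥ x r) r
      ((∑ i, w i • e i) *ᵥ (e (c r) *ᵥ x r))) = w (c r) * ev t F fun r => e (c r) *ᵥ x r := by
    intro r
    rw [mulVec_mulVec, he.sum_mul, smul_mulVec, MultilinearMap.map_update_smul, smul_eq_mul]
    congr 2
    exact Function.update_eq_self r fun r => e (c r) *ᵥ x r
  simp only [h2] at h1
  rw [← Finset.sum_mul] at h1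
  exact (mul_eq_zero.1 h1).resolve_right hx

omit [Fintype I] in
/-- The coordinate form of the relevance. -/
theorem Sys.rel_iff {a : ℕ} {c : Fin a → I} : S.Rel e c ↔
    ∃ t : (Fin a → n) → ℚ, (⟨a, t⟩ : Tn n) ∈ S.T ∧ ∃ i : Fin a → n,
      ∑ j : Fin a → n, (t j : F) * ∏ r, e (c r) (j r) (i r) ≠ 0 := by
  have h1 : ∀ (t : (Fin a → n) → ℚ) (i : Fin a → n),
      ev t F (fun r => e (c r) *ᵥ Pi.single (i r) 1) =
        ∑ j : Fin a → n, (t j : F) * ∏ r, e (c r) (j r) (i r) := by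
    intro t i
    rw [ev_apply]
    simp
  refine exists_congr fun t => and_congr_right fun _ => ⟨?_, ?_⟩
  · rintro ⟨x, hx⟩
    by_contra h0
    push Not at h0
    have h2 : (ev t F).compLinearMap (fun r => (e (c r)).mulVecLin) = 0 := by
      refine Module.Basis.ext_multilinear (fun _ => Pi.basisFun F n) fun i => ?_
      simp only [MultilinearMap.compLinearMap_apply, Pi.basisFun_apply, mulVecLin_apply]
      rw [h1, h0]
      rfl
    exact hx (congrArg (fun m => m x) h2)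
  · rintro ⟨i, hi⟩
    exact ⟨fun r => Pi.single (i r) 1, by rwa [h1]⟩

theorem Sys.rel_map {F' : Type} [Field F'] [CharZero F] [CharZero F'] (φ : F →+* F') {a : ℕ}
    {c : Fin a → I} : S.Rel (fun i => (e i).map φ) c ↔ S.Rel e c := by
  rw [Sys.rel_iff, Sys.rel_iff]
  refine exists_congr fun t => and_congr_right fun _ => exists_congr fun i => ?_
  rw [← map_ne_zero_iff φ φ.injective (x := ∑ j : Fin a → n, _)]
  simp [map_sum, map_prod]

end dec

/-- Galois descent for matrices. -/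
theorem exists_map_of_fixed {F : Type} [Field F] [Algebra F Ω] [IsGalois F Ω] {M : Matrix n n Ω}
    (h : ∀ φ : Ω ≃ₐ[F] Ω, M.map φ = M) : ∃ M₀ : Matrix n n F, M₀.map (algebraMap F Ω) = M := by
  have h1 : ∀ i j, M i j ∈ Set.range (algebraMap F Ω) := fun i j =>
    (InfiniteGalois.mem_range_algebraMap_iff_fixed _).2 fun φ => congrFun (congrFun (h φ) i) j
  choose M₀ hM₀ using h1
  exact ⟨Matrix.of M₀, by ext i j; exact hM₀ i j⟩

end Vale.Agent.P011Z
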