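import Vale.Agent.P011Z.FinDefs
import Vale.Agent.P011.H900.BrgE2

/-!
The groups of type `E₆` with trivial Tits class and the inner ones: transfer of the simplicity.
-/

open Module

namespace Vale.Agent.P011Z

open Vale.Agent.P011 Vale.Agent.P011.H900 Vale.Agent.P011.MPQ Vale.Agent.P011.D4
  Vale.Agent.P011.E6 Vale.Agent.P011.E6H

theorem simp_of {V W : Type} (e : V ≃ W) (G : Subgroup (Equiv.Perm W)) (P : (V → V) → Prop)
    (h : ∀ g : Equiv.Perm V, P g ↔ e.permCongr g ∈ G) (hG : OnlyCentral G) : Simp P := by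
  intro N hN hc
  let φ := gEquiv e G P h
  rcases hG (N.map φ.toMonoidHom) (hN.map _ φ.surjective) with h1 | h1
  · refine absurd (fun x hx => Subgroup.mem_center_iff.2 fun y => φ.injective ?_) hc
    rw [map_mul, map_mul]
    exact Subgroup.mem_center_iff.1 (h1 ⟨x, hx, rfl⟩) _
  · refine eq_top_iff.2 fun x _ => ?_
    obtain ⟨y, hy, hy2⟩ : φ x ∈ N.map φ.toMonoidHom := h1 ▸ Subgroup.mem_top _
    exact φ.injective hy2 ▸ hy

/-- The first clause in the old letters. -/
def Sim1 : Prop :=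
  ∀ {k K : Type} [Field k] [NumberField k] [Field K] [Algebra k K], finrank k K = 2 →
    ∀ σ : K ≃ₐ[k] K, (∃ x, σ x ≠ x) → ∀ {a b c : kˣ}, Oct.Division (up K a) (up K b) (up K c) →
    ∀ g : Fin 3 → kˣ, (∀ x : AlbL K a b c, E6H.her σ (upG K g) x x = 0 → x = 0) →
    OnlyCentral (GHer σ (upG K g) a b c)

/-- The second clause in the old letters. -/
def Sim2 : Prop :=
  ∀ {k L : Type} [Field k] [NumberField k] [Field L] [Algebra k L], finrank k L = 3 →
    ∀ ρ : L ≃ₐ[k] L, (∃ x, ρ x ≠ x) → ∀ lam : kˣ, (∀ x : L, Algebra.norm k x ≠ lam) →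
    ∀ {a b c : kˣ}, Oct.Division a b c → OnlyCentral (GPh ρ (up L lam) a b c)

variable {F : Type} [Field F] [NumberField F]

theorem simp_e1_of (H : Sim1) {s : F → F} {a b c : F} {g : Fin 3 → F} (hs : Aut 2 s)
    (hd : Dvn [s] [] a b c) (hg : ∀ i, s (g i) = g i)
    (ha : ∀ x : Al a b, H900.her c s g x x = 0 → x = 0) :
    Simp fun f : Al a b → Al a b => Cub c f ∧ Her c s g f := by
  have hA : IsA s := hs.isA two_ne_zero
  obtain ⟨k, _, _, _, hfin, hgal, hfix, haut, hcl⟩ := exists_base [s] (by simpa using hA)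
  obtain ⟨ha0, hb0, hc0⟩ := hd.ne (by simp)
  have hg0 := g_ne hA ha
  obtain ⟨a, rfl⟩ := unit_of hfix (by simpa using (hd.1 s (by simp)).1) ha0
  obtain ⟨b, rfl⟩ := unit_of hfix (by simpa using (hd.1 s (by simp)).2.1) hb0
  obtain ⟨c, rfl⟩ := unit_of hfix (by simpa using (hd.1 s (by simp)).2.2) hc0
  have hg1 : ∀ i, ∃ u : kˣ, ((up F u : Fˣ) : F) = g i := fun i =>
    unit_of hfix (by simpa using hg i) (hg0 i)
  choose g' hg' using hg1
  obtain rfl : (fun i => ((upG F g' i : Fˣ) : F)) = g := funext hg'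
  obtain ⟨σ, rfl⟩ := haut s (by simp)
  have h2 : finrank k F = 2 := rank2 hcl hs.exists_ne hs.two
  have h3 := H h2 σ hs.exists_ne (div_of_nil hd) g' (fun x hx => by
    obtain ⟨x, rfl⟩ := (aeL a b c).surjective x
    rw [← her_eq] at hx
    rw [ha x hx]
    rfl)
  exact simp_of (aeL a b c) _ _ (her_iff σ (upG F g')) h3

theorem simp_e2_of (H : Sim2) {r : F → F} {a b c e : F} (hr : Aut 3 r)
    (hd : Dvn [r] [r] a b c) (he : Nnm r e) :
    Simp fun f : Al a b → Al a b => Cub c f ∧ Ph r e f := by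
  have hA : IsA r := hr.isA three_ne_zero
  obtain ⟨k, _, _, _, hfin, hgal, hfix, haut, hcl⟩ := exists_base [r] (by simpa using hA)
  obtain ⟨ha0, hb0, hc0⟩ := hd.ne (by simpa using hA)
  have he0 : e ≠ 0 := fun h => he.2 0 (by rw [h, zero_mul, zero_mul])
  obtain ⟨a, rfl⟩ := unit_of hfix (by simpa using (hd.1 r (by simp)).1) ha0
  obtain ⟨b, rfl⟩ := unit_of hfix (by simpa using (hd.1 r (by simp)).2.1) hb0
  obtain ⟨c, rfl⟩ := unit_of hfix (by simpa using (hd.1 r (by simp)).2.2) hc0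
  obtain ⟨e, rfl⟩ := unit_of hfix (by simpa using he.1) he0
  obtain ⟨ρ, rfl⟩ := haut r (by simp)
  have h3 : finrank k F = 3 := rank3 hcl hr.exists_ne hr.three
  have hn : ∀ x : F, Algebra.norm k x ≠ e := by
    intro x hx
    apply he.2 x
    have h4 := congrArg (algebraMap k F) hx
    rw [Vale.Agent.P011.E6I.norm_rho h3 (ne_one hr.exists_ne)] at h4
    exact h4
  have h4 := H h3 ρ hr.exists_ne e hn (div_of haut hd)
  exact simp_of (aeL a b c) _ _ (ph_iff ρ (up F e)) h4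

end Vale.Agent.P011Z
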